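import Vale.Agent.P292.VF.Arc3

/-! # Arcs of curves: the limit. -/

namespace Vale.Agent.P292.VF

open MvPolynomial

universe u v w z

variable {R : Type u} [CommRing R] [Algebra ℂ R] {𝒜 : ℕ → Submodule ℂ R}
  {P : R →ₗ[ℂ] R →ₗ[ℂ] R} {κ : Type z} [Field κ] [Algebra ℂ κ] {d : ℕ}

/-- The first order arc with tangent vector `δ`. -/
theorem isArc_two {φ : R →ₐ[ℂ] MvPolynomial (Fin 2) κ} (h0 : IsCurve 𝒜 d φ)
    {δ : R →ₗ[ℂ] MvPolynomial (Fin 2) κ} (hδ : HZ 𝒜 d φ 0 δ) :
    IsArc 𝒜 d 2 φ (mapLin (cT κ) ∘ₗ φ.toLinearMap + mapLin (xT κ) ∘ₗ δ) := by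
  let Ψ : R →ₗ[ℂ] MvPolynomial (Fin 2) (PowerSeries κ) :=
    mapLin (cT κ) ∘ₗ φ.toLinearMap + mapLin (xT κ) ∘ₗ δ
  have hΨ : ∀ r, Ψ r = mapLin (cT κ) (φ r) + mapLin (xT κ) (δ r) := fun r => rfl
  let dM := mapLin (dX κ : PowerSeries κ →ₗ[ℂ] PowerSeries κ)
  have hc : ∀ r e, PowerSeries.coeff 0 (coeff e (Ψ r)) = coeff e (φ r) := fun r e => by
    rw [hΨ, coeff_add, coeff_mapLin, coeff_mapLin, map_add, coeff_cT, coeff_xT_zero,
      if_pos rfl, add_zero]
  have hc' : ∀ r, map (PowerSeries.constantCoeff : PowerSeries κ →+* κ) (Ψ r) = φ r :=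
    fun r => map_constantCoeff_eq_iff.mpr (hc r)
  have hd : ∀ r, dM (Ψ r) = mapLin (cT κ) (δ r) := fun r => by
    ext1 e
    change coeff e (mapLin _ (Ψ r)) = _
    rw [coeff_mapLin, hΨ, coeff_add, coeff_mapLin, coeff_mapLin, coeff_mapLin]
    change dX κ _ = _
    rw [map_add, dX_cT, dX_xT, zero_add]
  have hcd : ∀ p : MvPolynomial (Fin 2) κ,
      map (PowerSeries.constantCoeff : PowerSeries κ →+* κ) (mapLin (cT κ) p) = p := fun p =>
    map_constantCoeff_eq_iff.mpr fun e => by rw [coeff_mapLin, coeff_cT, if_pos rfl]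
  have hcong1 : ∀ p q : MvPolynomial (Fin 2) (PowerSeries κ),
      map (PowerSeries.constantCoeff : PowerSeries κ →+* κ) p =
        map (PowerSeries.constantCoeff : PowerSeries κ →+* κ) q → Cong 1 p q := by
    intro p q h e n hn
    obtain rfl : n = 0 := by omega
    have h1 := congrArg (coeff e) h
    rw [coeff_map, coeff_map] at h1
    rw [PowerSeries.coeff_zero_eq_constantCoeff_apply,
      PowerSeries.coeff_zero_eq_constantCoeff_apply]
    exact h1
  refine ⟨hc', ?_, fun r s => ?_, fun k r hr => ?_⟩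
  · refine cong_of_deriv (n := 1) (fun e => ?_) ?_
    · change PowerSeries.coeff 0 (coeff e (Ψ 1)) = _
      rw [hc, map_one]
      have h1 := map_constantCoeff_eq_iff.mp
        (map_one (map (PowerSeries.constantCoeff : PowerSeries κ →+* κ) :
          MvPolynomial (Fin 2) (PowerSeries κ) →+* MvPolynomial (Fin 2) κ)) e
      exact h1.symm
    · change Cong 1 (dM (Ψ 1)) (dM 1)
      have h1 : dM 1 = 0 := by
        ext1 e
        change coeff e (mapLin _ 1) = _
        rw [coeff_mapLin, coeff_zero, coeff_one]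
        split_ifs
        · exact (dX κ).map_one_eq_zero
        · exact map_zero _
      rw [hd, h1, isDer_one hδ.der, map_zero]
      exact fun _ _ _ => rfl
  · refine cong_of_deriv (n := 1) (fun e => ?_) ?_
    · change PowerSeries.coeff 0 (coeff e (Ψ (r * s))) = PowerSeries.coeff 0 (coeff e (Ψ r * Ψ s))
      rw [hc, map_mul]
      have h1 := map_constantCoeff_eq_iff.mp (show map
        (PowerSeries.constantCoeff : PowerSeries κ →+* κ) (Ψ r * Ψ s) = φ r * φ s by
          rw [map_mul, hc', hc']) e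
      exact h1.symm
    · change Cong 1 (dM (Ψ (r * s))) (dM (Ψ r * Ψ s))
      have h1 : dM (Ψ r * Ψ s) = Ψ r * dM (Ψ s) + Ψ s * dM (Ψ r) := mapLin_mul _ _ _
      apply hcong1
      rw [h1, hd, hd, hd, hcd, hδ.der, map_add, map_mul, map_mul, hcd, hcd, hc', hc']
  · refine (mapLin_isHomogeneous _ (h0.degree k r hr)).add (mapLin_isHomogeneous _ ?_)
    have h1 := hδ.deg k r hr
    rwa [add_zero] at h1

/-- The limit of a compatible sequence of truncated arcs. -/
theorem exists_limit [GradedAlgebra 𝒜] {φ : R →ₐ[ℂ] MvPolynomial (Fin 2) κ}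
    (F : ℕ → (R →ₗ[ℂ] MvPolynomial (Fin 2) (PowerSeries κ)))
    (hF : ∀ N, IsArc 𝒜 d (N + 2) φ (F N))
    (hF' : ∀ N r, Cong (N + 2) (F (N + 1) r) (F N r)) :
    ∃ Φ : R →ₐ[ℂ] MvPolynomial (Fin 2) (PowerSeries κ),
      (∀ k, ∀ r ∈ 𝒜 k, (Φ r).IsHomogeneous (d * k)) ∧ ∀ N r, Cong (N + 2) (Φ r) (F N r) := by
  classical
  have hmono : ∀ M N, N ≤ M → ∀ r, Cong (N + 2) (F M r) (F N r) := by
    intro M N hNM r
    induction M, hNM using Nat.le_induction with
    | base => exact fun _ _ _ => rfl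
    | succ M hM ih => exact ((hF' M r).mono (by omega)).trans ih
  -- finiteness of the supports
  have hsupp : ∀ r, ∃ E : Finset (Fin 2 →₀ ℕ), ∀ N, ∀ e, e ∉ E → coeff e (F N r) = 0 := by
    intro r
    refine DirectSum.Decomposition.inductionOn 𝒜 ?_ (fun {i} m => ?_) ?_ r
    · exact ⟨∅, fun N e _ => by rw [map_zero, coeff_zero]⟩
    · refine ⟨(Finsupp.finite_of_degree_le (σ := Fin 2) (d * i)).toFinset, fun N e he => ?_⟩
      by_contra hne
      apply he
      have h1 := (hF N).deg i m m.2 hne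
      rw [Set.Finite.mem_toFinset, Set.mem_ofPred_eq, Finsupp.degree_eq_weight_one]
      exact le_of_eq h1
    · rintro a b ⟨E, hE⟩ ⟨E', hE'⟩
      refine ⟨E ∪ E', fun N e he => ?_⟩
      rw [Finset.mem_union, not_or] at he
      rw [map_add, coeff_add, hE N e he.1, hE' N e he.2, add_zero]
  choose E hE using hsupp
  let c : R → (Fin 2 →₀ ℕ) → PowerSeries κ := fun r e =>
    PowerSeries.mk fun n => PowerSeries.coeff n (coeff e (F n r))
  have hcoeff : ∀ r e, coeff e (∑ e ∈ E r, monomial e (c r e)) = c r e := by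
    intro r e
    rw [coeff_sum]
    simp only [coeff_monomial]
    rw [Finset.sum_ite_eq' (E r) e (fun e => c r e)]
    split_ifs with h
    · rfl
    · ext n
      change _ = PowerSeries.coeff n (PowerSeries.mk _)
      rw [PowerSeries.coeff_mk, hE r n e h, map_zero]
  let L : R →ₗ[ℂ] MvPolynomial (Fin 2) (PowerSeries κ) :=
    { toFun := fun r => ∑ e ∈ E r, monomial e (c r e)
      map_add' := fun r s => by
        ext1 e
        rw [coeff_add, hcoeff, hcoeff, hcoeff]
        ext n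
        change PowerSeries.coeff n (PowerSeries.mk _) =
          PowerSeries.coeff n (PowerSeries.mk _ + PowerSeries.mk _)
        rw [map_add, PowerSeries.coeff_mk, PowerSeries.coeff_mk, PowerSeries.coeff_mk, map_add,
          coeff_add, map_add]
      map_smul' := fun a r => by
        have h : ∀ (g : PowerSeries κ) (m : ℕ), PowerSeries.coeff m (a • g) =
          a • PowerSeries.coeff m g := fun g m => rfl
        ext1 e
        rw [RingHom.id_apply, coeff_smul, hcoeff, hcoeff]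
        ext n
        change PowerSeries.coeff n (PowerSeries.mk _) =
          PowerSeries.coeff n (a • PowerSeries.mk _)
        rw [h, PowerSeries.coeff_mk, PowerSeries.coeff_mk, map_smul, coeff_smul, h] }
  have hL : ∀ r e n, PowerSeries.coeff n (coeff e (L r)) =
      PowerSeries.coeff n (coeff e (F n r)) := by
    intro r e n
    change PowerSeries.coeff n (coeff e (∑ e ∈ E r, monomial e (c r e))) = _
    rw [hcoeff]
    exact PowerSeries.coeff_mk _ _
  have hLF : ∀ N r, Cong (N + 2) (L r) (F N r) := by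
    intro N r e n hn
    rw [hL]
    rcases le_total n N with h | h
    · exact (hmono N n h r e n (by omega)).symm
    · exact hmono n N h r e n hn
  have hext : ∀ p q : MvPolynomial (Fin 2) (PowerSeries κ), (∀ N, Cong (N + 2) p q) → p = q := by
    intro p q h
    ext e n
    exact h n e n (by omega)
  let Φ : R →ₐ[ℂ] MvPolynomial (Fin 2) (PowerSeries κ) := AlgHom.ofLinearMap L
    (hext _ _ fun N => (hLF N 1).trans (hF N).one)
    (fun r s => hext _ _ fun N => ((hLF N (r * s)).trans ((hF N).mul r s)).trans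
      ((hLF N r).symm.mul (hLF N s).symm))
  refine ⟨Φ, fun k r hr => ?_, hLF⟩
  intro e he
  by_contra hne
  apply he
  change coeff e (L r) = 0
  ext n
  rw [hL, map_zero]
  have h1 : coeff e (F n r) = 0 := by
    by_contra h2
    exact hne ((hF n).deg k r hr h2)
  rw [h1, map_zero]

/-- Every derivation of degree `0` along a curve with the splitting property is the tangent
vector of an arc. -/
theorem exists_arc [IsAlgClosed κ] [GradedAlgebra 𝒜] (hX : IsContactFano 𝒜 P)
    {φ : R →ₐ[ℂ] MvPolynomial (Fin 2) κ} (h0 : IsCurve 𝒜 d φ) (hs : SplitZ 𝒜 d φ)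
    {δ : R →ₗ[ℂ] MvPolynomial (Fin 2) κ} (hδ : HZ 𝒜 d φ 0 δ) :
    ∃ Φ : R →ₐ[ℂ] MvPolynomial (Fin 2) (PowerSeries κ),
      (∀ k, ∀ r ∈ 𝒜 k, (Φ r).IsHomogeneous (d * k)) ∧
      (∀ r, map (PowerSeries.constantCoeff : PowerSeries κ →+* κ) (Φ r) = φ r) ∧
      ∀ r e, PowerSeries.coeff 1 (coeff e (Φ r)) = coeff e (δ r) := by
  let step : ∀ N, {Ψ : R →ₗ[ℂ] MvPolynomial (Fin 2) (PowerSeries κ) // IsArc 𝒜 d (N + 2) φ Ψ} →
      {Ψ : R →ₗ[ℂ] MvPolynomial (Fin 2) (PowerSeries κ) // IsArc 𝒜 d (N + 3) φ Ψ} :=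
    fun N Ψ => ⟨(exists_next hX h0 hs Ψ.2).choose, (exists_next hX h0 hs Ψ.2).choose_spec.1⟩
  have hstep : ∀ N (Ψ : {Ψ : R →ₗ[ℂ] MvPolynomial (Fin 2) (PowerSeries κ) //
      IsArc 𝒜 d (N + 2) φ Ψ}) r, Cong (N + 2) ((step N Ψ).1 r) (Ψ.1 r) :=
    fun N Ψ r => (exists_next hX h0 hs Ψ.2).choose_spec.2 r
  let F : ∀ N, {Ψ : R →ₗ[ℂ] MvPolynomial (Fin 2) (PowerSeries κ) // IsArc 𝒜 d (N + 2) φ Ψ} :=
    fun N => Nat.rec ⟨_, isArc_two h0 hδ⟩ step N
  obtain ⟨Φ, h1, h2⟩ := exists_limit (fun N => (F N).1) (fun N => (F N).2)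
    (fun N r => hstep N (F N) r)
  have h3 : ∀ r e n, n < 2 → PowerSeries.coeff n (coeff e (Φ r)) =
      PowerSeries.coeff n (coeff e (mapLin (cT κ) (φ r) + mapLin (xT κ) (δ r))) :=
    fun r e n hn => h2 0 r e n hn
  refine ⟨Φ, h1, fun r => ?_, fun r e => ?_⟩
  · refine map_constantCoeff_eq_iff.mpr fun e => ?_
    rw [h3 r e 0 (by omega), coeff_add, coeff_mapLin, coeff_mapLin, map_add, coeff_cT,
      coeff_xT_zero, if_pos rfl, add_zero]
  · rw [h3 r e 1 (by omega), coeff_add, coeff_mapLin, coeff_mapLin, map_add, coeff_cT,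
      coeff_xT_succ _ 0, if_pos rfl, if_neg one_ne_zero, zero_add]

end Vale.Agent.P292.VF
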