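import Vale.Agent.P292.VF.Arc1

/-! # Arcs of curves: splitting of derivations of high degree from a frame. -/

namespace Vale.Agent.P292.VF

open MvPolynomial

universe u v w z

variable {R : Type u} [CommRing R] [Algebra ℂ R] {𝒜 : ℕ → Submodule ℂ R}
  {κ : Type z} [Field κ]

omit [Field κ] in
theorem arc_weight_fin_two (e : Fin 2 →₀ ℕ) :
    Finsupp.weight (1 : Fin 2 → ℕ) e = e 0 + e 1 := by
  rw [Finsupp.weight_apply, Finsupp.sum_fintype _ _ (fun i => by simp)]
  simp

/-- Splitting of forms. -/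
theorem arc_exists_split_form {p : MvPolynomial (Fin 2) κ} {M e : ℕ}
    (hp : p.IsHomogeneous (M + M + e)) :
    ∃ p₁ p₂ : MvPolynomial (Fin 2) κ, p₁.IsHomogeneous (M + e) ∧ p₂.IsHomogeneous (M + e) ∧
      p = X 1 ^ M * p₁ - X 0 ^ M * p₂ := by
  classical
  have h1 : X 1 ^ M * (p.divMonomial (Finsupp.single 1 M)) +
      p.modMonomial (Finsupp.single 1 M) = p := by
    rw [X_pow_eq_monomial]
    exact divMonomial_add_modMonomial _ _
  set q := p.modMonomial (Finsupp.single 1 M) with hq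
  have hqc : ∀ f, coeff f q ≠ 0 → f 1 < M ∧ coeff f p ≠ 0 := by
    intro f hf
    by_cases h : Finsupp.single 1 M ≤ f
    · exact absurd (coeff_modMonomial_of_le _ h) hf
    · refine ⟨?_, ?_⟩
      · rw [Finsupp.single_le_iff] at h
        omega
      · rwa [hq, coeff_modMonomial_of_not_le _ h] at hf
  have hdvd : (monomial (Finsupp.single 0 M) (1 : κ)) ∣ q := by
    rw [monomial_one_dvd_iff_modMonomial_eq_zero]
    ext f
    rw [coeff_zero]
    by_cases hf : Finsupp.single 0 M ≤ f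
    · exact coeff_modMonomial_of_le _ hf
    · rw [coeff_modMonomial_of_not_le _ hf]
      by_contra hne
      obtain ⟨h3, h4⟩ := hqc f hne
      have h5 := hp h4
      rw [arc_weight_fin_two] at h5
      apply hf
      rw [Finsupp.single_le_iff]
      omega
  obtain ⟨q', hq'⟩ := hdvd
  refine ⟨p.divMonomial (Finsupp.single 1 M), -q', ?_, ?_, ?_⟩
  · intro f hf
    rw [coeff_divMonomial] at hf
    have h5 := hp hf
    rw [arc_weight_fin_two] at h5 ⊢
    simp at h5
    omega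
  · refine IsHomogeneous.neg (fun f hf => ?_)
    have h3 : coeff (Finsupp.single 0 M + f) q = coeff f q' := by
      rw [hq', coeff_monomial_mul, one_mul]
    obtain ⟨h4, h5⟩ := hqc _ (by rw [h3]; exact hf)
    have h6 := hp h5
    rw [arc_weight_fin_two] at h6 ⊢
    simp at h6
    omega
  · rw [mul_neg, sub_neg_eq_add, X_pow_eq_monomial (n := 0), ← hq']
    exact h1.symm

variable [Algebra ℂ κ] {d : ℕ}

/-- The product of a form and a derivation of nonpositive degree. -/
theorem smul_isHZ {φ : R →ₐ[ℂ] MvPolynomial (Fin 2) κ} {e : ℤ} {e' M : ℕ} (he : e = -(e' : ℤ))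
    {δ : R →ₗ[ℂ] MvPolynomial (Fin 2) κ} (hδ : IsHDer 𝒜 d φ e δ) {c : MvPolynomial (Fin 2) κ}
    (hc : c.IsHomogeneous (M + e')) : HZ 𝒜 d φ M (c • δ) where
  der := (DerAt φ).smul_mem c hδ.der
  deg k r hr := by
    rw [LinearMap.smul_apply, smul_eq_mul]
    rcases le_or_gt e' (d * k) with h | h
    · have h1 := hc.mul (hδ.homog k r hr (d * k - e') (by push_cast [Nat.cast_sub h]; rw [he]; ring))
      rwa [show M + e' + (d * k - e') = d * k + M by omega] at h1
    · have h1 : (d * k + e : ℤ) < 0 := by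
        rw [he]
        have : ((d * k : ℕ) : ℤ) < e' := by exact_mod_cast h
        push_cast at this
        linarith
      rw [hδ.neg k h1 r hr, mul_zero]
      exact isHomogeneous_zero _ _ _

/-- The splitting property from a frame of derivations of nonpositive degrees. -/
theorem splitZ_of_frame {φ : R →ₐ[ℂ] MvPolynomial (Fin 2) κ} {ι : Type*} [Fintype ι]
    {e : ι → ℤ} (he : ∀ i, e i ≤ 0) {δ : ι → R →ₗ[ℂ] MvPolynomial (Fin 2) κ}
    (hδ : ∀ i, IsHDer 𝒜 d φ (e i) (δ i))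
    (hgen : ∀ (K : ℕ) (θ : R →ₗ[ℂ] MvPolynomial (Fin 2) κ), HZ 𝒜 d φ K θ →
      ∃ c : ι → MvPolynomial (Fin 2) κ, (∀ i, ∀ m : ℕ, (m : ℤ) = K - e i →
        (c i).IsHomogeneous m) ∧ θ = ∑ i, c i • δ i) : SplitZ 𝒜 d φ := by
  classical
  refine ⟨0, fun M _ D hD => ?_⟩
  obtain ⟨c, hc, rfl⟩ := hgen (M + M) D hD
  have he' : ∀ i, e i = -((e i).natAbs : ℤ) := fun i => by
    have := he i
    omega
  have hc' : ∀ i, (c i).IsHomogeneous (M + M + (e i).natAbs) := fun i =>
    hc i _ (by have := he' i; omega)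
  choose p₁ p₂ h1 h2 h3 using fun i => arc_exists_split_form (hc' i)
  have hsum : ∀ (f : ι → R →ₗ[ℂ] MvPolynomial (Fin 2) κ) (_ : ∀ i, HZ 𝒜 d φ M (f i)),
      HZ 𝒜 d φ M (∑ i, f i) := fun f hf =>
    Finset.sum_induction f (HZ 𝒜 d φ M) (fun _ _ ha hb => ha.add hb) HZ.zero (fun i _ => hf i)
  refine ⟨∑ i, p₁ i • δ i, ∑ i, p₂ i • δ i, hsum _ fun i => smul_isHZ (he' i) (hδ i) (h1 i),
    hsum _ fun i => smul_isHZ (he' i) (hδ i) (h2 i), ?_⟩
  rw [Finset.smul_sum, Finset.smul_sum, ← Finset.sum_sub_distrib]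
  refine Finset.sum_congr rfl fun i _ => ?_
  conv_lhs => rw [h3 i]
  ext1 r
  simp only [LinearMap.sub_apply, LinearMap.smul_apply, smul_eq_mul]
  ring

end Vale.Agent.P292.VF
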