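import Mathlib

/-! # One very free conic: closed points, tensor products of domains, generic lifting. -/

namespace Vale.Agent.P292.VF

open Module TensorProduct

universe u v

/-- Maximal ideals of algebras of finite type are kernels of points. -/
theorem exists_point_of_maximal {A : Type u} [CommRing A] [Algebra ℂ A] [Algebra.FiniteType ℂ A]
    (M : Ideal A) [hM : M.IsMaximal] : ∃ p : A →ₐ[ℂ] ℂ, RingHom.ker p = M := by
  let := Ideal.Quotient.field M
  have h1 : Algebra.FiniteType ℂ (A ⧸ M) :=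
    Algebra.FiniteType.of_surjective (Ideal.Quotient.mkₐ ℂ M) (Ideal.Quotient.mkₐ_surjective ℂ M)
  have h2 : Module.Finite ℂ (A ⧸ M) := finite_of_finite_type_of_isJacobsonRing ℂ (A ⧸ M)
  have h3 : Function.Bijective (algebraMap ℂ (A ⧸ M)) :=
    IsAlgClosed.algebraMap_bijective_of_isIntegral
  let e : ℂ ≃ₐ[ℂ] (A ⧸ M) := AlgEquiv.ofBijective (Algebra.ofId ℂ (A ⧸ M)) h3
  refine ⟨(e.symm : (A ⧸ M) →ₐ[ℂ] ℂ).comp (Ideal.Quotient.mkₐ ℂ M), ?_⟩
  ext x
  rw [RingHom.mem_ker]
  change e.symm (Ideal.Quotient.mk M x) = 0 ↔ _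
  rw [map_eq_zero_iff _ e.symm.injective, Ideal.Quotient.eq_zero_iff_mem]

/-- Nonzero elements of a domain of finite type do not vanish at some point. -/
theorem exists_point_ne_zero {A : Type u} [CommRing A] [IsDomain A] [Algebra ℂ A]
    [Algebra.FiniteType ℂ A] {a : A} (ha : a ≠ 0) : ∃ p : A →ₐ[ℂ] ℂ, p a ≠ 0 := by
  have : IsJacobsonRing A := isJacobsonRing_of_finiteType (A := ℂ)
  by_contra hcon
  push Not at hcon
  apply ha
  have h1 : a ∈ (⊥ : Ideal A).jacobson := by
    rw [Ideal.jacobson, Ideal.mem_sInf]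
    rintro M ⟨-, hM⟩
    obtain ⟨p, hp⟩ := exists_point_of_maximal M
    rw [← hp]
    exact hcon p
  rw [this.out (Ideal.isPrime_bot).isRadical] at h1
  exact (Ideal.mem_bot).1 h1

/-- Points with comparable kernels are equal. -/
theorem eq_of_ker_le {A : Type u} [CommRing A] [Algebra ℂ A] (p q : A →ₐ[ℂ] ℂ)
    (h : RingHom.ker p ≤ RingHom.ker q) : p = q := by
  ext a
  have h1 : a - algebraMap ℂ A (p a) ∈ RingHom.ker p := by
    rw [RingHom.mem_ker, map_sub, AlgHom.commutes, Algebra.algebraMap_self, RingHom.id_apply,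
      sub_self]
  have h2 := h h1
  rw [RingHom.mem_ker, map_sub, AlgHom.commutes, Algebra.algebraMap_self, RingHom.id_apply,
    sub_eq_zero] at h2
  exact h2.symm

/-- The value of an element of `A ⊗ B` at a point of the first factor. -/
noncomputable def evLeft {A : Type u} {B : Type v} [CommRing A] [CommRing B] [Algebra ℂ A]
    [Algebra ℂ B] (p : A →ₐ[ℂ] ℂ) : A ⊗[ℂ] B →ₐ[ℂ] B :=
  Algebra.TensorProduct.lift ((Algebra.ofId ℂ B).comp p) (AlgHom.id ℂ B)
    (fun _ _ => Commute.all _ _)

/-- The tensor product of two domains of finite type over `ℂ` is a domain. -/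
theorem isDomain_tensor {A : Type u} {B : Type v} [CommRing A] [IsDomain A] [Algebra ℂ A]
    [Algebra.FiniteType ℂ A] [CommRing B] [IsDomain B] [Algebra ℂ B] : IsDomain (A ⊗[ℂ] B) := by
  classical
  let b := Basis.ofVectorSpace ℂ B
  let bA := Algebra.TensorProduct.basis A b
  have key : ∀ (p : A →ₐ[ℂ] ℂ) (f : A ⊗[ℂ] B), ∀ i,
      b.repr (evLeft p f) i = p (bA.repr f i) := by
    intro p f i
    induction f using TensorProduct.induction_on with
    | zero => simp
    | tmul a x =>
      rw [Algebra.TensorProduct.basis_repr_tmul]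
      simp [evLeft, Algebra.ofId_apply, ← Algebra.smul_def]
    | add x y hx hy => simp [hx, hy]
  have : NoZeroDivisors (A ⊗[ℂ] B) := by
    refine ⟨fun {f g} hfg => ?_⟩
    by_contra hcon
    push Not at hcon
    obtain ⟨hf, hg⟩ := hcon
    have hf' : ∃ i, bA.repr f i ≠ 0 := by
      by_contra h
      push Not at h
      exact hf (bA.repr.injective (Finsupp.ext (by simpa using h)))
    have hg' : ∃ i, bA.repr g i ≠ 0 := by
      by_contra h
      push Not at h
      exact hg (bA.repr.injective (Finsupp.ext (by simpa using h)))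
    obtain ⟨i, hi⟩ := hf'
    obtain ⟨j, hj⟩ := hg'
    obtain ⟨p, hp⟩ := exists_point_ne_zero (mul_ne_zero hi hj)
    rw [map_mul] at hp
    have h1 : evLeft p f * evLeft p g = (0 : B) := by rw [← map_mul, hfg, map_zero]
    rcases mul_eq_zero.1 h1 with h2 | h2
    · have := key p f i
      rw [h2, map_zero, Finsupp.zero_apply] at this
      exact left_ne_zero_of_mul hp this.symm
    · have := key p g j
      rw [h2, map_zero, Finsupp.zero_apply] at this
      exact right_ne_zero_of_mul hp this.symm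
  exact NoZeroDivisors.to_isDomain _

/-- The points of a domain lift generically along injective homomorphisms of finite type. -/
theorem exists_generic_lift {A : Type u} {C : Type v} [CommRing A] [IsDomain A] [Algebra ℂ A]
    [Algebra.FiniteType ℂ A] [CommRing C] [Algebra ℂ C] [Algebra.FiniteType ℂ C]
    (f : A →ₐ[ℂ] C) (hf : Function.Injective f) :
    ∃ G : A, G ≠ 0 ∧ ∀ p : A →ₐ[ℂ] ℂ, p G ≠ 0 → ∃ c : C →ₐ[ℂ] ℂ, c.comp f = p := by
  classical
  have hN : IsNoetherianRing A := Algebra.FiniteType.isNoetherianRing ℂ A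
  have hft : (f : A →+* C).FiniteType := by
    algebraize [(f : A →+* C)]
    have : IsScalarTower ℂ A C := IsScalarTower.of_algebraMap_eq fun x => (f.commutes x).symm
    exact Algebra.FiniteType.of_restrictScalars_finiteType ℂ A C
  have hfp : (f : A →+* C).FinitePresentation :=
    RingHom.FinitePresentation.of_finiteType.1 hft
  have hcons := PrimeSpectrum.isConstructible_range_comap hfp
  obtain ⟨S, hS⟩ := PrimeSpectrum.exists_constructibleSetData_iff.2 hcons
  have hbot : (⟨⊥, Ideal.isPrime_bot⟩ : PrimeSpectrum A) ∈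
      Set.range (PrimeSpectrum.comap (f : A →+* C)) := by
    obtain ⟨p', hp', hp⟩ := Ideal.exists_comap_eq_of_mem_minimalPrimes_of_injective
      (f := (f : A →+* C)) hf (⊥ : Ideal A) (by
        rw [IsDomain.minimalPrimes_eq_singleton_bot]; rfl)
    exact ⟨⟨p', hp'⟩, PrimeSpectrum.ext hp⟩
  rw [← hS] at hbot
  simp only [PrimeSpectrum.ConstructibleSetData.toSet, Set.mem_iUnion] at hbot
  obtain ⟨Q, hQ, hbot⟩ := hbot
  have hbot1 := hbot.1
  have hbot2 := hbot.2
  have hg : ∀ i, Q.g i = 0 := fun i => (Ideal.mem_bot).1 (hbot1 ⟨i, rfl⟩)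
  refine ⟨Q.f, fun h0 => hbot2 ?_, fun p hp => ?_⟩
  · rintro x hx
    rw [Set.mem_singleton_iff.1 hx, h0]
    exact Ideal.zero_mem _
  · have hker : (RingHom.ker p).IsPrime := RingHom.ker_isPrime p
    have h1 : (⟨RingHom.ker p, hker⟩ : PrimeSpectrum A) ∈
        Set.range (PrimeSpectrum.comap (f : A →+* C)) := by
      rw [← hS]
      simp only [PrimeSpectrum.ConstructibleSetData.toSet, Set.mem_iUnion]
      refine ⟨Q, hQ, ?_, ?_⟩
      · rintro _ ⟨i, rfl⟩
        rw [hg i]
        exact Ideal.zero_mem _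
      · intro h2
        exact hp (h2 rfl)
    obtain ⟨P', hP'⟩ := h1
    obtain ⟨M, hM, hPM⟩ := Ideal.exists_le_maximal P'.asIdeal P'.isPrime.ne_top
    obtain ⟨c, hc⟩ := exists_point_of_maximal M
    refine ⟨c, (eq_of_ker_le _ _ fun a ha => ?_).symm⟩
    have h3 : a ∈ (PrimeSpectrum.comap (f : A →+* C) P').asIdeal := by rw [hP']; exact ha
    have h4 : f a ∈ M := hPM h3
    rw [← hc] at h4
    exact h4

end Vale.Agent.P292.VF
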