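import Vale.Agent.P292.Bdl.B4
import Vale.Agent.P292.VF.U1

/-! # One very free conic: Poisson simplicity of the product of two cones. -/

namespace Vale.Agent.P292.VF

open Module TensorProduct Vale.Agent.P292

universe u

variable {R : Type u} [CommRing R] [Algebra ℂ R] {𝒜 : ℕ → Submodule ℂ R} [GradedAlgebra 𝒜]
  {P : R →ₗ[ℂ] R →ₗ[ℂ] R}

/-- The value of an element of `A ⊗ B` at a point of the second factor. -/
noncomputable def evRight {A : Type u} {B : Type u} [CommRing A] [CommRing B] [Algebra ℂ A]
    [Algebra ℂ B] (q : B →ₐ[ℂ] ℂ) : A ⊗[ℂ] B →ₐ[ℂ] A :=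
  Algebra.TensorProduct.lift (AlgHom.id ℂ A) ((Algebra.ofId ℂ A).comp q)
    (fun _ _ => Commute.all _ _)

theorem evRight_surjective {A : Type u} {B : Type u} [CommRing A] [CommRing B] [Algebra ℂ A]
    [Algebra ℂ B] (q : B →ₐ[ℂ] ℂ) : Function.Surjective (evRight q : A ⊗[ℂ] B →ₐ[ℂ] A) :=
  fun a => ⟨a ⊗ₜ 1, by simp [evRight]⟩

theorem evLeft_surjective {A : Type u} {B : Type u} [CommRing A] [CommRing B] [Algebra ℂ A]
    [Algebra ℂ B] (p : A →ₐ[ℂ] ℂ) : Function.Surjective (evLeft p : A ⊗[ℂ] B →ₐ[ℂ] B) :=
  fun a => ⟨1 ⊗ₜ a, by simp [evLeft]⟩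

/-- An element of `A ⊗ B` which vanishes at all points of the first factor is zero. -/
theorem eq_zero_of_evLeft {A : Type u} {B : Type u} [CommRing A] [IsDomain A] [Algebra ℂ A]
    [Algebra.FiniteType ℂ A] [CommRing B] [Algebra ℂ B] {F : A ⊗[ℂ] B}
    (h : ∀ p : A →ₐ[ℂ] ℂ, evLeft p F = (0 : B)) : F = 0 := by
  classical
  let b := Basis.ofVectorSpace ℂ B
  let bA := Algebra.TensorProduct.basis A b
  have key : ∀ (p : A →ₐ[ℂ] ℂ) (f : A ⊗[ℂ] B), ∀ i,
      b.repr (evLeft p f) i = p (bA.repr f i) := by
    intro p f i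
    induction f using TensorProduct.induction_on with
    | zero => simp
    | tmul a x =>
      rw [Algebra.TensorProduct.basis_repr_tmul]
      simp [evLeft, Algebra.ofId_apply, ← Algebra.smul_def]
    | add x y hx hy => simp [hx, hy]
  refine bA.repr.injective (Finsupp.ext fun i => ?_)
  rw [map_zero, Finsupp.zero_apply]
  by_contra hne
  obtain ⟨p, hp⟩ := VF.exists_point_ne_zero hne
  exact hp (by rw [← key, h, map_zero, Finsupp.zero_apply])

theorem lift_eq_evRight {p q : R →ₐ[ℂ] ℂ} (F : R ⊗[ℂ] R) :
    Algebra.TensorProduct.lift p q (fun _ _ => Commute.all _ _) F = p (evRight q F) := by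
  induction F using TensorProduct.induction_on with
  | zero => simp
  | tmul a b => simp [evRight, Algebra.ofId_apply]
  | add x y hx hy => rw [map_add, hx, hy, map_add, map_add]

theorem lift_eq_evLeft {p q : R →ₐ[ℂ] ℂ} (F : R ⊗[ℂ] R) :
    Algebra.TensorProduct.lift p q (fun _ _ => Commute.all _ _) F = q (evLeft p F) := by
  induction F using TensorProduct.induction_on with
  | zero => simp
  | tmul a b => simp [evLeft, Algebra.ofId_apply]
  | add x y hx hy => rw [map_add, hx, hy, map_add, map_add]

theorem evRight_map (q : R →ₐ[ℂ] ℂ) (a : R) (F : R ⊗[ℂ] R) :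
    evRight q (TensorProduct.map (P a) LinearMap.id F) = P a (evRight q F : R) := by
  induction F using TensorProduct.induction_on with
  | zero => simp
  | tmul r s =>
    simp only [TensorProduct.map_tmul, LinearMap.id_coe, id_eq]
    simp [evRight, Algebra.ofId_apply, mul_comm _ (algebraMap ℂ R _), ← Algebra.smul_def]
  | add x y hx hy => simp only [map_add, hx, hy]

theorem evLeft_map (p : R →ₐ[ℂ] ℂ) (a : R) (F : R ⊗[ℂ] R) :
    evLeft p (TensorProduct.map LinearMap.id (P a) F) = P a (evLeft p F : R) := by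
  induction F using TensorProduct.induction_on with
  | zero => simp
  | tmul r s =>
    simp only [TensorProduct.map_tmul, LinearMap.id_coe, id_eq]
    simp [evLeft, Algebra.ofId_apply, ← Algebra.smul_def]
  | add x y hx hy => simp only [map_add, hx, hy]

/-- A subspace of `R ⊗ R` stable under the Hamiltonian derivations in both variables, all of
whose elements vanish at a pair of nonvertex points, is zero. -/
theorem simp_tensor (hX : IsContactFano 𝒜 P) {p q : R →ₐ[ℂ] ℂ} (hp : ¬ IsVertex 𝒜 p)
    (hq : ¬ IsVertex 𝒜 q) (N : Submodule ℂ (R ⊗[ℂ] R))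
    (h1 : ∀ a, ∀ F ∈ N, TensorProduct.map (P a) LinearMap.id F ∈ N)
    (h2 : ∀ a, ∀ F ∈ N, TensorProduct.map LinearMap.id (P a) F ∈ N)
    (h0 : ∀ F ∈ N, Algebra.TensorProduct.lift p q (fun _ _ => Commute.all _ _) F = 0) :
    N = ⊥ := by
  have := hX.domain
  have := hX.finiteType
  -- first variable
  have hder1 : ∀ a (F G : R ⊗[ℂ] R), TensorProduct.map (P a) LinearMap.id (F * G) =
      TensorProduct.map (P a) LinearMap.id F * G + F * TensorProduct.map (P a) LinearMap.id G := by
    intro a F G
    induction F using TensorProduct.induction_on with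
    | zero => simp
    | tmul r s =>
      induction G using TensorProduct.induction_on with
      | zero => simp
      | tmul r' s' =>
        simp only [Algebra.TensorProduct.tmul_mul_tmul, TensorProduct.map_tmul, LinearMap.id_coe,
          id_eq, hX.leibniz, TensorProduct.add_tmul]
      | add x y hx hy => simp only [mul_add, map_add, hx, hy]; ring
    | add x y hx hy => simp only [add_mul, map_add, hx, hy]; ring
  have hder2 : ∀ a (F G : R ⊗[ℂ] R), TensorProduct.map LinearMap.id (P a) (F * G) =
      TensorProduct.map LinearMap.id (P a) F * G + F * TensorProduct.map LinearMap.id (P a) G := by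
    intro a F G
    induction F using TensorProduct.induction_on with
    | zero => simp
    | tmul r s =>
      induction G using TensorProduct.induction_on with
      | zero => simp
      | tmul r' s' =>
        simp only [Algebra.TensorProduct.tmul_mul_tmul, TensorProduct.map_tmul, LinearMap.id_coe,
          id_eq, hX.leibniz, TensorProduct.tmul_add]
      | add x y hx hy => simp only [mul_add, map_add, hx, hy]; ring
    | add x y hx hy => simp only [add_mul, map_add, hx, hy]; ring
  let I : Ideal (R ⊗[ℂ] R) := Ideal.span (N : Set (R ⊗[ℂ] R))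
  have hI1 : ∀ a, ∀ F ∈ I, TensorProduct.map (P a) LinearMap.id F ∈ I := by
    intro a F hF
    induction hF using Submodule.span_induction with
    | mem F hF => exact Ideal.subset_span (h1 a F hF)
    | zero => rw [map_zero]; exact zero_mem _
    | add F G _ _ hF hG => rw [map_add]; exact add_mem hF hG
    | smul c F hF' hF =>
      rw [smul_eq_mul, hder1]
      exact add_mem (I.mul_mem_left _ hF') (I.mul_mem_left _ hF)
  have hI2 : ∀ a, ∀ F ∈ I, TensorProduct.map LinearMap.id (P a) F ∈ I := by
    intro a F hF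
    induction hF using Submodule.span_induction with
    | mem F hF => exact Ideal.subset_span (h2 a F hF)
    | zero => rw [map_zero]; exact zero_mem _
    | add F G _ _ hF hG => rw [map_add]; exact add_mem hF hG
    | smul c F hF' hF =>
      rw [smul_eq_mul, hder2]
      exact add_mem (I.mul_mem_left _ hF') (I.mul_mem_left _ hF)
  have hI0 : ∀ F ∈ I, Algebra.TensorProduct.lift p q (fun _ _ => Commute.all _ _) F = 0 := by
    intro F hF
    have : I ≤ RingHom.ker (Algebra.TensorProduct.lift p q (fun _ _ => Commute.all _ _)) :=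
      Ideal.span_le.2 fun F hF => h0 F hF
    exact this hF
  -- the second point
  have hA : ∀ F ∈ I, evRight q F = (0 : R) := by
    have hJ : Ideal.map (evRight q : R ⊗[ℂ] R →ₐ[ℂ] R) I = ⊥ := by
      refine poisson_simple hX hp _ ?_ ?_
      · intro b u hu
        obtain ⟨F, hF, rfl⟩ := (Ideal.mem_map_iff_of_surjective _ (evRight_surjective q)).1 hu
        rw [← evRight_map]
        exact Ideal.mem_map_of_mem _ (hI1 b F hF)
      · intro u hu
        obtain ⟨F, hF, rfl⟩ := (Ideal.mem_map_iff_of_surjective _ (evRight_surjective q)).1 hu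
        rw [← lift_eq_evRight]
        exact hI0 F hF
    intro F hF
    have := Ideal.mem_map_of_mem (evRight q : R ⊗[ℂ] R →ₐ[ℂ] R) hF
    rwa [hJ, Ideal.mem_bot] at this
  -- every point of the first factor
  have hB : ∀ p' : R →ₐ[ℂ] ℂ, ∀ F ∈ I, evLeft p' F = (0 : R) := by
    intro p'
    have hJ : Ideal.map (evLeft p' : R ⊗[ℂ] R →ₐ[ℂ] R) I = ⊥ := by
      refine poisson_simple hX hq _ ?_ ?_
      · intro b u hu
        obtain ⟨F, hF, rfl⟩ := (Ideal.mem_map_iff_of_surjective _ (evLeft_surjective p')).1 hu
        rw [← evLeft_map]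
        exact Ideal.mem_map_of_mem _ (hI2 b F hF)
      · intro u hu
        obtain ⟨F, hF, rfl⟩ := (Ideal.mem_map_iff_of_surjective _ (evLeft_surjective p')).1 hu
        rw [← lift_eq_evLeft, lift_eq_evRight, hA F hF, map_zero]
    intro F hF
    have := Ideal.mem_map_of_mem (evLeft p' : R ⊗[ℂ] R →ₐ[ℂ] R) hF
    rwa [hJ, Ideal.mem_bot] at this
  rw [eq_bot_iff]
  intro F hF
  exact eq_zero_of_evLeft fun p' => hB p' F (Ideal.subset_span hF)

end Vale.Agent.P292.VF
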