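import Vale.Agent.P292.VF.Gens
import Vale.Agent.P292.K.ChartKD

/-! # Arcs of curves, part 1: derivations of degree `K` along families of curves of degree `d`. -/

namespace Vale.Agent.P292.VF

open MvPolynomial

universe u v w z

variable {R : Type u} [CommRing R] [Algebra ℂ R] {𝒜 : ℕ → Submodule ℂ R}

section basic

variable {A : Type v} [CommRing A] [Algebra ℂ A] {B : Type w} [CommRing B] [Algebra ℂ B]

/-- `D` is a derivation of degree `K` along `Φ` (a family of curves of degree `d`). -/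
structure HZ (𝒜 : ℕ → Submodule ℂ R) (d : ℕ) (Φ : R →ₐ[ℂ] MvPolynomial (Fin 2) A) (K : ℕ)
    (D : R →ₗ[ℂ] MvPolynomial (Fin 2) A) : Prop where
  der : IsDer Φ D
  deg : ∀ k, ∀ r ∈ 𝒜 k, (D r).IsHomogeneous (d * k + K)

variable {d : ℕ}

theorem HZ.smul {Φ : R →ₐ[ℂ] MvPolynomial (Fin 2) A} {K j : ℕ}
    {D : R →ₗ[ℂ] MvPolynomial (Fin 2) A} (h : HZ 𝒜 d Φ K D) {f : MvPolynomial (Fin 2) A}
    (hf : f.IsHomogeneous j) : HZ 𝒜 d Φ (j + K) (f • D) where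
  der := (DerAt Φ).smul_mem f h.der
  deg k r hr := by
    have := hf.mul (h.deg k r hr)
    rw [show d * k + (j + K) = j + (d * k + K) by ring]
    exact this

theorem HZ.add {Φ : R →ₐ[ℂ] MvPolynomial (Fin 2) A} {K : ℕ}
    {D D' : R →ₗ[ℂ] MvPolynomial (Fin 2) A} (h : HZ 𝒜 d Φ K D) (h' : HZ 𝒜 d Φ K D') :
    HZ 𝒜 d Φ K (D + D') where
  der := (DerAt Φ).add_mem h.der h'.der
  deg k r hr := (h.deg k r hr).add (h'.deg k r hr)

theorem HZ.sub {Φ : R →ₐ[ℂ] MvPolynomial (Fin 2) A} {K : ℕ}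
    {D D' : R →ₗ[ℂ] MvPolynomial (Fin 2) A} (h : HZ 𝒜 d Φ K D) (h' : HZ 𝒜 d Φ K D') :
    HZ 𝒜 d Φ K (D - D') where
  der := (DerAt Φ).sub_mem h.der h'.der
  deg k r hr := (h.deg k r hr).sub (h'.deg k r hr)

theorem HZ.zero {Φ : R →ₐ[ℂ] MvPolynomial (Fin 2) A} {K : ℕ} : HZ 𝒜 d Φ K 0 where
  der := (DerAt Φ).zero_mem
  deg _ _ _ := isHomogeneous_zero _ _ _

/-- auxiliary function for `hz` -/
noncomputable def hzAux (𝒜 : ℕ → Submodule ℂ R) (d K : ℕ)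
    (D : R →ₗ[ℂ] MvPolynomial (Fin 2) A) (k : ℕ) : 𝒜 k →ₗ[ℂ] MvPolynomial (Fin 2) A :=
  ((homogeneousComponent (d * k + K)).restrictScalars ℂ) ∘ₗ D ∘ₗ (𝒜 k).subtype

/-- The part of degree `K` of a linear map. -/
noncomputable def hz (𝒜 : ℕ → Submodule ℂ R) [GradedAlgebra 𝒜] (d K : ℕ)
    (D : R →ₗ[ℂ] MvPolynomial (Fin 2) A) : R →ₗ[ℂ] MvPolynomial (Fin 2) A :=
  (DirectSum.toModule ℂ ℕ _ (hzAux 𝒜 d K D)) ∘ₗ (DirectSum.decomposeLinearEquiv 𝒜).toLinearMap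

variable [GradedAlgebra 𝒜]

theorem hz_mem {K : ℕ} {D : R →ₗ[ℂ] MvPolynomial (Fin 2) A} {k : ℕ} {r : R}
    (hr : r ∈ 𝒜 k) : hz 𝒜 d K D r = homogeneousComponent (d * k + K) (D r) := by
  have h0 : hz 𝒜 d K D r = hzAux 𝒜 d K D k ⟨r, hr⟩ := by
    unfold hz
    rw [LinearMap.comp_apply]
    have h1 : (DirectSum.decomposeLinearEquiv 𝒜).toLinearMap r =
        DirectSum.lof ℂ ℕ (fun i => 𝒜 i) k ⟨r, hr⟩ := DirectSum.decompose_of_mem 𝒜 hr
    rw [h1, DirectSum.toModule_lof]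
  rw [h0]; rfl

theorem hz_add (K : ℕ) (D D' : R →ₗ[ℂ] MvPolynomial (Fin 2) A) :
    hz 𝒜 d K (D + D') = hz 𝒜 d K D + hz 𝒜 d K D' := by
  refine ext_graded (𝒜 := 𝒜) fun k r hr => ?_
  rw [LinearMap.add_apply, hz_mem hr, hz_mem hr, hz_mem hr, LinearMap.add_apply, map_add]

theorem HZ.hz_eq {Φ : R →ₐ[ℂ] MvPolynomial (Fin 2) A} {K : ℕ}
    {D : R →ₗ[ℂ] MvPolynomial (Fin 2) A} (h : HZ 𝒜 d Φ K D) : hz 𝒜 d K D = D := by
  refine ext_graded (𝒜 := 𝒜) fun k r hr => ?_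
  rw [hz_mem hr, homogeneousComponent_of_mem (h.deg k r hr), if_pos rfl]

theorem isHZ_hz {Φ : R →ₐ[ℂ] MvPolynomial (Fin 2) A}
    (hΦ : ∀ k, ∀ r ∈ 𝒜 k, (Φ r).IsHomogeneous (d * k))
    {D : R →ₗ[ℂ] MvPolynomial (Fin 2) A} (h : IsDer Φ D) (K : ℕ) :
    HZ 𝒜 d Φ K (hz 𝒜 d K D) where
  deg k r hr := by
    rw [hz_mem hr]
    exact homogeneousComponent_isHomogeneous _ _
  der := by
    have key : ∀ i, ∀ r ∈ 𝒜 i, ∀ j, ∀ s ∈ 𝒜 j,
        hz 𝒜 d K D (r * s) = Φ r * hz 𝒜 d K D s + Φ s * hz 𝒜 d K D r := by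
      intro i r hr j s hs
      have hrs : r * s ∈ 𝒜 (i + j) := SetLike.GradedMul.mul_mem hr hs
      rw [hz_mem hrs, hz_mem hr, hz_mem hs, h r s, map_add]
      rw [show d * (i + j) + K = d * i + (d * j + K) by ring,
        homogeneousComponent_mul_left (hΦ _ r hr)]
      rw [show d * i + (d * j + K) = d * j + (d * i + K) by ring,
        homogeneousComponent_mul_left (hΦ _ s hs)]
    intro r s
    refine DirectSum.Decomposition.inductionOn 𝒜 ?_ (fun {i} m => ?_) ?_ r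
    · simp
    · refine DirectSum.Decomposition.inductionOn 𝒜 ?_ (fun {j} n => key i m m.2 j n n.2) ?_ s
      · simp
      · intro a b ha hb
        rw [mul_add, map_add, map_add, map_add, ha, hb]
        ring
    · intro a b ha hb
      rw [add_mul, map_add, map_add, map_add, ha, hb]
      ring

theorem map_hz (π : A →ₐ[ℂ] B) (K : ℕ) (D : R →ₗ[ℂ] MvPolynomial (Fin 2) A)
    (D' : R →ₗ[ℂ] MvPolynomial (Fin 2) B) (h : ∀ r, map (π : A →+* B) (D r) = D' r) (r : R) :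
    map (π : A →+* B) (hz 𝒜 d K D r) = hz 𝒜 d K D' r := by
  refine DirectSum.Decomposition.inductionOn 𝒜 ?_ (fun {i} m => ?_) ?_ r
  · simp
  · obtain ⟨m, hm⟩ := m
    rw [hz_mem hm, hz_mem hm, ← h]
    ext e
    rw [coeff_map, coeff_homogeneousComponent, coeff_homogeneousComponent, coeff_map]
    split_ifs
    · rfl
    · exact map_zero _
  · intro a b ha hb
    rw [map_add, map_add, map_add, ha, hb]

/-- Patching of the two charts. -/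
theorem exists_patchZ {Φ : R →ₐ[ℂ] MvPolynomial (Fin 2) A} {M : ℕ}
    {S T : R →ₗ[ℂ] MvPolynomial (Fin 2) A} (hS : HZ 𝒜 d Φ M S)
    (h : ∀ r, X 1 ^ M * S r = X 0 ^ M * T r) :
    ∃ D : R →ₗ[ℂ] MvPolynomial (Fin 2) A, HZ 𝒜 d Φ 0 D ∧ ∀ r, X 0 ^ M * D r = S r := by
  obtain ⟨D, hD⟩ := exists_factor
    (LinearMap.mulLeft ℂ (X 0 ^ M : MvPolynomial (Fin 2) A))
    (fun f g hfg => X_pow_mul_injective 0 M hfg) S (fun r => exists_X_pow_mul (h r))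
  have hD' : ∀ r, X 0 ^ M * D r = S r := hD
  refine ⟨D, ⟨fun r s => ?_, fun k r hr => ?_⟩, hD'⟩
  · apply X_pow_mul_injective 0 M
    rw [mul_add, mul_left_comm, hD', hD', hS.der, mul_left_comm, hD']
  · intro e he
    have h1 : coeff (Finsupp.single 0 M + e) (S r) = coeff e (D r) := by
      rw [← hD', X_pow_eq_monomial, coeff_monomial_mul, one_mul]
    have h2 := hS.deg k r hr (by rw [h1]; exact he)
    rw [map_add] at h2
    have h3 : Finsupp.weight (1 : Fin 2 → ℕ) (Finsupp.single 0 M) = M := by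
      rw [Finsupp.weight_single]; simp
    rw [h3] at h2
    omega

end basic

section field

variable {κ : Type z} [Field κ] [Algebra ℂ κ]
  {A : Type v} [CommRing A] [Algebra ℂ A] [Algebra κ A] [IsScalarTower ℂ κ A]
  {B : Type w} [CommRing B] [Algebra ℂ B] [Algebra κ B] [IsScalarTower ℂ κ B]
  {d : ℕ}

/-- The map `p ↦ ι p` from polynomials with coefficients in `κ` to polynomials with
coefficients in `A`. -/
noncomputable def thetaK (κ : Type z) [Field κ] [Algebra ℂ κ]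
    {A : Type v} [CommRing A] [Algebra ℂ A] [Algebra κ A] [IsScalarTower ℂ κ A] (ι : A) :
    MvPolynomial (Fin 2) κ →ₗ[ℂ] MvPolynomial (Fin 2) A where
  toFun p := C ι * map (algebraMap κ A) p
  map_add' p q := by rw [map_add, mul_add]
  map_smul' c p := by
    ext e
    rw [RingHom.id_apply, coeff_smul, coeff_C_mul, coeff_C_mul, coeff_map, coeff_map, coeff_smul,
      Algebra.smul_def c (coeff e p), map_mul, ← IsScalarTower.algebraMap_apply, Algebra.smul_def c]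
    ring

theorem thetaK_apply (ι : A) (p : MvPolynomial (Fin 2) κ) :
    thetaK κ ι p = C ι * map (algebraMap κ A) p := rfl

theorem coeff_thetaK (ι : A) (p : MvPolynomial (Fin 2) κ) (e : Fin 2 →₀ ℕ) :
    coeff e (thetaK κ ι p) = ι * algebraMap κ A (coeff e p) := by
  rw [thetaK_apply, coeff_C_mul, coeff_map]

theorem algebraMap_mul_ne_zeroK {ι : A} (hι : ι ≠ 0) {c : κ} (hc : c ≠ 0) :
    ι * algebraMap κ A c ≠ 0 := by
  intro h
  apply hι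
  calc ι = ι * algebraMap κ A c * algebraMap κ A c⁻¹ := by
        rw [mul_assoc, ← map_mul, mul_inv_cancel₀ hc, map_one, mul_one]
    _ = 0 := by rw [h, zero_mul]

theorem thetaK_injective {ι : A} (hι : ι ≠ 0) : Function.Injective (thetaK κ ι) := by
  rw [injective_iff_map_eq_zero]
  intro p hp
  ext e
  have h1 : coeff e (thetaK κ ι p) = 0 := by rw [hp, coeff_zero]
  rw [coeff_thetaK] at h1
  by_contra hne
  exact algebraMap_mul_ne_zeroK hι hne h1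

theorem thetaK_mul {ι : A} {ρ : A →ₐ[κ] κ} (hι : ∀ x, ρ x = 0 → ι * x = 0)
    (f : MvPolynomial (Fin 2) A) (p : MvPolynomial (Fin 2) κ) :
    thetaK κ ι (map (ρ : A →+* κ) f * p) = f * thetaK κ ι p := by
  have h1 : C ι * map (algebraMap κ A) (map (ρ : A →+* κ) f) = C ι * f := by
    ext e
    rw [coeff_C_mul, coeff_C_mul, coeff_map, coeff_map, ← sub_eq_zero, ← mul_sub]
    apply hι
    rw [map_sub]
    change ρ (algebraMap κ A (ρ (coeff e f))) - ρ (coeff e f) = 0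
    rw [AlgHom.commutes]
    exact sub_self _
  rw [thetaK_apply, thetaK_apply, map_mul, ← mul_assoc, h1]
  ring

theorem mem_range_thetaK {ι : A} {ρ : A →ₐ[κ] κ} (hι : ∀ x, ρ x = 0 → ι * x = 0)
    (f : MvPolynomial (Fin 2) A) (hf : ∀ e, coeff e f ∈ Ideal.span {ι}) :
    ∃ p, thetaK κ ι p = f := by
  choose x hx using fun e => Ideal.mem_span_singleton'.mp (hf e)
  refine ⟨∑ e ∈ f.support, monomial e (ρ (x e)), ?_⟩
  ext e
  rw [coeff_thetaK, coeff_sum]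
  simp only [coeff_monomial]
  rw [Finset.sum_ite_eq' f.support e (fun e => ρ (x e))]
  split_ifs with h
  · rw [← hx e, mul_comm (x e), ← sub_eq_zero, ← mul_sub]
    apply hι
    rw [map_sub, AlgHom.commutes]
    exact sub_self _
  · rw [map_zero, mul_zero]
    exact (notMem_support_iff.mp h).symm

theorem thetaK_isHomogeneous_iff {ι : A} (hι : ι ≠ 0) {p : MvPolynomial (Fin 2) κ} {n : ℕ} :
    (thetaK κ ι p).IsHomogeneous n ↔ p.IsHomogeneous n := by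
  constructor
  · intro h e he
    exact h (by rw [coeff_thetaK]; exact algebraMap_mul_ne_zeroK hι he)
  · intro h e he
    rw [coeff_thetaK] at he
    refine h fun h0 => he ?_
    rw [h0, map_zero, mul_zero]

/-- A derivation with values in `ι A[s, t]` is `ι` times a derivation along the special fibre. -/
theorem exists_thetaK_factor {ι : A} (hι0 : ι ≠ 0) {ρ : A →ₐ[κ] κ}
    (hι : ∀ x, ρ x = 0 → ι * x = 0) {Φ : R →ₐ[ℂ] MvPolynomial (Fin 2) A}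
    {φ₀ : R →ₐ[ℂ] MvPolynomial (Fin 2) κ} (hΦ : ∀ r, map (ρ : A →+* κ) (Φ r) = φ₀ r) {K : ℕ}
    {D : R →ₗ[ℂ] MvPolynomial (Fin 2) A} (hD : HZ 𝒜 d Φ K D)
    (h : ∀ r e, coeff e (D r) ∈ Ideal.span {ι}) :
    ∃ η : R →ₗ[ℂ] MvPolynomial (Fin 2) κ, HZ 𝒜 d φ₀ K η ∧ ∀ r, thetaK κ ι (η r) = D r := by
  obtain ⟨η, hη⟩ := exists_factor (thetaK κ ι) (thetaK_injective hι0) D
    (fun r => mem_range_thetaK hι (D r) (h r))
  refine ⟨η, ⟨fun r s => ?_, fun k r hr => ?_⟩, hη⟩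
  · apply thetaK_injective hι0
    rw [hη, map_add, ← hΦ r, ← hΦ s, thetaK_mul hι, thetaK_mul hι, hη, hη]
    exact hD.der r s
  · rw [← thetaK_isHomogeneous_iff hι0, hη]
    exact hD.deg k r hr

/-- `ι` times a derivation along the special fibre. -/
theorem HZ.thetaK {ι : A} {ρ : A →ₐ[κ] κ} (hι : ∀ x, ρ x = 0 → ι * x = 0)
    {Φ : R →ₐ[ℂ] MvPolynomial (Fin 2) A} {φ₀ : R →ₐ[ℂ] MvPolynomial (Fin 2) κ}
    (hΦ : ∀ r, map (ρ : A →+* κ) (Φ r) = φ₀ r) {K : ℕ}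
    {η : R →ₗ[ℂ] MvPolynomial (Fin 2) κ} (hη : HZ 𝒜 d φ₀ K η) :
    HZ 𝒜 d Φ K (VF.thetaK κ ι ∘ₗ η) where
  der r s := by
    rw [LinearMap.comp_apply, hη.der, map_add, ← hΦ r, ← hΦ s, thetaK_mul hι, thetaK_mul hι]
    rfl
  deg k r hr := by
    intro e he
    rw [LinearMap.comp_apply, coeff_thetaK] at he
    exact hη.deg k r hr (fun h0 => he (by rw [h0, map_zero, mul_zero]))

theorem thetaK_X_pow {ι : A} {ρ : A →ₐ[κ] κ} (hι : ∀ x, ρ x = 0 → ι * x = 0) (i : Fin 2) (M : ℕ)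
    (p : MvPolynomial (Fin 2) κ) : VF.thetaK κ ι (X i ^ M * p) = X i ^ M * VF.thetaK κ ι p := by
  rw [← thetaK_mul hι, map_pow, map_X]

theorem map_thetaK {ι : A} (π : A →ₐ[ℂ] B) (hπι : π ι = 0) (p : MvPolynomial (Fin 2) κ) :
    map (π : A →+* B) (VF.thetaK κ ι p) = 0 := by
  rw [thetaK_apply, map_mul, map_C]
  have : (π : A →+* B) ι = 0 := hπι
  rw [this, C_0, zero_mul]

variable {P : R →ₗ[ℂ] R →ₗ[ℂ] R} [GradedAlgebra 𝒜]

/-- There is a chart at every nonvertex point. -/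
theorem exists_isChart_atK (hX : IsContactFano 𝒜 P) {E : Type w} [CommRing E] [IsDomain E]
    [Algebra ℂ E] {x : R →ₐ[ℂ] E} (hx : IsNV 𝒜 x) :
    ∃ (N : ℕ) (y : Fin N → R) (δ : R), x δ ≠ 0 ∧ IsChart P y δ := by
  have hft : Algebra.FiniteType ℂ R := hX.finiteType
  obtain ⟨k, hk, r, hr, hne⟩ := hx
  obtain ⟨p, hp, hpr⟩ := kd_exists_closed x r hne
  obtain ⟨N, y, δ, hδ, hc⟩ := exists_isChart_at hX (p := p) fun h => hpr (h k hk r hr)
  exact ⟨N, y, δ, fun h => hδ (hp _ h), hc⟩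

/-- Away from the line `X i = 0` every derivation along `Φ` is a combination of Hamiltonian
derivations. -/
theorem exists_pow_smul_mem_HamK [IsAlgClosed κ] (hX : IsContactFano 𝒜 P)
    {φ₀ : R →ₐ[ℂ] MvPolynomial (Fin 2) κ}
    (h0 : IsCurve 𝒜 d φ₀) {ρ : A →ₐ[κ] κ} (hnil : ∀ x, ρ x = 0 → IsNilpotent x)
    {Φ : R →ₐ[ℂ] MvPolynomial (Fin 2) A} (hΦ : ∀ r, map (ρ : A →+* κ) (Φ r) = φ₀ r)
    {D : R →ₗ[ℂ] MvPolynomial (Fin 2) A} (hD : IsDer Φ D) (i : Fin 2) :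
    ∃ M₀, ∀ M ≥ M₀, (X i ^ M : MvPolynomial (Fin 2) A) • D ∈ Ham P Φ := by
  let S := MvPolynomial (Fin 2) A
  let J : Ideal S := (Ham P Φ).comap (LinearMap.toSpanSingleton S _ D)
  have hJ : ∀ f : S, f ∈ J ↔ f • D ∈ Ham P Φ := fun f => Iff.rfl
  have hρ : Function.Surjective (ρ : A →+* κ) := fun c => ⟨algebraMap κ A c, ρ.commutes c⟩
  have hsurj : Function.Surjective (map (ρ : A →+* κ) : S →+* MvPolynomial (Fin 2) κ) :=
    map_surjective _ hρ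
  let J0 : Ideal (MvPolynomial (Fin 2) κ) := J.map (map (ρ : A →+* κ))
  have hrad : (X i : MvPolynomial (Fin 2) κ) ∈ J0.radical := by
    rw [← vanishingIdeal_zeroLocus_eq_radical (K := κ), mem_vanishingIdeal_iff]
    intro x hx
    by_contra hne
    have hx0 : x ≠ 0 := by
      rintro rfl
      simp at hne
    have hnv : IsNV 𝒜 (pt φ₀ x) := h0.bpf x hx0
    obtain ⟨N, y, δ, hδ, hc⟩ := exists_isChart_atK hX hnv
    have h1 : Φ δ ∈ J := (hJ _).2 (smul_mem_Ham_of_chart hc hD)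
    have h2 : φ₀ δ ∈ J0 := by
      rw [← hΦ]
      exact Ideal.mem_map_of_mem _ h1
    rw [pt_apply] at hδ
    exact hδ (by simpa [aeval_eq_eval] using mem_zeroLocus_iff.mp hx _ h2)
  obtain ⟨N, hN⟩ := hrad
  obtain ⟨f, hf, hfN⟩ := (Ideal.mem_map_iff_of_surjective _ hsurj).mp hN
  have hn : IsNilpotent (X i ^ N - f : S) := by
    rw [MvPolynomial.isNilpotent_iff]
    intro e
    apply hnil
    have h3 : map (ρ : A →+* κ) (X i ^ N - f) = 0 := by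
      rw [map_sub, hfN, map_pow, map_X, sub_self]
    have h4 := congrArg (coeff e) h3
    rw [coeff_map, coeff_zero] at h4
    exact h4
  obtain ⟨L, hL⟩ := hn
  have hmem : ((X i : S) ^ N) ^ L ∈ J := by
    rw [← Ideal.Quotient.eq_zero_iff_mem, map_pow]
    have h5 : Ideal.Quotient.mk J (X i ^ N) = Ideal.Quotient.mk J (X i ^ N - f) := by
      rw [map_sub, Ideal.Quotient.eq_zero_iff_mem.mpr hf, sub_zero]
    rw [h5, ← map_pow, hL, map_zero]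
  refine ⟨N * L, fun M hM => (hJ _).1 ?_⟩
  obtain ⟨c, rfl⟩ := Nat.exists_eq_add_of_le hM
  rw [pow_add, pow_mul]
  exact J.mul_mem_right _ hmem

/-- In high degrees every derivation along `φ₀` splits into two parts. -/
def SplitZ (𝒜 : ℕ → Submodule ℂ R) (d : ℕ) {κ : Type z} [Field κ] [Algebra ℂ κ]
    (φ₀ : R →ₐ[ℂ] MvPolynomial (Fin 2) κ) : Prop :=
  ∃ M₀ : ℕ, ∀ M ≥ M₀, ∀ D : R →ₗ[ℂ] MvPolynomial (Fin 2) κ, HZ 𝒜 d φ₀ (M + M) D →
    ∃ α β : R →ₗ[ℂ] MvPolynomial (Fin 2) κ, HZ 𝒜 d φ₀ M α ∧ HZ 𝒜 d φ₀ M β ∧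
      D = (X 1 ^ M : MvPolynomial (Fin 2) κ) • α - (X 0 ^ M : MvPolynomial (Fin 2) κ) • β

/-- one chart -/
theorem exists_chart_liftK [IsAlgClosed κ] (hX : IsContactFano 𝒜 P)
    {ρ' : B →ₐ[κ] κ} {φ₀ : R →ₐ[ℂ] MvPolynomial (Fin 2) κ} (h0 : IsCurve 𝒜 d φ₀)
    (hnil : ∀ x, ρ' x = 0 → IsNilpotent x) (π : A →ₐ[ℂ] B)
    (hπ : Function.Surjective π) {Φ : R →ₐ[ℂ] MvPolynomial (Fin 2) A}
    {Φ' : R →ₐ[ℂ] MvPolynomial (Fin 2) B} (hρ : ∀ r, map (ρ' : B →+* κ) (Φ' r) = φ₀ r)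
    (hdeg : ∀ k, ∀ r ∈ 𝒜 k, (Φ r).IsHomogeneous (d * k))
    (hΦ' : ∀ r, map (π : A →+* B) (Φ r) = Φ' r)
    {D' : R →ₗ[ℂ] MvPolynomial (Fin 2) B} (hD' : HZ 𝒜 d Φ' 0 D') (i : Fin 2) :
    ∃ M₀, ∀ M ≥ M₀, ∃ S : R →ₗ[ℂ] MvPolynomial (Fin 2) A, HZ 𝒜 d Φ M S ∧
      ∀ r, map (π : A →+* B) (S r) = X i ^ M * D' r := by
  obtain ⟨M₀, hM₀⟩ := exists_pow_smul_mem_HamK hX h0 hnil hρ hD'.der i
  refine ⟨M₀, fun M hM => ?_⟩
  obtain ⟨S0, hS0, hS0'⟩ := exists_ham_lift π hπ hΦ' _ (hM₀ M hM)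
  refine ⟨hz 𝒜 d M S0, isHZ_hz hdeg (Ham_le hX.leibniz Φ hS0) M, fun r => ?_⟩
  rw [map_hz π M S0 _ hS0' r]
  have h1 : HZ 𝒜 d Φ' (M + 0) ((X i ^ M : MvPolynomial (Fin 2) B) • D') :=
    hD'.smul (isHomogeneous_X_pow i M)
  rw [add_zero] at h1
  rw [h1.hz_eq]
  rfl

/-- Lifting of a section over a small extension. -/
theorem exists_liftK [IsAlgClosed κ] (hX : IsContactFano 𝒜 P)
    {ρ : A →ₐ[κ] κ} {ρ' : B →ₐ[κ] κ} {φ₀ : R →ₐ[ℂ] MvPolynomial (Fin 2) κ}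
    (h0 : IsCurve 𝒜 d φ₀) (hsplit : SplitZ 𝒜 d φ₀)
    (hnil : ∀ x, ρ' x = 0 → IsNilpotent x) (π : A →ₐ[ℂ] B)
    (hπ : Function.Surjective π) {ι : A} (hι0 : ι ≠ 0) (hι : ∀ x, ρ x = 0 → ι * x = 0)
    (hπι : π ι = 0) (hker : ∀ x, π x = 0 → x ∈ Ideal.span {ι})
    {Φ : R →ₐ[ℂ] MvPolynomial (Fin 2) A} (hΦ : ∀ r, map (ρ : A →+* κ) (Φ r) = φ₀ r)
    {Φ' : R →ₐ[ℂ] MvPolynomial (Fin 2) B} (hρ : ∀ r, map (ρ' : B →+* κ) (Φ' r) = φ₀ r)
    (hdeg : ∀ k, ∀ r ∈ 𝒜 k, (Φ r).IsHomogeneous (d * k))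
    (hΦ' : ∀ r, map (π : A →+* B) (Φ r) = Φ' r)
    {D' : R →ₗ[ℂ] MvPolynomial (Fin 2) B} (hD' : HZ 𝒜 d Φ' 0 D') :
    ∃ D : R →ₗ[ℂ] MvPolynomial (Fin 2) A, HZ 𝒜 d Φ 0 D ∧
      ∀ r, map (π : A →+* B) (D r) = D' r := by
  obtain ⟨M1, h1⟩ := exists_chart_liftK hX h0 hnil π hπ hρ hdeg hΦ' hD' 0
  obtain ⟨M2, h2⟩ := exists_chart_liftK hX h0 hnil π hπ hρ hdeg hΦ' hD' 1
  obtain ⟨M3, h3⟩ := hsplit
  obtain ⟨M, hM1, hM2, hM3⟩ : ∃ M, M1 ≤ M ∧ M2 ≤ M ∧ M3 ≤ M :=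
    ⟨M1 + M2 + M3, by omega, by omega, by omega⟩
  obtain ⟨S, hS, hSπ⟩ := h1 M hM1
  obtain ⟨T, hT, hTπ⟩ := h2 M hM2
  have hΔ : HZ 𝒜 d Φ (M + M) ((X 1 ^ M : MvPolynomial (Fin 2) A) • S -
      (X 0 ^ M : MvPolynomial (Fin 2) A) • T) :=
    (hS.smul (isHomogeneous_X_pow 1 M)).sub (hT.smul (isHomogeneous_X_pow 0 M))
  obtain ⟨η, hη, hηΔ⟩ := exists_thetaK_factor hι0 hι hΦ hΔ (fun r e => by
    apply hker
    have h4 : map (π : A →+* B) (((X 1 ^ M : MvPolynomial (Fin 2) A) • S -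
        (X 0 ^ M : MvPolynomial (Fin 2) A) • T) r) = 0 := by
      rw [LinearMap.sub_apply, LinearMap.smul_apply, LinearMap.smul_apply, smul_eq_mul,
        smul_eq_mul, map_sub, map_mul, map_mul, hSπ, hTπ, map_pow, map_pow, map_X, map_X]
      ring
    have h5 := congrArg (coeff e) h4
    rw [coeff_map, coeff_zero] at h5
    exact h5)
  obtain ⟨α, β, hα, hβ, hαβ⟩ := h3 M hM3 η hη
  have hS' : HZ 𝒜 d Φ M (S - VF.thetaK κ ι ∘ₗ α) := hS.sub (HZ.thetaK hι hΦ hα)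
  obtain ⟨D, hD, hDS⟩ := exists_patchZ (T := T - VF.thetaK κ ι ∘ₗ β) hS' (fun r => by
    have h6 := hηΔ r
    rw [hαβ, LinearMap.sub_apply, LinearMap.smul_apply, LinearMap.smul_apply, smul_eq_mul,
      smul_eq_mul, map_sub, thetaK_X_pow hι, thetaK_X_pow hι, LinearMap.sub_apply,
      LinearMap.smul_apply, LinearMap.smul_apply, smul_eq_mul, smul_eq_mul] at h6
    rw [LinearMap.sub_apply, LinearMap.sub_apply, LinearMap.comp_apply, LinearMap.comp_apply]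
    linear_combination -h6)
  refine ⟨D, hD, fun r => ?_⟩
  apply X_pow_mul_injective 0 M
  rw [← hSπ r]
  have h7 : map (π : A →+* B) (X 0 ^ M * D r) = map (π : A →+* B) ((S - VF.thetaK κ ι ∘ₗ α) r) := by
    rw [hDS]
  rw [map_mul, map_pow, map_X, LinearMap.sub_apply, map_sub, LinearMap.comp_apply,
    map_thetaK π hπι, sub_zero] at h7
  exact h7

end field

end Vale.Agent.P292.VF
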