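import Vale.Agent.P292.VF.Arc1

/-! # Arcs of curves, part 2: every derivation of degree `0` along a free curve is the tangent
vector of an arc. -/

namespace Vale.Agent.P292.VF

open MvPolynomial

universe u v w z

/-! ### truncated power series -/

section trunc

variable {κ : Type z} [Field κ]

/-- Truncated power series. -/
abbrev TR (κ : Type z) [Field κ] (N : ℕ) : Type z :=
  PowerSeries κ ⧸ Ideal.span {(PowerSeries.X : PowerSeries κ) ^ N}

/-- truncation -/
noncomputable abbrev mkT (κ : Type z) [Field κ] (N : ℕ) : PowerSeries κ →ₐ[κ] TR κ N :=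
  Ideal.Quotient.mkₐ κ _

theorem mkT_eq_zero_iff {N : ℕ} {f : PowerSeries κ} :
    mkT κ N f = 0 ↔ ∀ n < N, PowerSeries.coeff n f = 0 := by
  rw [Ideal.Quotient.mkₐ_eq_mk, Ideal.Quotient.eq_zero_iff_mem, Ideal.mem_span_singleton,
    PowerSeries.X_pow_dvd_iff]

theorem mkT_eq_iff {N : ℕ} {f g : PowerSeries κ} :
    mkT κ N f = mkT κ N g ↔ ∀ n < N, PowerSeries.coeff n f = PowerSeries.coeff n g := by
  rw [← sub_eq_zero, ← map_sub, mkT_eq_zero_iff]
  simp only [map_sub, sub_eq_zero]

theorem mkT_surjective (N : ℕ) : Function.Surjective (mkT κ N) :=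
  Ideal.Quotient.mkₐ_surjective κ _

/-- the residue map -/
noncomputable def rhoT (κ : Type z) [Field κ] (N : ℕ) : TR κ (N + 1) →ₐ[κ] κ :=
  Ideal.Quotient.liftₐ _
    { (PowerSeries.constantCoeff : PowerSeries κ →+* κ) with
      commutes' := fun c => PowerSeries.constantCoeff_C c } (fun f hf => by
    rw [Ideal.mem_span_singleton, PowerSeries.X_pow_dvd_iff] at hf
    have := hf 0 (Nat.succ_pos N)
    rwa [PowerSeries.coeff_zero_eq_constantCoeff_apply] at this)

theorem rhoT_mk (N : ℕ) (f : PowerSeries κ) :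
    rhoT κ N (mkT κ (N + 1) f) = PowerSeries.constantCoeff f := rfl

theorem isNilpotent_of_rhoT {N : ℕ} {x : TR κ (N + 1)} (hx : rhoT κ N x = 0) :
    IsNilpotent x := by
  obtain ⟨f, rfl⟩ := mkT_surjective (N + 1) x
  rw [rhoT_mk] at hx
  have h1 : (PowerSeries.X : PowerSeries κ) ∣ f := PowerSeries.X_dvd_iff.mpr hx
  refine ⟨N + 1, ?_⟩
  rw [← map_pow, Ideal.Quotient.mkₐ_eq_mk, Ideal.Quotient.eq_zero_iff_mem,
    Ideal.mem_span_singleton]
  exact pow_dvd_pow_of_dvd h1 _

variable [Algebra ℂ κ]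

/-- the transition maps -/
noncomputable def piT (κ : Type z) [Field κ] [Algebra ℂ κ] (N : ℕ) : TR κ (N + 1) →ₐ[ℂ] TR κ N :=
  Ideal.Quotient.liftₐ _ ((mkT κ N).restrictScalars ℂ) (fun f hf => by
    rw [Ideal.mem_span_singleton] at hf
    rw [AlgHom.restrictScalars_apply, Ideal.Quotient.mkₐ_eq_mk, Ideal.Quotient.eq_zero_iff_mem,
      Ideal.mem_span_singleton]
    exact (pow_dvd_pow _ (Nat.le_succ N)).trans hf)

theorem piT_mk (N : ℕ) (f : PowerSeries κ) : piT κ N (mkT κ (N + 1) f) = mkT κ N f := rfl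

theorem piT_surjective (N : ℕ) : Function.Surjective (piT κ N) := fun x => by
  obtain ⟨f, rfl⟩ := mkT_surjective N x
  exact ⟨mkT κ (N + 1) f, rfl⟩

/-- the generator of the kernel -/
noncomputable def iotaT (κ : Type z) [Field κ] (N : ℕ) : TR κ (N + 1) :=
  mkT κ (N + 1) (PowerSeries.X ^ N)

omit [Algebra ℂ κ] in
theorem iotaT_ne_zero (N : ℕ) : iotaT κ N ≠ 0 := by
  intro h
  have h1 := mkT_eq_zero_iff.mp h N (Nat.lt_succ_self N)
  rw [PowerSeries.coeff_X_pow, if_pos rfl] at h1
  exact one_ne_zero h1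

omit [Algebra ℂ κ] in
theorem iotaT_mul {N : ℕ} {x : TR κ (N + 1)} (hx : rhoT κ N x = 0) : iotaT κ N * x = 0 := by
  obtain ⟨f, rfl⟩ := mkT_surjective (N + 1) x
  rw [rhoT_mk] at hx
  obtain ⟨g, rfl⟩ := PowerSeries.X_dvd_iff.mpr hx
  rw [iotaT, ← map_mul, Ideal.Quotient.mkₐ_eq_mk, Ideal.Quotient.eq_zero_iff_mem,
    Ideal.mem_span_singleton, ← mul_assoc, ← pow_succ]
  exact Dvd.intro g rfl

theorem piT_iotaT (N : ℕ) : piT κ N (iotaT κ N) = 0 := by
  rw [iotaT, piT_mk, mkT_eq_zero_iff]
  intro n hn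
  rw [PowerSeries.coeff_X_pow, if_neg hn.ne]

theorem mem_span_iotaT {N : ℕ} {x : TR κ (N + 1)} (hx : piT κ N x = 0) :
    x ∈ Ideal.span {iotaT κ N} := by
  obtain ⟨f, rfl⟩ := mkT_surjective (N + 1) x
  rw [piT_mk, Ideal.Quotient.mkₐ_eq_mk, Ideal.Quotient.eq_zero_iff_mem,
    Ideal.mem_span_singleton] at hx
  obtain ⟨g, rfl⟩ := hx
  rw [map_mul]
  exact Ideal.mul_mem_right _ _ (Ideal.mem_span_singleton_self _)

end trunc

/-! ### coefficientwise linear maps -/

section mapLin

variable {A : Type v} [CommRing A] [Algebra ℂ A] {B : Type w} [CommRing B] [Algebra ℂ B]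

/-- A linear map applied to all coefficients. -/
noncomputable def mapLin (g : A →ₗ[ℂ] B) :
    MvPolynomial (Fin 2) A →ₗ[ℂ] MvPolynomial (Fin 2) B :=
  have key : ∀ (p : MvPolynomial (Fin 2) A) (m : Fin 2 →₀ ℕ),
      coeff m (∑ e ∈ p.support, monomial e (g (coeff e p))) = g (coeff m p) := by
    classical
    intro p m
    rw [coeff_sum]
    simp only [coeff_monomial, Finset.sum_ite_eq', mem_support_iff]
    by_cases hm : coeff m p = 0
    · simp [hm]
    · simp [hm]
  { toFun := fun p => ∑ e ∈ p.support, monomial e (g (coeff e p))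
    map_add' := fun p q => by
      ext m
      rw [coeff_add, key, key, key, coeff_add, map_add]
    map_smul' := fun c p => by
      ext m
      rw [RingHom.id_apply, coeff_smul, key, key, coeff_smul, map_smul] }

theorem coeff_mapLin (g : A →ₗ[ℂ] B) (p : MvPolynomial (Fin 2) A) (m : Fin 2 →₀ ℕ) :
    coeff m (mapLin g p) = g (coeff m p) := by
  classical
  change coeff m (∑ e ∈ p.support, monomial e (g (coeff e p))) = g (coeff m p)
  rw [coeff_sum]
  simp only [coeff_monomial, Finset.sum_ite_eq', mem_support_iff]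
  by_cases hm : coeff m p = 0
  · simp [hm]
  · simp [hm]

theorem mapLin_isHomogeneous (g : A →ₗ[ℂ] B) {p : MvPolynomial (Fin 2) A} {n : ℕ}
    (hp : p.IsHomogeneous n) : (mapLin g p).IsHomogeneous n := by
  intro e he
  rw [coeff_mapLin] at he
  exact hp (fun h => he (by rw [h, map_zero]))

/-- A derivation applied to all coefficients is a derivation. -/
theorem mapLin_mul (D : Derivation ℂ A A) (p q : MvPolynomial (Fin 2) A) :
    mapLin (D : A →ₗ[ℂ] A) (p * q) =
      p * mapLin (D : A →ₗ[ℂ] A) q + q * mapLin (D : A →ₗ[ℂ] A) p := by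
  classical
  ext m
  rw [coeff_mapLin, coeff_mul, coeff_add, coeff_mul, mul_comm q, coeff_mul,
    ← Finset.sum_add_distrib]
  change D _ = _
  rw [map_sum]
  refine Finset.sum_congr rfl fun x _ => ?_
  rw [Derivation.leibniz, coeff_mapLin, coeff_mapLin, smul_eq_mul, smul_eq_mul]
  change _ = _ * D _ + D _ * _
  ring

end mapLin

/-! ### congruences -/

section cong

variable {κ : Type z} [Field κ]

/-- congruence modulo `X ^ N` -/
def Cong (N : ℕ) (p q : MvPolynomial (Fin 2) (PowerSeries κ)) : Prop :=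
  ∀ e, ∀ n < N, PowerSeries.coeff n (coeff e p) = PowerSeries.coeff n (coeff e q)

theorem cong_iff {N : ℕ} {p q : MvPolynomial (Fin 2) (PowerSeries κ)} :
    Cong N p q ↔ map (mkT κ N : PowerSeries κ →+* TR κ N) p =
      map (mkT κ N : PowerSeries κ →+* TR κ N) q := by
  constructor
  · intro h
    ext e
    rw [coeff_map, coeff_map]
    exact mkT_eq_iff.mpr (h e)
  · intro h e
    have h1 := congrArg (coeff e) h
    rw [coeff_map, coeff_map] at h1
    exact mkT_eq_iff.mp h1

theorem Cong.mono {N M : ℕ} {p q : MvPolynomial (Fin 2) (PowerSeries κ)} (h : Cong N p q)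
    (hM : M ≤ N) : Cong M p q := fun e n hn => h e n (hn.trans_le hM)

theorem Cong.symm {N : ℕ} {p q : MvPolynomial (Fin 2) (PowerSeries κ)} (h : Cong N p q) :
    Cong N q p := fun e n hn => (h e n hn).symm

theorem Cong.trans {N : ℕ} {p q r : MvPolynomial (Fin 2) (PowerSeries κ)} (h : Cong N p q)
    (h' : Cong N q r) : Cong N p r := fun e n hn => (h e n hn).trans (h' e n hn)

theorem Cong.mul {N : ℕ} {p q p' q' : MvPolynomial (Fin 2) (PowerSeries κ)} (h : Cong N p q)
    (h' : Cong N p' q') : Cong N (p * p') (q * q') := by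
  rw [cong_iff] at *
  rw [map_mul, map_mul, h, h']

theorem Cong.add {N : ℕ} {p q p' q' : MvPolynomial (Fin 2) (PowerSeries κ)} (h : Cong N p q)
    (h' : Cong N p' q') : Cong N (p + p') (q + q') := by
  rw [cong_iff] at *
  rw [map_add, map_add, h, h']

variable [Algebra ℂ κ]

/-- the derivative of power series -/
noncomputable def dX (κ : Type z) [Field κ] [Algebra ℂ κ] :
    Derivation ℂ (PowerSeries κ) (PowerSeries κ) :=
  (PowerSeries.derivative κ).restrictScalars ℂ

theorem coeff_dX (f : PowerSeries κ) (n : ℕ) :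
    PowerSeries.coeff n (dX κ f) = PowerSeries.coeff (n + 1) f * (n + 1) :=
  PowerSeries.coeff_derivative f n

/-- the antiderivative of power series -/
noncomputable def intX (κ : Type z) [Field κ] [Algebra ℂ κ] :
    PowerSeries κ →ₗ[ℂ] PowerSeries κ where
  toFun f := PowerSeries.mk fun n => PowerSeries.coeff (n - 1) f * (n : κ)⁻¹
  map_add' f g := by
    ext n
    rw [map_add, PowerSeries.coeff_mk, PowerSeries.coeff_mk, PowerSeries.coeff_mk, map_add,
      add_mul]
  map_smul' c f := by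
    ext n
    have h : ∀ (g : PowerSeries κ) (m : ℕ), PowerSeries.coeff m (c • g) =
        c • PowerSeries.coeff m g := fun g m => rfl
    rw [RingHom.id_apply, PowerSeries.coeff_mk, h, h, PowerSeries.coeff_mk, smul_mul_assoc]

theorem coeff_intX (f : PowerSeries κ) (n : ℕ) :
    PowerSeries.coeff n (intX κ f) = PowerSeries.coeff (n - 1) f * (n : κ)⁻¹ := by
  exact PowerSeries.coeff_mk n fun n => PowerSeries.coeff (n - 1) f * (n : κ)⁻¹

theorem coeff_intX_zero (f : PowerSeries κ) : PowerSeries.coeff 0 (intX κ f) = 0 := by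
  rw [coeff_intX, Nat.cast_zero, inv_zero, mul_zero]

theorem dX_intX (f : PowerSeries κ) : dX κ (intX κ f) = f := by
  have : CharZero κ := charZero_of_injective_algebraMap (algebraMap ℂ κ).injective
  ext n
  rw [coeff_dX, coeff_intX, Nat.add_sub_cancel, Nat.cast_add_one, mul_assoc,
    inv_mul_cancel₀ (Nat.cast_add_one_ne_zero n), mul_one]

end cong

end Vale.Agent.P292.VF
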