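import Vale.Agent.P292.VF.Arc2

/-! # Arcs of curves, part 3. -/

namespace Vale.Agent.P292.VF

open MvPolynomial

universe u v w z

variable {R : Type u} [CommRing R] [Algebra ℂ R] {𝒜 : ℕ → Submodule ℂ R}
  {P : R →ₗ[ℂ] R →ₗ[ℂ] R} {κ : Type z} [Field κ] [Algebra ℂ κ] {d : ℕ}

theorem Cong.deriv {n : ℕ} {p q : MvPolynomial (Fin 2) (PowerSeries κ)} (h : Cong (n + 1) p q) :
    Cong n (mapLin (dX κ : PowerSeries κ →ₗ[ℂ] PowerSeries κ) p)
      (mapLin (dX κ : PowerSeries κ →ₗ[ℂ] PowerSeries κ) q) := by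
  intro e m hm
  rw [coeff_mapLin, coeff_mapLin]
  change PowerSeries.coeff m (dX κ _) = PowerSeries.coeff m (dX κ _)
  rw [coeff_dX, coeff_dX, h e (m + 1) (by omega)]

theorem cong_of_deriv {n : ℕ} {p q : MvPolynomial (Fin 2) (PowerSeries κ)}
    (h0 : ∀ e, PowerSeries.coeff 0 (coeff e p) = PowerSeries.coeff 0 (coeff e q))
    (h : Cong n (mapLin (dX κ : PowerSeries κ →ₗ[ℂ] PowerSeries κ) p)
      (mapLin (dX κ : PowerSeries κ →ₗ[ℂ] PowerSeries κ) q)) : Cong (n + 1) p q := by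
  have : CharZero κ := charZero_of_injective_algebraMap (algebraMap ℂ κ).injective
  intro e m hm
  cases m with
  | zero => exact h0 e
  | succ m =>
    have h1 := h e m (by omega)
    rw [coeff_mapLin, coeff_mapLin] at h1
    change PowerSeries.coeff m (dX κ _) = PowerSeries.coeff m (dX κ _) at h1
    rw [coeff_dX, coeff_dX] at h1
    exact mul_right_cancel₀ (Nat.cast_add_one_ne_zero m) h1

/-- constants -/
noncomputable def cT (κ : Type z) [Field κ] [Algebra ℂ κ] : κ →ₗ[ℂ] PowerSeries κ :=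
  (Algebra.linearMap κ (PowerSeries κ)).restrictScalars ℂ

theorem coeff_cT (a : κ) (n : ℕ) : PowerSeries.coeff n (cT κ a) = if n = 0 then a else 0 :=
  PowerSeries.coeff_C n a

theorem dX_cT (a : κ) : dX κ (cT κ a) = 0 := by
  ext n
  rw [coeff_dX, coeff_cT, if_neg (Nat.succ_ne_zero n), zero_mul, map_zero]

/-- constants times `X` -/
noncomputable def xT (κ : Type z) [Field κ] [Algebra ℂ κ] : κ →ₗ[ℂ] PowerSeries κ :=
  (LinearMap.mulLeft ℂ (PowerSeries.X : PowerSeries κ)) ∘ₗ cT κ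

theorem xT_apply (a : κ) : xT κ a = PowerSeries.X * cT κ a := rfl

theorem coeff_xT_zero (a : κ) : PowerSeries.coeff 0 (xT κ a) = 0 := by
  rw [xT_apply, PowerSeries.coeff_zero_X_mul]

theorem coeff_xT_succ (a : κ) (n : ℕ) :
    PowerSeries.coeff (n + 1) (xT κ a) = if n = 0 then a else 0 := by
  rw [xT_apply, PowerSeries.coeff_succ_X_mul, coeff_cT]

theorem dX_xT (a : κ) : dX κ (xT κ a) = cT κ a := by
  ext n
  rw [coeff_dX, coeff_xT_succ, coeff_cT]
  split_ifs with h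
  · subst h; simp
  · rw [zero_mul]

omit [Algebra ℂ κ] in
/-- the constant term of a polynomial with power series coefficients -/
theorem map_constantCoeff_eq_iff {p : MvPolynomial (Fin 2) (PowerSeries κ)}
    {q : MvPolynomial (Fin 2) κ} :
    map (PowerSeries.constantCoeff : PowerSeries κ →+* κ) p = q ↔
      ∀ e, PowerSeries.coeff 0 (coeff e p) = coeff e q := by
  constructor
  · rintro rfl e
    rw [coeff_map, PowerSeries.coeff_zero_eq_constantCoeff_apply]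
  · intro h
    ext e
    rw [coeff_map, ← h e, PowerSeries.coeff_zero_eq_constantCoeff_apply]

/-- arcs modulo `X ^ N` -/
structure IsArc (𝒜 : ℕ → Submodule ℂ R) (d N : ℕ) (φ : R →ₐ[ℂ] MvPolynomial (Fin 2) κ)
    (Ψ : R →ₗ[ℂ] MvPolynomial (Fin 2) (PowerSeries κ)) : Prop where
  const : ∀ r, map (PowerSeries.constantCoeff : PowerSeries κ →+* κ) (Ψ r) = φ r
  one : Cong N (Ψ 1) 1
  mul : ∀ r s, Cong N (Ψ (r * s)) (Ψ r * Ψ s)
  deg : ∀ k, ∀ r ∈ 𝒜 k, (Ψ r).IsHomogeneous (d * k)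

theorem IsArc.mono {N M : ℕ} {φ : R →ₐ[ℂ] MvPolynomial (Fin 2) κ}
    {Ψ : R →ₗ[ℂ] MvPolynomial (Fin 2) (PowerSeries κ)} (h : IsArc 𝒜 d N φ Ψ) (hM : M ≤ N) :
    IsArc 𝒜 d M φ Ψ :=
  ⟨h.const, h.one.mono hM, fun r s => (h.mul r s).mono hM, h.deg⟩

/-- the algebra homomorphism of a truncated arc -/
noncomputable def IsArc.hom {N : ℕ} {φ : R →ₐ[ℂ] MvPolynomial (Fin 2) κ}
    {Ψ : R →ₗ[ℂ] MvPolynomial (Fin 2) (PowerSeries κ)} (h : IsArc 𝒜 d N φ Ψ) :
    R →ₐ[ℂ] MvPolynomial (Fin 2) (TR κ N) :=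
  AlgHom.ofLinearMap ((mapAlgHom ((mkT κ N).restrictScalars ℂ)).toLinearMap ∘ₗ Ψ)
    ((cong_iff.mp h.one).trans
      (map_one (map (mkT κ N : PowerSeries κ →+* TR κ N) : MvPolynomial (Fin 2) _ →+* _)))
    (fun r s => (cong_iff.mp (h.mul r s)).trans
      (map_mul (map (mkT κ N : PowerSeries κ →+* TR κ N) : MvPolynomial (Fin 2) _ →+* _) _ _))

theorem IsArc.hom_apply {N : ℕ} {φ : R →ₐ[ℂ] MvPolynomial (Fin 2) κ}
    {Ψ : R →ₗ[ℂ] MvPolynomial (Fin 2) (PowerSeries κ)} (h : IsArc 𝒜 d N φ Ψ) (r : R) :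
    h.hom r = map (mkT κ N : PowerSeries κ →+* TR κ N) (Ψ r) := rfl

/-- The next step of an arc. -/
theorem exists_next [IsAlgClosed κ] [GradedAlgebra 𝒜] (hX : IsContactFano 𝒜 P)
    {φ : R →ₐ[ℂ] MvPolynomial (Fin 2) κ} (h0 : IsCurve 𝒜 d φ) (hs : SplitZ 𝒜 d φ) {N : ℕ}
    {Ψ : R →ₗ[ℂ] MvPolynomial (Fin 2) (PowerSeries κ)} (h : IsArc 𝒜 d (N + 2) φ Ψ) :
    ∃ Ψ' : R →ₗ[ℂ] MvPolynomial (Fin 2) (PowerSeries κ), IsArc 𝒜 d (N + 3) φ Ψ' ∧
      ∀ r, Cong (N + 2) (Ψ' r) (Ψ r) := by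
  let Φ := h.hom
  have h' : IsArc 𝒜 d (N + 1) φ Ψ := h.mono (by omega)
  let Φ' := h'.hom
  let dM := mapLin (dX κ : PowerSeries κ →ₗ[ℂ] PowerSeries κ)
  let D' : R →ₗ[ℂ] MvPolynomial (Fin 2) (TR κ (N + 1)) :=
    (mapAlgHom ((mkT κ (N + 1)).restrictScalars ℂ)).toLinearMap ∘ₗ dM ∘ₗ Ψ
  have hD'a : ∀ r, D' r = map (mkT κ (N + 1) : PowerSeries κ →+* TR κ (N + 1)) (dM (Ψ r)) :=
    fun r => rfl
  have hD' : HZ 𝒜 d Φ' 0 D' := by
    constructor
    · intro r s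
      have h1 := cong_iff.mp (h.mul r s).deriv
      rw [hD'a, hD'a, hD'a, h1, mapLin_mul, map_add, map_mul, map_mul]
      rfl
    · intro k r hr
      rw [hD'a, add_zero]
      exact (mapLin_isHomogeneous _ (h.deg k r hr)).map _
  have hΦ : ∀ r, map (rhoT κ (N + 1) : TR κ (N + 2) →+* κ) (Φ r) = φ r := fun r => by
    rw [← h.const r, h.hom_apply, map_map]
    rfl
  have hΦ' : ∀ r, map (rhoT κ N : TR κ (N + 1) →+* κ) (Φ' r) = φ r := fun r => by
    rw [← h.const r, h'.hom_apply, map_map]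
    rfl
  have hπ : ∀ r, map (piT κ (N + 1) : TR κ (N + 2) →+* TR κ (N + 1)) (Φ r) = Φ' r := fun r => by
    rw [h.hom_apply, h'.hom_apply, map_map]
    rfl
  obtain ⟨D, hD, hDπ⟩ := exists_liftK (ρ := rhoT κ (N + 1)) (ρ' := rhoT κ N) hX h0 hs
    (fun x hx => isNilpotent_of_rhoT hx) (piT κ (N + 1)) (piT_surjective _) (iotaT_ne_zero _)
    (fun x hx => iotaT_mul hx) (piT_iotaT _) (fun x hx => mem_span_iotaT hx) hΦ hΦ'
    (fun k r hr => (h.deg k r hr).map _) hπ hD'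
  obtain ⟨g, hg⟩ := LinearMap.exists_rightInverse_of_surjective
    ((mkT κ (N + 2)).restrictScalars ℂ).toLinearMap
    (LinearMap.range_eq_top.mpr (mkT_surjective (N + 2)))
  have hg' : ∀ x, mkT κ (N + 2) (g x) = x := fun x => LinearMap.congr_fun hg x
  let E : R →ₗ[ℂ] MvPolynomial (Fin 2) (PowerSeries κ) := mapLin g ∘ₗ D
  have hE : ∀ r, map (mkT κ (N + 2) : PowerSeries κ →+* TR κ (N + 2)) (E r) = D r := fun r => by
    ext e
    rw [coeff_map]
    change mkT κ (N + 2) (coeff e (mapLin g (D r))) = _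
    rw [coeff_mapLin, hg']
  have hE' : ∀ r, map (mkT κ (N + 1) : PowerSeries κ →+* TR κ (N + 1)) (E r) = D' r := fun r => by
    rw [← hDπ r, ← hE r, map_map]
    rfl
  let Ψ' : R →ₗ[ℂ] MvPolynomial (Fin 2) (PowerSeries κ) :=
    mapLin (cT κ) ∘ₗ φ.toLinearMap + mapLin (intX κ) ∘ₗ E
  have hΨ' : ∀ r, Ψ' r = mapLin (cT κ) (φ r) + mapLin (intX κ) (E r) := fun r => rfl
  have hc : ∀ r e, PowerSeries.coeff 0 (coeff e (Ψ' r)) = coeff e (φ r) := fun r e => by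
    rw [hΨ', coeff_add, coeff_mapLin, coeff_mapLin, map_add, coeff_cT, coeff_intX_zero,
      if_pos rfl, add_zero]
  have hc' : ∀ r, map (PowerSeries.constantCoeff : PowerSeries κ →+* κ) (Ψ' r) = φ r :=
    fun r => map_constantCoeff_eq_iff.mpr (hc r)
  have hd : ∀ r, dM (Ψ' r) = E r := fun r => by
    ext1 e
    change coeff e (mapLin _ (Ψ' r)) = _
    rw [coeff_mapLin, hΨ', coeff_add, coeff_mapLin, coeff_mapLin]
    change dX κ _ = _
    rw [map_add, dX_cT, dX_intX, zero_add]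
  have hcong : ∀ r, Cong (N + 2) (Ψ' r) (Ψ r) := fun r => by
    refine cong_of_deriv (fun e => ?_) ?_
    · rw [hc, ← h.const r, coeff_map, PowerSeries.coeff_zero_eq_constantCoeff_apply]
    · change Cong (N + 1) (dM (Ψ' r)) (dM (Ψ r))
      rw [hd, cong_iff, hE', hD'a]
  have hcong' : ∀ r, map (mkT κ (N + 2) : PowerSeries κ →+* TR κ (N + 2)) (Ψ' r) = Φ r :=
    fun r => cong_iff.mp (hcong r)
  refine ⟨Ψ', ⟨hc', ?_, fun r s => ?_, fun k r hr => ?_⟩, hcong⟩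
  · refine cong_of_deriv (fun e => ?_) ?_
    · rw [hc, map_one]
      have h1 := map_constantCoeff_eq_iff.mp
        (map_one (map (PowerSeries.constantCoeff : PowerSeries κ →+* κ) :
          MvPolynomial (Fin 2) (PowerSeries κ) →+* MvPolynomial (Fin 2) κ)) e
      exact h1.symm
    · change Cong (N + 2) (dM (Ψ' 1)) (dM 1)
      rw [hd, cong_iff, hE, isDer_one hD.der]
      have h1 : dM 1 = 0 := by
        ext1 e
        change coeff e (mapLin _ 1) = _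
        rw [coeff_mapLin, coeff_zero, coeff_one]
        split_ifs
        · exact (dX κ).map_one_eq_zero
        · exact map_zero _
      rw [h1, map_zero]
  · refine cong_of_deriv (fun e => ?_) ?_
    · rw [hc, map_mul]
      have h1 := map_constantCoeff_eq_iff.mp (show map
        (PowerSeries.constantCoeff : PowerSeries κ →+* κ) (Ψ' r * Ψ' s) = φ r * φ s by
          rw [map_mul, hc', hc']) e
      exact h1.symm
    · change Cong (N + 2) (dM (Ψ' (r * s))) (dM (Ψ' r * Ψ' s))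
      have h1 : dM (Ψ' r * Ψ' s) = Ψ' r * dM (Ψ' s) + Ψ' s * dM (Ψ' r) := mapLin_mul _ _ _
      rw [h1, hd, hd, hd, cong_iff, hE, hD.der, map_add, map_mul, map_mul, hE, hE, hcong', hcong']
  · rw [hΨ']
    refine (mapLin_isHomogeneous _ (h0.degree k r hr)).add (mapLin_isHomogeneous _ ?_)
    have h1 := mapLin_isHomogeneous g (hD.deg k r hr)
    rwa [add_zero] at h1

end Vale.Agent.P292.VF
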