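import Vale.Agent.P292.VF.Lin
import Vale.Agent.P292.VF.Simp

/-! # Very free conics: dual numbers and density of the end points. -/

namespace Vale.Agent.P292.VF

open MvPolynomial
open scoped TensorProduct

universe u v w

variable {R : Type u} [CommRing R] [Algebra ℂ R] {𝒜 : ℕ → Submodule ℂ R}
  {P : R →ₗ[ℂ] R →ₗ[ℂ] R}

section

variable {A : Type v} [CommRing A] [Algebra ℂ A]

/-- First order deformation of a family of conics over the dual numbers. -/
theorem exists_dual [GradedAlgebra 𝒜] (hconn : ∀ r ∈ 𝒜 0, ∃ c : ℂ, r = algebraMap ℂ R c)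
    {ρ : A →ₐ[ℂ] ℂ}
    {φ₀ : R →ₐ[ℂ] MvPolynomial (Fin 2) ℂ} {Φ : R →ₐ[ℂ] MvPolynomial (Fin 2) A}
    (hΦ : ∀ r, map (ρ : A →+* ℂ) (Φ r) = φ₀ r)
    (hdeg : ∀ k, ∀ r ∈ 𝒜 k, (Φ r).IsHomogeneous (2 * k)) (i : Fin 2)
    {D : R →ₗ[ℂ] MvPolynomial (Fin 2) A} (hD : HD 𝒜 Φ 0 D) :
    ∃ Φ' : R →ₐ[ℂ] MvPolynomial (Fin 2) (TrivSqZeroExt A A),
      (∀ r, map ((ρ.comp (TrivSqZeroExt.fstHom ℂ A A)) : TrivSqZeroExt A A →+* ℂ) (Φ' r) = φ₀ r) ∧
      (∀ k, ∀ r ∈ 𝒜 k, (Φ' r).IsHomogeneous (2 * k)) ∧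
      ∀ (a : Fin 2 → ℂ) r, endA Φ' a r = TrivSqZeroExt.inl (endA Φ a r) +
        TrivSqZeroExt.inr (algebraMap ℂ A (a i) * eval (fun i => algebraMap ℂ A (a i)) (D r)) := by
  let A' := TrivSqZeroExt A A
  let ε : A' := TrivSqZeroExt.inr 1
  have hε : ε * ε = 0 := TrivSqZeroExt.inr_mul_inr _ _ _
  let j : MvPolynomial (Fin 2) A →ₐ[ℂ] MvPolynomial (Fin 2) A' :=
    mapAlgHom (TrivSqZeroExt.inlAlgHom ℂ A A)
  have hCε : (C ε * C ε : MvPolynomial (Fin 2) A') = 0 := by rw [← C_mul, hε, C_0]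
  let L : R →ₗ[ℂ] MvPolynomial (Fin 2) A' :=
    j.toLinearMap ∘ₗ Φ.toLinearMap +
      (LinearMap.mulLeft ℂ (C ε : MvPolynomial (Fin 2) A')) ∘ₗ j.toLinearMap ∘ₗ
        (LinearMap.mulLeft ℂ (X i : MvPolynomial (Fin 2) A)) ∘ₗ D
  have hL : ∀ r, L r = j (Φ r) + C ε * j (X i * D r) := fun r => rfl
  let Φ' : R →ₐ[ℂ] MvPolynomial (Fin 2) A' := AlgHom.ofLinearMap L
    (by rw [hL, map_one, map_one, isDer_one hD.der, mul_zero, map_zero, mul_zero, add_zero])
    (fun r s => by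
      rw [hL, hL, hL, hD.der, map_mul, map_mul, map_mul, map_mul, map_mul, map_add, map_mul,
        map_mul]
      linear_combination (-(j (X i) * j (D r) * (j (X i) * j (D s)))) * hCε)
  have hΦ'L : ∀ r, Φ' r = j (Φ r) + C ε * j (X i * D r) := fun r => rfl
  refine ⟨Φ', fun r => ?_, fun k r hr => ?_, fun a r => ?_⟩
  · rw [hΦ'L, map_add, map_mul, map_C]
    have h1 : ((ρ.comp (TrivSqZeroExt.fstHom ℂ A A)) : TrivSqZeroExt A A →+* ℂ) ε = 0 := by
      change ρ (TrivSqZeroExt.fst (TrivSqZeroExt.inr 1)) = 0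
      rw [TrivSqZeroExt.fst_inr, map_zero]
    rw [h1, C_0, zero_mul, add_zero]
    have h2 : map ((ρ.comp (TrivSqZeroExt.fstHom ℂ A A)) : TrivSqZeroExt A A →+* ℂ) (j (Φ r)) =
        map (ρ : A →+* ℂ) (Φ r) := by
      change map _ (map _ (Φ r)) = _
      rw [map_map]
      congr 1
    rw [h2, hΦ]
  · rw [hΦ'L]
    refine ((hdeg k r hr).map _).add ?_
    have h3 : (X i * D r : MvPolynomial (Fin 2) A).IsHomogeneous (2 * k) := by
      cases k with
      | zero =>
        obtain ⟨c, rfl⟩ := hconn r hr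
        rw [isDer_algebraMap hD.der, mul_zero]
        exact isHomogeneous_zero _ _ _
      | succ k =>
        have h4 := (isHomogeneous_X A i).mul (hD.deg k r hr)
        rwa [show 1 + (2 * k + 1 + 0) = 2 * (k + 1) by ring] at h4
    have h5 := (isHomogeneous_C (Fin 2) ε).mul (h3.map (TrivSqZeroExt.inlAlgHom ℂ A A).toRingHom)
    rw [zero_add] at h5
    exact h5
  · have h6 : ∀ p : MvPolynomial (Fin 2) A, eval (fun i => algebraMap ℂ A' (a i)) (j p) =
        TrivSqZeroExt.inl (eval (fun i => algebraMap ℂ A (a i)) p) := fun p =>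
      eval_map_hom (TrivSqZeroExt.inlAlgHom ℂ A A) a p
    rw [endA_apply, hΦ'L, map_add, map_mul, eval_C, h6, h6, endA_apply, map_mul, eval_X]
    congr 1
    change TrivSqZeroExt.inr 1 * TrivSqZeroExt.inl _ = _
    rw [TrivSqZeroExt.inr_mul_inl]
    congr 1
    simp

end

/-- The elements of `R ⊗ R` which vanish on the end points of all infinitesimal deformations. -/
def Nul (𝒜 : ℕ → Submodule ℂ R) (φ₀ : R →ₐ[ℂ] MvPolynomial (Fin 2) ℂ) :
    Submodule ℂ (R ⊗[ℂ] R) where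
  carrier := {F | ∀ (A : Type u) [CommRing A] [Algebra ℂ A] [Module.Finite ℂ A] (ρ : A →ₐ[ℂ] ℂ)
    (_ : ∀ x, ρ x = 0 → IsNilpotent x) (Φ : R →ₐ[ℂ] MvPolynomial (Fin 2) A)
    (_ : ∀ r, map (ρ : A →+* ℂ) (Φ r) = φ₀ r)
    (_ : ∀ k, ∀ r ∈ 𝒜 k, (Φ r).IsHomogeneous (2 * k)),
    Algebra.TensorProduct.lift (endA Φ ![1, 0]) (endA Φ ![0, 1]) (fun _ _ => Commute.all _ _) F
      = 0}
  add_mem' := fun {x y} hx hy A _ _ _ ρ h1 Φ h2 h3 => by
    rw [map_add, hx A ρ h1 Φ h2 h3, hy A ρ h1 Φ h2 h3, add_zero]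
  zero_mem' := fun A _ _ _ ρ h1 Φ h2 h3 => map_zero _
  smul_mem' := fun c x hx A _ _ _ ρ h1 Φ h2 h3 => by
    rw [map_smul, hx A ρ h1 Φ h2 h3, smul_zero]

/-- Density of the end points of the deformations of a very free conic. -/
theorem exists_artin [GradedAlgebra 𝒜] (hX : IsContactFano 𝒜 P)
    {φ₀ : R →ₐ[ℂ] MvPolynomial (Fin 2) ℂ} (h0 : IsCurve 𝒜 2 φ₀) (hv : IsVeryFree 𝒜 φ₀)
    (hsplit : Split 𝒜 φ₀) (F : R ⊗[ℂ] R) (hF : F ≠ 0) :
    ∃ (A : Type u) (_ : CommRing A) (_ : Algebra ℂ A) (ρ : A →ₐ[ℂ] ℂ)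
      (Φ : R →ₐ[ℂ] MvPolynomial (Fin 2) A), (∃ n : ℕ, RingHom.ker ρ ^ n = ⊥) ∧
      (∀ k, ∀ r ∈ 𝒜 k, (Φ r).IsHomogeneous (2 * k)) ∧
      (∀ r, map (ρ : A →+* ℂ) (Φ r) = φ₀ r) ∧
      Algebra.TensorProduct.lift (endA Φ ![1, 0]) (endA Φ ![0, 1]) (fun _ _ => Commute.all _ _) F
        ≠ 0 := by
  by_contra hcon
  push Not at hcon
  have h10 : (![1, 0] : Fin 2 → ℂ) ≠ 0 := fun h => one_ne_zero (congrFun h 0)
  have h01 : (![0, 1] : Fin 2 → ℂ) ≠ 0 := fun h => one_ne_zero (congrFun h 1)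
  have hmem : F ∈ Nul 𝒜 φ₀ := fun A _ _ _ ρ h1 Φ h2 h3 =>
    hcon A _ _ ρ Φ (by
      have : IsNoetherianRing A := IsNoetherianRing.of_finite ℂ A
      obtain ⟨n, hn⟩ := IsNoetherianRing.isNilpotent_nilradical A
      refine ⟨n, ?_⟩
      rw [eq_bot_iff]
      refine (Ideal.pow_right_mono (fun x hx => mem_nilradical.mpr (h1 x hx)) n).trans ?_
      rw [hn]
      rfl) h3 h2
  have hfin : ∀ (A : Type u) [CommRing A] [Algebra ℂ A] [Module.Finite ℂ A],
      Module.Finite ℂ (TrivSqZeroExt A A) := fun A _ _ _ =>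
    inferInstanceAs (Module.Finite ℂ (A × A))
  have hnil : ∀ (A : Type u) [CommRing A] [Algebra ℂ A] (ρ : A →ₐ[ℂ] ℂ)
      (_ : ∀ x, ρ x = 0 → IsNilpotent x) (x : TrivSqZeroExt A A),
      (ρ.comp (TrivSqZeroExt.fstHom ℂ A A)) x = 0 → IsNilpotent x := by
    intro A _ _ ρ h x hx
    exact TrivSqZeroExt.isNilpotent_iff_isNilpotent_fst.mpr (h _ hx)
  have hN : Nul 𝒜 φ₀ = ⊥ := by
    refine simp_tensor hX (p := pt φ₀ ![1, 0]) (q := pt φ₀ ![0, 1]) (not_isVertex_pt h0 h10)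
      (not_isVertex_pt h0 h01) _ ?_ ?_ ?_
    · intro b G hG A _ _ _ ρ h1 Φ h2 h3
      obtain ⟨D, hD, hDe⟩ := exists_section hX h0 hv hsplit h10 _ A ρ h1 Φ h2 h3
        (hamAt P (endA Φ ![1, 0]) b) (isDer_ham hX.leibniz _ b) rfl
      obtain ⟨Φ', g1, g2, g3⟩ := exists_dual hX.connected h2 h3 0 hD
      have := hfin A
      have key := hG (TrivSqZeroExt A A) _ (hnil A ρ h1) Φ' g1 g2
      have hlift : ∀ G : R ⊗[ℂ] R, Algebra.TensorProduct.lift (endA Φ' ![1, 0])
          (endA Φ' ![0, 1]) (fun _ _ => Commute.all _ _) G =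
          TrivSqZeroExt.inl (Algebra.TensorProduct.lift (endA Φ ![1, 0])
            (endA Φ ![0, 1]) (fun _ _ => Commute.all _ _) G) +
          TrivSqZeroExt.inr (Algebra.TensorProduct.lift (endA Φ ![1, 0])
            (endA Φ ![0, 1]) (fun _ _ => Commute.all _ _)
            (TensorProduct.map (P b) LinearMap.id G)) := by
        intro G
        induction G using TensorProduct.induction_on with
        | zero => simp
        | tmul r s =>
          rw [Algebra.TensorProduct.lift_tmul, Algebra.TensorProduct.lift_tmul,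
            TensorProduct.map_tmul, Algebra.TensorProduct.lift_tmul, g3, g3, hDe]
          ext <;> simp [hamAt_apply, mul_comm]
        | add x y hx hy =>
          rw [map_add, hx, hy, map_add, map_add, map_add, TrivSqZeroExt.inl_add,
            TrivSqZeroExt.inr_add]
          abel
      rw [hlift] at key
      have h4 := congrArg TrivSqZeroExt.snd key
      simpa using h4
    · intro b G hG A _ _ _ ρ h1 Φ h2 h3
      obtain ⟨D, hD, hDe⟩ := exists_section hX h0 hv hsplit h01 _ A ρ h1 Φ h2 h3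
        (hamAt P (endA Φ ![0, 1]) b) (isDer_ham hX.leibniz _ b) rfl
      obtain ⟨Φ', g1, g2, g3⟩ := exists_dual hX.connected h2 h3 1 hD
      have := hfin A
      have key := hG (TrivSqZeroExt A A) _ (hnil A ρ h1) Φ' g1 g2
      have hlift : ∀ G : R ⊗[ℂ] R, Algebra.TensorProduct.lift (endA Φ' ![1, 0])
          (endA Φ' ![0, 1]) (fun _ _ => Commute.all _ _) G =
          TrivSqZeroExt.inl (Algebra.TensorProduct.lift (endA Φ ![1, 0])
            (endA Φ ![0, 1]) (fun _ _ => Commute.all _ _) G) +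
          TrivSqZeroExt.inr (Algebra.TensorProduct.lift (endA Φ ![1, 0])
            (endA Φ ![0, 1]) (fun _ _ => Commute.all _ _)
            (TensorProduct.map LinearMap.id (P b) G)) := by
        intro G
        induction G using TensorProduct.induction_on with
        | zero => simp
        | tmul r s =>
          rw [Algebra.TensorProduct.lift_tmul, Algebra.TensorProduct.lift_tmul,
            TensorProduct.map_tmul, Algebra.TensorProduct.lift_tmul, g3, g3, hDe]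
          ext <;> simp [hamAt_apply, mul_comm]
        | add x y hx hy =>
          rw [map_add, hx, hy, map_add, map_add, map_add, TrivSqZeroExt.inl_add,
            TrivSqZeroExt.inr_add]
          abel
      rw [hlift] at key
      have h4 := congrArg TrivSqZeroExt.snd key
      simpa using h4
    · intro G hG
      have h5 := hG (ULift.{u} ℂ) (ULift.algEquiv : ULift.{u} ℂ ≃ₐ[ℂ] ℂ).toAlgHom
        (fun x hx => by
          have : x = 0 := (ULift.algEquiv : ULift.{u} ℂ ≃ₐ[ℂ] ℂ).injective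
            (by rw [map_zero]; exact hx)
          rw [this]
          exact IsNilpotent.zero)
        ((mapAlgHom (ULift.algEquiv : ULift.{u} ℂ ≃ₐ[ℂ] ℂ).symm.toAlgHom).comp φ₀)
        (fun r => by
          change map _ (map _ (φ₀ r)) = φ₀ r
          rw [map_map]
          have : ((ULift.algEquiv : ULift.{u} ℂ ≃ₐ[ℂ] ℂ).toAlgHom : ULift.{u} ℂ →+* ℂ).comp
              ((ULift.algEquiv : ULift.{u} ℂ ≃ₐ[ℂ] ℂ).symm.toAlgHom : ℂ →+* ULift.{u} ℂ) =
              RingHom.id ℂ := by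
            ext x
            rfl
          rw [this, map_id])
        (fun k r hr => (h0.degree k r hr).map _)
      have h6 : ∀ G : R ⊗[ℂ] R, (Algebra.TensorProduct.lift
          (endA ((mapAlgHom (ULift.algEquiv : ULift.{u} ℂ ≃ₐ[ℂ] ℂ).symm.toAlgHom).comp φ₀) ![1, 0])
          (endA ((mapAlgHom (ULift.algEquiv : ULift.{u} ℂ ≃ₐ[ℂ] ℂ).symm.toAlgHom).comp φ₀) ![0, 1])
          (fun _ _ => Commute.all _ _) G).down =
          Algebra.TensorProduct.lift (pt φ₀ ![1, 0]) (pt φ₀ ![0, 1])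
            (fun _ _ => Commute.all _ _) G := by
        have h7 : ∀ (a : Fin 2 → ℂ) (r : R),
            (endA ((mapAlgHom (ULift.algEquiv : ULift.{u} ℂ ≃ₐ[ℂ] ℂ).symm.toAlgHom).comp φ₀) a
              r).down = pt φ₀ a r := by
          intro a r
          rw [endA_apply, pt_apply]
          exact congrArg ULift.down
            (eval_map_hom (ULift.algEquiv : ULift.{u} ℂ ≃ₐ[ℂ] ℂ).symm.toAlgHom a (φ₀ r))
        intro G
        induction G using TensorProduct.induction_on with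
        | zero => simp
        | tmul r s =>
          rw [Algebra.TensorProduct.lift_tmul, Algebra.TensorProduct.lift_tmul, ULift.mul_down,
            h7, h7]
        | add x y hx hy => rw [map_add, map_add, ULift.add_down, hx, hy]
      rw [← h6 G, h5]
      rfl
  rw [hN] at hmem
  exact hF hmem

end Vale.Agent.P292.VF
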