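import Vale.Agent.P292.VF.Gens

/-! # Very free conics: lifting of sections to infinitesimal deformations. -/

namespace Vale.Agent.P292.VF

open MvPolynomial

universe u v w

variable {R : Type u} [CommRing R] [Algebra ℂ R] {𝒜 : ℕ → Submodule ℂ R}
  {P : R →ₗ[ℂ] R →ₗ[ℂ] R}

/-- In high degrees every derivation along `φ₀` splits into two parts. -/
def Split (𝒜 : ℕ → Submodule ℂ R) (φ₀ : R →ₐ[ℂ] MvPolynomial (Fin 2) ℂ) : Prop :=
  ∃ M₀ : ℕ, ∀ M ≥ M₀, ∀ D : R →ₗ[ℂ] MvPolynomial (Fin 2) ℂ, HD 𝒜 φ₀ (M + M) D →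
    ∃ α β : R →ₗ[ℂ] MvPolynomial (Fin 2) ℂ, HD 𝒜 φ₀ M α ∧ HD 𝒜 φ₀ M β ∧
      D = (X 1 ^ M : MvPolynomial (Fin 2) ℂ) • α - (X 0 ^ M : MvPolynomial (Fin 2) ℂ) • β

section

variable {A : Type v} [CommRing A] [Algebra ℂ A] {B : Type w} [CommRing B] [Algebra ℂ B]

theorem theta_X_pow {ι : A} {ρ : A →ₐ[ℂ] ℂ} (hι : ∀ x, ρ x = 0 → ι * x = 0) (i : Fin 2) (M : ℕ)
    (p : MvPolynomial (Fin 2) ℂ) : theta ι (X i ^ M * p) = X i ^ M * theta ι p := by
  rw [← theta_mul hι, map_pow, map_X]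

theorem map_theta {ι : A} (π : A →ₐ[ℂ] B) (hπι : π ι = 0) (p : MvPolynomial (Fin 2) ℂ) :
    map (π : A →+* B) (theta ι p) = 0 := by
  rw [theta_apply, map_mul, map_C]
  have : (π : A →+* B) ι = 0 := hπι
  rw [this, C_0, zero_mul]

/-- one chart -/
theorem exists_chart_lift [GradedAlgebra 𝒜] (hX : IsContactFano 𝒜 P)
    {ρ' : B →ₐ[ℂ] ℂ} {φ₀ : R →ₐ[ℂ] MvPolynomial (Fin 2) ℂ} (h0 : IsCurve 𝒜 2 φ₀)
    (hnil : ∀ x, ρ' x = 0 → IsNilpotent x) (π : A →ₐ[ℂ] B)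
    (hπ : Function.Surjective π) {Φ : R →ₐ[ℂ] MvPolynomial (Fin 2) A}
    {Φ' : R →ₐ[ℂ] MvPolynomial (Fin 2) B} (hρ : ∀ r, map (ρ' : B →+* ℂ) (Φ' r) = φ₀ r)
    (hdeg : ∀ k, ∀ r ∈ 𝒜 k, (Φ r).IsHomogeneous (2 * k))
    (hΦ' : ∀ r, map (π : A →+* B) (Φ r) = Φ' r)
    {D' : R →ₗ[ℂ] MvPolynomial (Fin 2) B} (hD' : HD 𝒜 Φ' 0 D') (i : Fin 2) :
    ∃ M₀, ∀ M ≥ M₀, ∃ S : R →ₗ[ℂ] MvPolynomial (Fin 2) A, HD 𝒜 Φ M S ∧
      ∀ r, map (π : A →+* B) (S r) = X i ^ M * D' r := by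
  obtain ⟨M₀, hM₀⟩ := exists_pow_smul_mem_Ham hX h0 hnil hρ hD'.der i
  refine ⟨M₀, fun M hM => ?_⟩
  obtain ⟨S0, hS0, hS0'⟩ := exists_ham_lift π hπ hΦ' _ (hM₀ M hM)
  refine ⟨hp 𝒜 M S0, isHD_hp hX.connected hdeg (Ham_le hX.leibniz Φ hS0) M, fun r => ?_⟩
  rw [map_hp π M S0 _ hS0' r]
  have h1 : HD 𝒜 Φ' (M + 0) ((X i ^ M : MvPolynomial (Fin 2) B) • D') :=
    hD'.smul (isHomogeneous_X_pow i M)
  rw [h1.hp_eq hX.connected, if_pos (by omega)]
  rfl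

/-- Lifting of a section over a small extension. -/
theorem exists_lift [GradedAlgebra 𝒜] (hX : IsContactFano 𝒜 P)
    {ρ : A →ₐ[ℂ] ℂ} {ρ' : B →ₐ[ℂ] ℂ} {φ₀ : R →ₐ[ℂ] MvPolynomial (Fin 2) ℂ}
    (h0 : IsCurve 𝒜 2 φ₀) (hsplit : Split 𝒜 φ₀)
    (hnil : ∀ x, ρ' x = 0 → IsNilpotent x) (π : A →ₐ[ℂ] B)
    (hπ : Function.Surjective π) {ι : A} (hι0 : ι ≠ 0) (hι : ∀ x, ρ x = 0 → ι * x = 0)
    (hπι : π ι = 0) (hker : ∀ x, π x = 0 → x ∈ Ideal.span {ι})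
    {Φ : R →ₐ[ℂ] MvPolynomial (Fin 2) A} (hΦ : ∀ r, map (ρ : A →+* ℂ) (Φ r) = φ₀ r)
    {Φ' : R →ₐ[ℂ] MvPolynomial (Fin 2) B} (hρ : ∀ r, map (ρ' : B →+* ℂ) (Φ' r) = φ₀ r)
    (hdeg : ∀ k, ∀ r ∈ 𝒜 k, (Φ r).IsHomogeneous (2 * k))
    (hΦ' : ∀ r, map (π : A →+* B) (Φ r) = Φ' r)
    {D' : R →ₗ[ℂ] MvPolynomial (Fin 2) B} (hD' : HD 𝒜 Φ' 0 D') :
    ∃ D : R →ₗ[ℂ] MvPolynomial (Fin 2) A, HD 𝒜 Φ 0 D ∧ ∀ r, map (π : A →+* B) (D r) = D' r := by
  obtain ⟨M1, h1⟩ := exists_chart_lift hX h0 hnil π hπ hρ hdeg hΦ' hD' 0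
  obtain ⟨M2, h2⟩ := exists_chart_lift hX h0 hnil π hπ hρ hdeg hΦ' hD' 1
  obtain ⟨M3, h3⟩ := hsplit
  obtain ⟨M, hM1, hM2, hM3⟩ : ∃ M, M1 ≤ M ∧ M2 ≤ M ∧ M3 ≤ M :=
    ⟨M1 + M2 + M3, by omega, by omega, by omega⟩
  obtain ⟨S, hS, hSπ⟩ := h1 M hM1
  obtain ⟨T, hT, hTπ⟩ := h2 M hM2
  have hΔ : HD 𝒜 Φ (M + M) ((X 1 ^ M : MvPolynomial (Fin 2) A) • S -
      (X 0 ^ M : MvPolynomial (Fin 2) A) • T) :=
    (hS.smul (isHomogeneous_X_pow 1 M)).sub (hT.smul (isHomogeneous_X_pow 0 M))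
  obtain ⟨η, hη, hηΔ⟩ := exists_theta_factor hι0 hι hΦ hΔ (fun r e => by
    apply hker
    have h4 : map (π : A →+* B) (((X 1 ^ M : MvPolynomial (Fin 2) A) • S -
        (X 0 ^ M : MvPolynomial (Fin 2) A) • T) r) = 0 := by
      rw [LinearMap.sub_apply, LinearMap.smul_apply, LinearMap.smul_apply, smul_eq_mul,
        smul_eq_mul, map_sub, map_mul, map_mul, hSπ, hTπ, map_pow, map_pow, map_X, map_X]
      ring
    have h5 := congrArg (coeff e) h4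
    rw [coeff_map, coeff_zero] at h5
    exact h5)
  obtain ⟨α, β, hα, hβ, hαβ⟩ := h3 M hM3 η hη
  have hS' : HD 𝒜 Φ M (S - theta ι ∘ₗ α) := hS.sub (HD.theta hι hΦ hα)
  obtain ⟨D, hD, hDS⟩ := exists_patch (T := T - theta ι ∘ₗ β) hS' (fun r => by
    have h6 := hηΔ r
    rw [hαβ, LinearMap.sub_apply, LinearMap.smul_apply, LinearMap.smul_apply, smul_eq_mul,
      smul_eq_mul, map_sub, theta_X_pow hι, theta_X_pow hι, LinearMap.sub_apply,
      LinearMap.smul_apply, LinearMap.smul_apply, smul_eq_mul, smul_eq_mul] at h6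
    rw [LinearMap.sub_apply, LinearMap.sub_apply, LinearMap.comp_apply, LinearMap.comp_apply]
    linear_combination -h6)
  refine ⟨D, hD, fun r => ?_⟩
  apply X_pow_mul_injective 0 M
  rw [← hSπ r]
  have h7 : map (π : A →+* B) (X 0 ^ M * D r) = map (π : A →+* B) ((S - theta ι ∘ₗ α) r) := by
    rw [hDS]
  rw [map_mul, map_pow, map_X, LinearMap.sub_apply, map_sub, LinearMap.comp_apply,
    map_theta π hπι, sub_zero] at h7
  exact h7

end

/-- The point of the family with constant parameter `a`. -/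
noncomputable def endA {A : Type v} [CommRing A] [Algebra ℂ A]
    (Φ : R →ₐ[ℂ] MvPolynomial (Fin 2) A) (a : Fin 2 → ℂ) : R →ₐ[ℂ] A :=
  ((aeval (fun i => algebraMap ℂ A (a i)) : MvPolynomial (Fin 2) A →ₐ[A] A).restrictScalars ℂ).comp
    Φ

section

variable {A : Type v} [CommRing A] [Algebra ℂ A] {B : Type w} [CommRing B] [Algebra ℂ B]

theorem endA_apply (Φ : R →ₐ[ℂ] MvPolynomial (Fin 2) A) (a : Fin 2 → ℂ) (r : R) :
    endA Φ a r = eval (fun i => algebraMap ℂ A (a i)) (Φ r) := by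
  simp [endA, aeval_eq_eval]

theorem eval_map_hom (π : A →ₐ[ℂ] B) (a : Fin 2 → ℂ) (p : MvPolynomial (Fin 2) A) :
    eval (fun i => algebraMap ℂ B (a i)) (map (π : A →+* B) p) =
      π (eval (fun i => algebraMap ℂ A (a i)) p) := by
  have h := MvPolynomial.map_eval (π : A →+* B) (fun i => algebraMap ℂ A (a i)) p
  have h2 : ((π : A →+* B) ∘ fun i => algebraMap ℂ A (a i)) = fun i => algebraMap ℂ B (a i) := by
    funext i
    exact π.commutes (a i)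
  rw [h2] at h
  exact h.symm

theorem eval_theta (ι : A) (a : Fin 2 → ℂ) (p : MvPolynomial (Fin 2) ℂ) :
    eval (fun i => algebraMap ℂ A (a i)) (theta ι p) = ι * algebraMap ℂ A (eval a p) := by
  rw [theta_apply, map_mul, eval_C]
  congr 1
  exact (MvPolynomial.map_eval (algebraMap ℂ A) a p).symm

/-- `c ↦ ι c` -/
noncomputable def thetaC (ι : A) : ℂ →ₗ[ℂ] A :=
  (LinearMap.mulLeft ℂ ι) ∘ₗ (Algebra.linearMap ℂ A)

theorem thetaC_apply (ι : A) (c : ℂ) : thetaC ι c = ι * algebraMap ℂ A c := rfl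

theorem thetaC_injective {ι : A} (hι : ι ≠ 0) : Function.Injective (thetaC ι) := by
  rw [injective_iff_map_eq_zero]
  intro c hc
  by_contra hne
  exact algebraMap_mul_ne_zero hι hne hc

/-- Correction at the end point. -/
theorem exists_correction {ρ : A →ₐ[ℂ] ℂ} {φ₀ : R →ₐ[ℂ] MvPolynomial (Fin 2) ℂ}
    (hv : IsVeryFree 𝒜 φ₀) {a : Fin 2 → ℂ} (ha : a ≠ 0)
    {ι : A} (hι0 : ι ≠ 0) (hι : ∀ x, ρ x = 0 → ι * x = 0)
    {Φ : R →ₐ[ℂ] MvPolynomial (Fin 2) A} (hΦ : ∀ r, map (ρ : A →+* ℂ) (Φ r) = φ₀ r)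
    {e : R →ₗ[ℂ] A} (he : IsDer (endA Φ a) e) (h : ∀ r, e r ∈ Ideal.span {ι}) :
    ∃ D : R →ₗ[ℂ] MvPolynomial (Fin 2) A, HD 𝒜 Φ 0 D ∧
      (∀ r, ∃ p, D r = theta ι p) ∧ ∀ r, eval (fun i => algebraMap ℂ A (a i)) (D r) = e r := by
  have hpt : ∀ r, ρ (endA Φ a r) = pt φ₀ a r := fun r => by
    rw [endA_apply, pt_apply, ← hΦ]
    exact (eval_map_hom ρ a (Φ r)).symm
  obtain ⟨d₀, hd₀⟩ := exists_factor (thetaC ι) (thetaC_injective hι0) e (fun r => by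
    obtain ⟨x, hx⟩ := Ideal.mem_span_singleton'.mp (h r)
    refine ⟨ρ x, ?_⟩
    rw [thetaC_apply, ← hx, mul_comm x, ← sub_eq_zero, ← mul_sub]
    apply hι
    rw [map_sub, AlgHom.commutes]
    exact sub_self _)
  have hmul : ∀ (x : A) (c : ℂ), thetaC ι (ρ x * c) = x * thetaC ι c := fun x c => by
    rw [thetaC_apply, thetaC_apply, map_mul, ← sub_eq_zero,
      show ι * (algebraMap ℂ A (ρ x) * algebraMap ℂ A c) - x * (ι * algebraMap ℂ A c) =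
        ι * (algebraMap ℂ A (ρ x) - x) * algebraMap ℂ A c by ring, hι, zero_mul]
    rw [map_sub, AlgHom.commutes]
    exact sub_self _
  obtain ⟨D₀, h1, h2, h3⟩ := hv a ha d₀ (fun r s => by
    apply thetaC_injective hι0
    rw [hd₀, he, map_add, ← hpt, ← hpt, hmul, hmul, hd₀, hd₀])
  refine ⟨theta ι ∘ₗ D₀, HD.theta hι hΦ ⟨h1, fun k r hr => h2 k r hr⟩, fun r => ⟨D₀ r, rfl⟩,
    fun r => ?_⟩
  rw [LinearMap.comp_apply, eval_theta, h3, ← thetaC_apply, hd₀]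

/-- There is a nonzero element killed by the maximal ideal. -/
theorem exists_socle [IsNoetherianRing A] {ρ : A →ₐ[ℂ] ℂ} (hnil : ∀ x, ρ x = 0 → IsNilpotent x)
    {x₀ : A} (hx₀ : ρ x₀ = 0) (hx₀' : x₀ ≠ 0) :
    ∃ ι : A, ι ≠ 0 ∧ ρ ι = 0 ∧ ∀ x, ρ x = 0 → ι * x = 0 := by
  classical
  set 𝔫 : Ideal A := RingHom.ker ρ with h𝔫
  have hle : 𝔫 ≤ nilradical A := fun x hx => mem_nilradical.mpr (hnil x hx)
  obtain ⟨n, hn⟩ := IsNoetherianRing.isNilpotent_nilradical A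
  have hn' : 𝔫 ^ n = ⊥ := by
    rw [eq_bot_iff]
    exact (Ideal.pow_right_mono hle n).trans (by rw [hn]; rfl)
  have hex : ∃ n, 𝔫 ^ n = ⊥ := ⟨n, hn'⟩
  set m := Nat.find hex with hm
  have hm1 : 𝔫 ^ m = ⊥ := Nat.find_spec hex
  have hm2 : m ≠ 0 := by
    intro h0
    rw [h0, pow_zero, Ideal.one_eq_top] at hm1
    apply hx₀'
    have : x₀ ∈ (⊤ : Ideal A) := trivial
    rw [hm1] at this
    exact this
  have hm3 : m ≠ 1 := by
    intro h0
    rw [h0, pow_one] at hm1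
    apply hx₀'
    have : x₀ ∈ 𝔫 := hx₀
    rw [hm1] at this
    exact this
  have hm4 : 𝔫 ^ (m - 1) ≠ ⊥ := Nat.find_min hex (by omega)
  obtain ⟨ι, hι, hι0⟩ := Submodule.exists_mem_ne_zero_of_ne_bot hm4
  refine ⟨ι, hι0, ?_, fun x hx => ?_⟩
  · have h1 : 𝔫 ^ (m - 1) ≤ 𝔫 := by
      calc 𝔫 ^ (m - 1) ≤ 𝔫 ^ 1 := Ideal.pow_le_pow_right (by omega)
        _ = 𝔫 := pow_one _
    exact h1 hι
  · have h2 : ι * x ∈ 𝔫 ^ m := by
      rw [show m = (m - 1) + 1 by omega, pow_succ]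
      exact Ideal.mul_mem_mul hι hx
    rw [hm1] at h2
    exact h2

end

/-- LIN: every tangent vector at an end point extends to a section of degree `-1` of an
infinitesimal deformation of a very free conic. -/
theorem exists_section [GradedAlgebra 𝒜] (hX : IsContactFano 𝒜 P)
    {φ₀ : R →ₐ[ℂ] MvPolynomial (Fin 2) ℂ} (h0 : IsCurve 𝒜 2 φ₀) (hv : IsVeryFree 𝒜 φ₀)
    (hsplit : Split 𝒜 φ₀) {a : Fin 2 → ℂ} (ha : a ≠ 0) :
    ∀ (n : ℕ) (A : Type v) [CommRing A] [Algebra ℂ A] [FiniteDimensional ℂ A] (ρ : A →ₐ[ℂ] ℂ)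
      (_ : ∀ x, ρ x = 0 → IsNilpotent x) (Φ : R →ₐ[ℂ] MvPolynomial (Fin 2) A)
      (_ : ∀ r, map (ρ : A →+* ℂ) (Φ r) = φ₀ r)
      (_ : ∀ k, ∀ r ∈ 𝒜 k, (Φ r).IsHomogeneous (2 * k)) (d : R →ₗ[ℂ] A)
      (_ : IsDer (endA Φ a) d), Module.finrank ℂ A = n →
      ∃ D : R →ₗ[ℂ] MvPolynomial (Fin 2) A, HD 𝒜 Φ 0 D ∧
        ∀ r, eval (fun i => algebraMap ℂ A (a i)) (D r) = d r := by
  intro n
  induction n using Nat.strong_induction_on with
  | _ n ih =>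
    intro A _ _ _ ρ hnil Φ hΦ hdeg d hd hn
    by_cases hker : ∀ x, ρ x = 0 → x = 0
    · have hone : (1 : A) ≠ 0 := by
        intro h1
        have := congrArg ρ h1
        rw [map_one, map_zero] at this
        exact one_ne_zero this
      obtain ⟨D, hD, -, hD2⟩ := exists_correction (ρ := ρ) hv ha hone
        (fun x hx => by rw [hker x hx, mul_zero]) hΦ hd
        (fun r => Ideal.mem_span_singleton'.mpr ⟨d r, mul_one _⟩)
      exact ⟨D, hD, hD2⟩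
    · push Not at hker
      obtain ⟨x₀, hx₀, hx₀'⟩ := hker
      have : IsNoetherianRing A := IsNoetherianRing.of_finite ℂ A
      obtain ⟨ι, hι0, hρι, hι⟩ := exists_socle hnil hx₀ hx₀'
      let I : Ideal A := Ideal.span {ι}
      let B := A ⧸ I
      let π : A →ₐ[ℂ] B := Ideal.Quotient.mkₐ ℂ I
      have hπ : Function.Surjective π := Ideal.Quotient.mkₐ_surjective ℂ I
      have hπ0 : ∀ x, π x = 0 → x ∈ I := fun x hx => Ideal.Quotient.eq_zero_iff_mem.mp hx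
      have hπι : π ι = 0 := Ideal.Quotient.eq_zero_iff_mem.mpr (Ideal.mem_span_singleton_self ι)
      have hIρ : ∀ x ∈ I, ρ x = 0 := fun x hx => by
        obtain ⟨y, rfl⟩ := Ideal.mem_span_singleton'.mp hx
        rw [map_mul, hρι, mul_zero]
      let ρ' : B →ₐ[ℂ] ℂ := Ideal.Quotient.liftₐ I ρ hIρ
      have hρ' : ∀ x, ρ' (π x) = ρ x := fun x => rfl
      have hnil' : ∀ y, ρ' y = 0 → IsNilpotent y := fun y hy => by
        obtain ⟨x, rfl⟩ := hπ y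
        exact (hnil x hy).map π
      let Φ' : R →ₐ[ℂ] MvPolynomial (Fin 2) B := (mapAlgHom π).comp Φ
      have hΦ' : ∀ r, map (π : A →+* B) (Φ r) = Φ' r := fun r => rfl
      have hfin : Module.finrank ℂ B < n := by
        rw [← hn]
        have h1 := LinearMap.finrank_range_add_finrank_ker π.toLinearMap
        have h2 : LinearMap.range π.toLinearMap = ⊤ := LinearMap.range_eq_top.mpr hπ
        rw [h2, finrank_top] at h1
        have h3 : 0 < Module.finrank ℂ (LinearMap.ker π.toLinearMap) := by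
          rw [Module.finrank_pos_iff_exists_ne_zero]
          refine ⟨⟨ι, hπι⟩, fun h => hι0 ?_⟩
          exact congrArg Subtype.val h
        omega
      have hfd : FiniteDimensional ℂ B := Module.Finite.of_surjective π.toLinearMap hπ
      have hd' : IsDer (endA Φ' a) (π.toLinearMap ∘ₗ d) := fun r s => by
        have h4 : ∀ r, endA Φ' a r = π (endA Φ a r) := fun r => by
          rw [endA_apply, endA_apply]
          exact eval_map_hom π a (Φ r)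
        rw [h4, h4]
        change π (d (r * s)) = _
        rw [hd, map_add, map_mul, map_mul]
        rfl
      obtain ⟨D', hD', hD'a⟩ := ih _ hfin B ρ' hnil' Φ'
        (fun r => by
          rw [← hΦ', map_map, ← hΦ]
          rfl)
        (fun k r hr => (hdeg k r hr).map _) _ hd' rfl
      obtain ⟨D, hD, hDπ⟩ := exists_lift (ρ := ρ) (ρ' := ρ') hX h0 hsplit hnil' π hπ hι0 hι hπι hπ0
        hΦ (fun r => by
          rw [← hΦ', map_map, ← hΦ]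
          rfl) hdeg hΦ' hD'
      -- the value at the end point
      let ev : MvPolynomial (Fin 2) A →ₗ[ℂ] A :=
        ((aeval (fun i => algebraMap ℂ A (a i)) :
          MvPolynomial (Fin 2) A →ₐ[A] A).restrictScalars ℂ).toLinearMap
      have hev : ∀ p, ev p = eval (fun i => algebraMap ℂ A (a i)) p := fun p => by
        change aeval _ p = _
        rw [aeval_eq_eval]
      have he : IsDer (endA Φ a) (d - ev ∘ₗ D) := fun r s => by
        rw [LinearMap.sub_apply, LinearMap.sub_apply, LinearMap.sub_apply, LinearMap.comp_apply,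
          LinearMap.comp_apply, LinearMap.comp_apply, hev, hev, hev, hd, hD.der, map_add, map_mul,
          map_mul, endA_apply, endA_apply]
        ring
      obtain ⟨E, hE, -, hE2⟩ := exists_correction (ρ := ρ) hv ha hι0 hι hΦ he (fun r => by
        apply hπ0
        rw [LinearMap.sub_apply, map_sub, LinearMap.comp_apply, hev, ← eval_map_hom, hDπ, hD'a]
        exact sub_self _)
      refine ⟨D + E, hD.add hE, fun r => ?_⟩
      rw [LinearMap.add_apply, map_add, hE2, LinearMap.sub_apply, LinearMap.comp_apply, hev]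
      ring

end Vale.Agent.P292.VF
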