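import Vale.Agent.P292.K.C1H
import Vale.Agent.P292.VF.Lin

/-! # Very free conics: the derivations along the conic are free. -/

namespace Vale.Agent.P292.VF

open MvPolynomial

open scoped Matrix

universe u

variable {R : Type u} [CommRing R] [Algebra ℂ R] {𝒜 : ℕ → Submodule ℂ R}
  {P : R →ₗ[ℂ] R →ₗ[ℂ] R} {φ₀ : R →ₐ[ℂ] MvPolynomial (Fin 2) ℂ}

/-- Comparison of the two notions of homogeneous derivations. -/
theorem HD.isHDer (hconn : ∀ r ∈ 𝒜 0, ∃ c : ℂ, r = algebraMap ℂ R c) {K : ℕ}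
    {D : R →ₗ[ℂ] MvPolynomial (Fin 2) ℂ} (h : HD 𝒜 φ₀ K D) :
    IsHDer 𝒜 2 φ₀ ((K : ℤ) - 1) D where
  der := h.der
  homog k r hr m hm := by
    cases k with
    | zero =>
      obtain ⟨c, rfl⟩ := hconn r hr
      rw [isDer_algebraMap h.der]
      exact isHomogeneous_zero _ _ _
    | succ k =>
      have h1 := h.deg k r hr
      have h2 : m = 2 * k + 1 + K := by push_cast at hm; omega
      rwa [h2]
  neg k hk r hr := by
    cases k with
    | zero =>
      obtain ⟨c, rfl⟩ := hconn r hr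
      exact isDer_algebraMap h.der c
    | succ k => exfalso; push_cast at hk; omega

/-- A form of degree `2 M` is a combination of the `M`-th powers of the variables. -/
theorem exists_split_form {M : ℕ} {f : MvPolynomial (Fin 2) ℂ} (hf : f.IsHomogeneous (M + M)) :
    ∃ g h : MvPolynomial (Fin 2) ℂ, g.IsHomogeneous M ∧ h.IsHomogeneous M ∧
      f = X 1 ^ M * g - X 0 ^ M * h := by
  classical
  refine ⟨∑ m ∈ f.support with M ≤ m 1, monomial (m - Finsupp.single 1 M) (coeff m f),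
    ∑ m ∈ f.support with ¬ M ≤ m 1, monomial (m - Finsupp.single 0 M) (-coeff m f), ?_, ?_, ?_⟩
  · refine IsHomogeneous.sum _ _ _ fun m hm => isHomogeneous_monomial _ ?_
    rw [Finset.mem_filter] at hm
    have h1 : m.degree = M + M := by
      have := hf (mem_support_iff.1 hm.1)
      rwa [Finsupp.degree_eq_weight_one]
    have h2 : m 0 + m 1 = M + M := by
      rw [← h1, Finsupp.degree_eq_sum, Fin.sum_univ_two]
    rw [Finsupp.degree_eq_sum, Fin.sum_univ_two]
    simp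
    omega
  · refine IsHomogeneous.sum _ _ _ fun m hm => isHomogeneous_monomial _ ?_
    rw [Finset.mem_filter] at hm
    have h1 : m.degree = M + M := by
      have := hf (mem_support_iff.1 hm.1)
      rwa [Finsupp.degree_eq_weight_one]
    have h2 : m 0 + m 1 = M + M := by
      rw [← h1, Finsupp.degree_eq_sum, Fin.sum_univ_two]
    rw [Finsupp.degree_eq_sum, Fin.sum_univ_two]
    simp
    omega
  · conv_lhs => rw [← support_sum_monomial_coeff f,
      ← Finset.sum_filter_add_sum_filter_not f.support (fun m => M ≤ m 1)]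
    rw [Finset.mul_sum, Finset.mul_sum, sub_eq_add_neg, ← Finset.sum_neg_distrib]
    congr 1
    · refine Finset.sum_congr rfl fun m hm => ?_
      rw [Finset.mem_filter] at hm
      rw [X_pow_eq_monomial, monomial_mul, one_mul]
      congr 1
      rw [add_tsub_cancel_of_le]
      intro i
      by_cases hi : i = 1
      · subst hi; simpa using hm.2
      · simp [Ne.symm hi]
    · refine Finset.sum_congr rfl fun m hm => ?_
      rw [Finset.mem_filter] at hm
      have h1 : m.degree = M + M := by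
        have := hf (mem_support_iff.1 hm.1)
        rwa [Finsupp.degree_eq_weight_one]
      have h2 : m 0 + m 1 = M + M := by
        rw [← h1, Finsupp.degree_eq_sum, Fin.sum_univ_two]
      rw [X_pow_eq_monomial, monomial_mul, one_mul, ← map_neg, neg_neg]
      congr 1
      rw [add_tsub_cancel_of_le]
      intro i
      by_cases hi : i = 0
      · subst hi; simp; omega
      · simp [Ne.symm hi]

/-- The value of a derivation along the curve at a point. -/
theorem isDer_evL {D : R →ₗ[ℂ] MvPolynomial (Fin 2) ℂ} (h : IsDer φ₀ D) (a : Fin 2 → ℂ) :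
    IsDer (pt φ₀ a) (evL a D) := by
  intro r s
  rw [evL_apply, evL_apply, evL_apply, h, map_add, map_mul, map_mul, pt_apply, pt_apply]

/-- A polynomial which vanishes outside the origin is zero. -/
theorem eq_zero_of_eval {p : MvPolynomial (Fin 2) ℂ} (h : ∀ a : Fin 2 → ℂ, a ≠ 0 → eval a p = 0) :
    p = 0 := by
  have h1 : X 0 * p = 0 := by
    refine MvPolynomial.funext fun a => ?_
    rw [map_zero, map_mul, eval_X]
    by_cases ha : a = 0
    · rw [ha, Pi.zero_apply, zero_mul]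
    · rw [h a ha, mul_zero]
  exact (mul_eq_zero.1 h1).resolve_left (X_ne_zero 0)

variable [GradedAlgebra 𝒜]

/-- The derivations along a very free conic are free over the derivations of degree `-1`. -/
theorem exists_basis_of_isVeryFree (hX : IsContactFano 𝒜 P) (h0 : IsCurve 𝒜 2 φ₀)
    (hv : IsVeryFree 𝒜 φ₀) : ∃ (n : ℕ) (e : Fin n → R →ₗ[ℂ] MvPolynomial (Fin 2) ℂ),
      (∀ i, HD 𝒜 φ₀ 0 (e i)) ∧ ∀ (K : ℕ) (D : R →ₗ[ℂ] MvPolynomial (Fin 2) ℂ), HD 𝒜 φ₀ K D →
        ∃ f : Fin n → MvPolynomial (Fin 2) ℂ, (∀ i, (f i).IsHomogeneous K) ∧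
          D = ∑ i, f i • e i := by
  classical
  let u₀ : Fin 2 → ℂ := ![1, 0]
  have hu₀ : u₀ ≠ 0 := by
    intro h
    have := congrFun h 0
    simp [u₀] at this
  have hNV : ∀ a : Fin 2 → ℂ, a ≠ 0 → IsNV 𝒜 (pt φ₀ a) := fun a ha => c1_isNV_pt h0 a ha
  -- a basis of the tangent space
  have hfin : Module.Finite ℂ (DerAt (pt φ₀ u₀)) := by
    obtain ⟨N, r, hr⟩ := exists_ham_rep hX (hNV u₀ hu₀)
    have hle : (DerAt (pt φ₀ u₀)) ≤ Submodule.span ℂ (Set.range fun i => hamAt P (pt φ₀ u₀) (r i)) := by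
      intro δ hδ
      obtain ⟨a, ha⟩ := hr δ hδ
      have : δ = ∑ i, a i • hamAt P (pt φ₀ u₀) (r i) := by
        ext s
        rw [ha s, LinearMap.sum_apply]
        rfl
      rw [this]
      exact sum_mem fun i _ => Submodule.smul_mem _ _ (Submodule.subset_span ⟨i, rfl⟩)
    have hf2 : Module.Finite ℂ (Submodule.span ℂ
        (Set.range fun i => hamAt P (pt φ₀ u₀) (r i))) :=
      Module.Finite.span_of_finite ℂ (Set.finite_range _)
    exact Submodule.finiteDimensional_of_le hle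
  let n := Module.finrank ℂ (DerAt (pt φ₀ u₀))
  let b : Module.Basis (Fin n) ℂ (DerAt (pt φ₀ u₀)) := Module.finBasis ℂ _
  have hrep : ∀ (d : R →ₗ[ℂ] ℂ) (hd : d ∈ DerAt (pt φ₀ u₀)),
      d = ∑ j, b.repr ⟨d, hd⟩ j • (b j : R →ₗ[ℂ] ℂ) := by
    intro d hd
    have h1 := congrArg (DerAt (pt φ₀ u₀)).subtype (b.sum_repr ⟨d, hd⟩)
    rw [map_sum] at h1
    exact h1.symm
  have hsec : ∀ (a : Fin 2 → ℂ) (_ : a ≠ 0) (d : R →ₗ[ℂ] ℂ) (_ : IsDer (pt φ₀ a) d),
      ∃ D : R →ₗ[ℂ] MvPolynomial (Fin 2) ℂ, HD 𝒜 φ₀ 0 D ∧ evL a D = d := by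
    intro a ha d hd
    obtain ⟨D, h1, h2, h3⟩ := hv a ha d hd
    refine ⟨D, ⟨h1, fun k r hr => h2 k r hr⟩, ?_⟩
    ext r
    rw [evL_apply, h3]
  choose e he heb using fun i => hsec u₀ hu₀ (b i : R →ₗ[ℂ] ℂ) (b i).2
  have heH : ∀ i, IsHDer 𝒜 2 φ₀ (-1) (e i) := fun i => by
    have := (he i).isHDer hX.connected
    simpa using this
  -- the Gram matrix
  let c : Matrix (Fin n) (Fin n) ℂ := Matrix.of fun i j => om P (pt φ₀ u₀) (b i) (b j)
  have hconst : ∀ {η ζ : R →ₗ[ℂ] MvPolynomial (Fin 2) ℂ}, HD 𝒜 φ₀ 0 η → HD 𝒜 φ₀ 0 ζ →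
      ∀ a : Fin 2 → ℂ, a ≠ 0 → om P (pt φ₀ a) (evL a η) (evL a ζ) =
        om P (pt φ₀ u₀) (evL u₀ η) (evL u₀ ζ) := by
    intro η ζ hη hζ a ha
    have h1 : IsHDer 𝒜 2 φ₀ (-1) η := by simpa using hη.isHDer hX.connected
    have h2 : IsHDer 𝒜 2 φ₀ (-1) ζ := by simpa using hζ.isHDer hX.connected
    have h3 : (omC P φ₀ η ζ).IsHomogeneous 0 := omC_homog hX h0 h1 h2 (by norm_num)
    rw [omC_eval hX h0 h1 h2 a ha, omC_eval hX h0 h1 h2 u₀ hu₀]
    have h4 : omC P φ₀ η ζ = C (coeff 0 (omC P φ₀ η ζ)) :=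
      totalDegree_eq_zero_iff_eq_C.1 ((totalDegree_zero_iff_isHomogeneous _).2 h3)
    rw [h4, eval_C, eval_C]
  have hgram : ∀ i j (a : Fin 2 → ℂ), a ≠ 0 →
      om P (pt φ₀ a) (evL a (e i)) (evL a (e j)) = c i j := by
    intro i j a ha
    rw [hconst (he i) (he j) a ha, heb, heb]
    rfl
  have hbder : ∀ i, IsDer (pt φ₀ u₀) (b i : R →ₗ[ℂ] ℂ) := fun i => (b i).2
  have hsumL : ∀ (a : Fin 2 → ℂ) (_ : a ≠ 0) (s : Finset (Fin n)) (x : Fin n → ℂ)
      (δ : Fin n → R →ₗ[ℂ] ℂ) (_ : ∀ i, IsDer (pt φ₀ a) (δ i)) (δ' : R →ₗ[ℂ] ℂ)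
      (_ : IsDer (pt φ₀ a) δ'), om P (pt φ₀ a) (∑ i ∈ s, x i • δ i) δ' =
        ∑ i ∈ s, x i * om P (pt φ₀ a) (δ i) δ' := by
    intro a ha s x δ hδ δ' hδ'
    induction s using Finset.induction_on with
    | empty => rw [Finset.sum_empty, Finset.sum_empty, om_zero_left hX (hNV a ha) hδ']
    | insert i s hi ih =>
      rw [Finset.sum_insert hi, Finset.sum_insert hi, om_add_left hX (hNV a ha)
        ((DerAt (pt φ₀ a)).smul_mem _ (hδ i))
        ((DerAt (pt φ₀ a)).sum_mem fun j _ => (DerAt (pt φ₀ a)).smul_mem _ (hδ j)) hδ', ih,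
        om_smul_left hX (hNV a ha) (hδ i) hδ']
  have hcdet : IsUnit c.det := by
    rw [isUnit_iff_ne_zero]
    intro hdet
    obtain ⟨x, hx, hxc⟩ := Matrix.exists_vecMul_eq_zero_iff.mpr hdet
    apply hx
    have hzero : ∑ i, x i • (b i : R →ₗ[ℂ] ℂ) = 0 := by
      refine eq_zero_of_om hX (hNV u₀ hu₀)
        ((DerAt (pt φ₀ u₀)).sum_mem fun j _ => (DerAt (pt φ₀ u₀)).smul_mem _ (hbder j)) ?_
      intro δ' hδ'
      have h1 : δ' = ∑ j, b.repr ⟨δ', hδ'⟩ j • (b j : R →ₗ[ℂ] ℂ) := hrep δ' hδ'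
      rw [om_antisymm hX (hNV u₀ hu₀)
        ((DerAt (pt φ₀ u₀)).sum_mem fun j _ => (DerAt (pt φ₀ u₀)).smul_mem _ (hbder j)) hδ', h1,
        hsumL u₀ hu₀ _ _ _ hbder _
          ((DerAt (pt φ₀ u₀)).sum_mem fun j _ => (DerAt (pt φ₀ u₀)).smul_mem _ (hbder j)),
        neg_eq_zero]
      refine Finset.sum_eq_zero fun j _ => ?_
      have h2 : om P (pt φ₀ u₀) (b j) (∑ i, x i • (b i : R →ₗ[ℂ] ℂ)) = 0 := by
        rw [om_antisymm hX (hNV u₀ hu₀) (hbder j)
          ((DerAt (pt φ₀ u₀)).sum_mem fun j _ => (DerAt (pt φ₀ u₀)).smul_mem _ (hbder j)),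
          hsumL u₀ hu₀ _ _ _ hbder _ (hbder j), neg_eq_zero]
        exact congrFun hxc j
      rw [h2, mul_zero]
    have h3 : ∑ i, x i • b i = 0 := by
      apply Submodule.subtype_injective
      rw [map_sum, map_zero]
      exact hzero
    have h4 := Fintype.linearIndependent_iff.1 b.linearIndependent x h3
    exact funext h4
  -- the sections span everywhere
  have hspan : ∀ (a : Fin 2 → ℂ) (_ : a ≠ 0) (τ : R →ₗ[ℂ] ℂ) (_ : IsDer (pt φ₀ a) τ),
      ∃ x : Fin n → ℂ, τ = ∑ i, x i • evL a (e i) := by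
    intro a ha τ hτ
    obtain ⟨η, hη, hητ⟩ := hsec a ha τ hτ
    let x : Fin n → ℂ := fun i => b.repr ⟨evL u₀ η, isDer_evL hη.der u₀⟩ i
    have hx : evL u₀ η = ∑ i, x i • (b i : R →ₗ[ℂ] ℂ) := hrep _ _
    let xC : Fin n → MvPolynomial (Fin 2) ℂ := fun i => C (x i)
    let η' : R →ₗ[ℂ] MvPolynomial (Fin 2) ℂ := η - ∑ i, xC i • e i
    have hηs : HD 𝒜 φ₀ 0 (∑ i, xC i • e i) := by
      have : ∀ s : Finset (Fin n), HD 𝒜 φ₀ 0 (∑ i ∈ s, xC i • e i) := by
        intro s
        induction s using Finset.induction_on with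
        | empty => rw [Finset.sum_empty]; exact HD.zero
        | insert i s hi ih =>
          rw [Finset.sum_insert hi]
          exact ((he i).smul (isHomogeneous_C _ (x i))).add ih
      exact this _
    have hη' : HD 𝒜 φ₀ 0 η' := hη.sub hηs
    have hev : ∀ a : Fin 2 → ℂ, evL a η' = evL a η - ∑ i, x i • evL a (e i) := by
      intro a
      ext r
      simp only [η', xC, evL_apply, LinearMap.sub_apply, LinearMap.sum_apply,
        LinearMap.smul_apply, smul_eq_mul, map_sub, map_sum, map_mul, eval_C]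
    have hη'0 : evL u₀ η' = 0 := by
      rw [hev, hx, sub_eq_zero]
      exact Finset.sum_congr rfl fun i _ => by rw [heb]
    have hη'a : evL a η' = 0 := by
      refine eq_zero_of_om hX (hNV a ha) (isDer_evL hη'.der a) fun δ' hδ' => ?_
      obtain ⟨ζ, hζ, hζδ⟩ := hsec a ha δ' hδ'
      rw [← hζδ, hconst hη' hζ a ha, hη'0]
      exact om_zero_left hX (hNV u₀ hu₀) (isDer_evL hζ.der u₀)
    refine ⟨x, ?_⟩
    rw [← hητ]
    rw [hev, sub_eq_zero] at hη'a
    exact hη'a
  -- expansion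
  refine ⟨n, e, he, fun K D hD => ?_⟩
  have hDH := hD.isHDer hX.connected
  let h : Fin n → MvPolynomial (Fin 2) ℂ := fun j => omC P φ₀ D (e j)
  have hh : ∀ j, (h j).IsHomogeneous K := fun j =>
    omC_homog hX h0 hDH (heH j) (by push_cast; ring)
  let f : Fin n → MvPolynomial (Fin 2) ℂ := fun i => ∑ j, C (c⁻¹ j i) * h j
  have hf : ∀ i, (f i).IsHomogeneous K := fun i => by
    refine IsHomogeneous.sum _ _ _ fun j _ => ?_
    have := (isHomogeneous_C (Fin 2) (c⁻¹ j i)).mul (hh j)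
    rwa [zero_add] at this
  refine ⟨f, hf, ?_⟩
  rw [← sub_eq_zero]
  ext1 r
  rw [LinearMap.zero_apply]
  refine eq_zero_of_eval fun a ha => ?_
  have hev : evL a (D - ∑ i, f i • e i) = evL a D - ∑ i, eval a (f i) • evL a (e i) := by
    ext r
    simp only [evL_apply, LinearMap.sub_apply, LinearMap.sum_apply, LinearMap.smul_apply,
      smul_eq_mul, map_sub, map_sum, map_mul]
  have hder : IsDer (pt φ₀ a) (evL a D - ∑ i, eval a (f i) • evL a (e i)) :=
    (DerAt (pt φ₀ a)).sub_mem (isDer_evL hD.der a)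
      ((DerAt (pt φ₀ a)).sum_mem fun j _ => (DerAt (pt φ₀ a)).smul_mem _ (isDer_evL (he j).der a))
  have horth : ∀ j, om P (pt φ₀ a) (evL a D - ∑ i, eval a (f i) • evL a (e i))
      (evL a (e j)) = 0 := by
    intro j
    rw [om_sub_left hX (hNV a ha) (isDer_evL hD.der a)
      ((DerAt (pt φ₀ a)).sum_mem fun j _ => (DerAt (pt φ₀ a)).smul_mem _ (isDer_evL (he j).der a))
      (isDer_evL (he j).der a),
      hsumL a ha _ _ _ (fun i => isDer_evL (he i).der a) _ (isDer_evL (he j).der a),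
      omC_eval hX h0 hDH (heH j) a ha, sub_eq_zero]
    have h1 : ∀ i, eval a (f i) = ((fun l => eval a (h l)) ᵥ* c⁻¹) i := by
      intro i
      simp only [f, map_sum, map_mul, eval_C, Matrix.vecMul, dotProduct]
      exact Finset.sum_congr rfl fun l _ => mul_comm _ _
    calc eval a (omC P φ₀ D (e j)) = ((fun l => eval a (h l)) ᵥ* (c⁻¹ * c)) j := by
          rw [Matrix.nonsing_inv_mul _ hcdet, Matrix.vecMul_one]
      _ = (((fun l => eval a (h l)) ᵥ* c⁻¹) ᵥ* c) j := by rw [Matrix.vecMul_vecMul]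
      _ = _ := by
          simp only [Matrix.vecMul, dotProduct]
          refine Finset.sum_congr rfl fun i _ => ?_
          rw [hgram i j a ha]
          congr 1
          simp only [f, map_sum, map_mul, eval_C]
          exact Finset.sum_congr rfl fun l _ => mul_comm _ _
  have hzero : evL a D - ∑ i, eval a (f i) • evL a (e i) = 0 := by
    refine eq_zero_of_om hX (hNV a ha) hder fun δ' hδ' => ?_
    obtain ⟨x, hx⟩ := hspan a ha δ' hδ'
    rw [om_antisymm hX (hNV a ha) hder hδ', hx,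
      hsumL a ha _ _ _ (fun i => isDer_evL (he i).der a) _ hder, neg_eq_zero]
    refine Finset.sum_eq_zero fun i _ => ?_
    rw [om_antisymm hX (hNV a ha) (isDer_evL (he i).der a) hder, horth, neg_zero, mul_zero]
  rw [← hev] at hzero
  have := LinearMap.congr_fun hzero r
  rwa [evL_apply] at this

/-- In all degrees the derivations along a very free conic split. -/
theorem split_of_isVeryFree (hX : IsContactFano 𝒜 P) (h0 : IsCurve 𝒜 2 φ₀)
    (hv : IsVeryFree 𝒜 φ₀) : Split 𝒜 φ₀ := by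
  classical
  obtain ⟨n, e, he, hexp⟩ := exists_basis_of_isVeryFree hX h0 hv
  refine ⟨0, fun M _ D hD => ?_⟩
  obtain ⟨f, hf, hDf⟩ := hexp _ D hD
  choose g h hg hh hfgh using fun i => exists_split_form (hf i)
  have hsum : ∀ (k : Fin n → MvPolynomial (Fin 2) ℂ) (_ : ∀ i, (k i).IsHomogeneous M),
      HD 𝒜 φ₀ M (∑ i, k i • e i) := by
    intro k hk
    have : ∀ s : Finset (Fin n), HD 𝒜 φ₀ M (∑ i ∈ s, k i • e i) := by
      intro s
      induction s using Finset.induction_on with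
      | empty => rw [Finset.sum_empty]; exact HD.zero
      | insert i s hi ih =>
        rw [Finset.sum_insert hi]
        exact ((he i).smul (hk i)).add ih
    exact this _
  refine ⟨∑ i, g i • e i, ∑ i, h i • e i, hsum g hg, hsum h hh, ?_⟩
  rw [hDf, Finset.smul_sum, Finset.smul_sum, ← Finset.sum_sub_distrib]
  refine Finset.sum_congr rfl fun i _ => ?_
  rw [smul_smul, smul_smul, ← sub_smul, ← hfgh i]

end Vale.Agent.P292.VF
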