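import Mathlib

/-! # One very free conic: the universal conic. -/

namespace Vale.Agent.P292.VF

open MvPolynomial

universe u v w

section graded

variable {R : Type u} [CommRing R] [Algebra ℂ R] (𝒜 : ℕ → Submodule ℂ R) [GradedAlgebra 𝒜]

/-- A homomorphism to a polynomial ring which is graded on generators is graded. -/
theorem isHomogeneous_of_generators {σ : Type*} {A : Type v} [CommRing A] [Algebra ℂ A]
    (Φ : R →ₐ[ℂ] MvPolynomial σ A) {s : Set R} (hs : Algebra.adjoin ℂ s = ⊤)
    (h : ∀ r ∈ s, ∃ k, r ∈ 𝒜 k ∧ (Φ r).IsHomogeneous (2 * k)) :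
    ∀ k, ∀ r ∈ 𝒜 k, (Φ r).IsHomogeneous (2 * k) := by
  classical
  have key : ∀ r : R, ∀ k, (Φ (DirectSum.decompose 𝒜 r k : R)).IsHomogeneous (2 * k) := by
    intro r
    have hr : r ∈ Algebra.adjoin ℂ s := by rw [hs]; trivial
    induction hr using Algebra.adjoin_induction with
    | mem r hr =>
      intro k
      obtain ⟨l, hl, hh⟩ := h r hr
      by_cases hkl : l = k
      · subst hkl
        rw [DirectSum.decompose_of_mem_same 𝒜 hl]
        exact hh
      · rw [DirectSum.decompose_of_mem_ne 𝒜 hl hkl, map_zero]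
        exact isHomogeneous_zero _ _ _
    | algebraMap c =>
      intro k
      have h0 : algebraMap ℂ R c ∈ 𝒜 0 := SetLike.algebraMap_mem_graded 𝒜 c
      by_cases hk : 0 = k
      · subst hk
        rw [DirectSum.decompose_of_mem_same 𝒜 h0, AlgHom.commutes, mul_zero,
          IsScalarTower.algebraMap_apply ℂ A (MvPolynomial σ A), algebraMap_eq]
        exact isHomogeneous_C _ _
      · rw [DirectSum.decompose_of_mem_ne 𝒜 h0 hk, map_zero]
        exact isHomogeneous_zero _ _ _
    | add x y _ _ hx hy =>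
      intro k
      rw [DirectSum.decompose_add, DirectSum.add_apply, Submodule.coe_add, map_add]
      exact (hx k).add (hy k)
    | mul x y _ _ hx hy =>
      intro k
      rw [DirectSum.decompose_mul, DirectSum.coe_mul_apply, map_sum]
      refine IsHomogeneous.sum _ _ _ fun ij hij => ?_
      rw [map_mul]
      have h1 := (hx ij.1).mul (hy ij.2)
      have h2 : 2 * ij.1 + 2 * ij.2 = 2 * k := by
        rw [← (Finset.mem_filter.1 hij).2]; ring
      rwa [h2] at h1
  intro k r hr
  have := key r k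
  rwa [DirectSum.decompose_of_mem_same 𝒜 hr] at this

end graded

/-- The exponent `s ^ i t ^ j`. -/
noncomputable def ex (i j : ℕ) : Fin 2 →₀ ℕ := Finsupp.single 0 i + Finsupp.single 1 j

theorem ex_eq (m : Fin 2 →₀ ℕ) : ex (m 0) (m 1) = m := by
  ext i
  fin_cases i <;> simp [ex]

theorem ex_inj {i j i' j' : ℕ} (h : ex i j = ex i' j') : i = i' ∧ j = j' := by
  constructor
  · simpa [ex] using DFunLike.congr_fun h 0
  · simpa [ex] using DFunLike.congr_fun h 1

theorem degree_ex (i j : ℕ) : (ex i j).degree = i + j := by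
  simp [ex, Finsupp.degree_eq_sum, Fin.sum_univ_two]

/-- A form in two variables is the sum of its terms. -/
theorem form_eq_sum {A : Type v} [CommRing A] {p : MvPolynomial (Fin 2) A} {d : ℕ}
    (hp : p.IsHomogeneous d) :
    p = ∑ j : Fin (d + 1), monomial (ex j (d - j)) (coeff (ex j (d - j)) p) := by
  classical
  ext m
  rw [coeff_sum]
  simp only [coeff_monomial]
  by_cases hm : m.degree = d
  · have h1 : m 0 + m 1 = d := by
      rw [← hm, Finsupp.degree_eq_sum, Fin.sum_univ_two]
    rw [Finset.sum_eq_single (⟨m 0, by omega⟩ : Fin (d + 1))]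
    · have h2 : ex (m 0) (d - m 0) = m := by
        have : d - m 0 = m 1 := by omega
        rw [this, ex_eq]
      rw [if_pos h2, h2]
    · intro j _ hj
      rw [if_neg]
      intro h
      rw [← ex_eq m] at h
      exact hj (Fin.ext (ex_inj h).1)
    · intro h
      exact absurd (Finset.mem_univ _) h
  · rw [Finset.sum_eq_zero]
    · by_contra hne
      apply hm
      have := hp hne
      rwa [Finsupp.degree_eq_weight_one]
    · intro j _
      rw [if_neg]
      rintro rfl
      apply hm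
      rw [degree_ex]
      have := j.2
      omega

section univ

variable {R : Type u} [CommRing R] [Algebra ℂ R] {n : ℕ} (x : Fin n → R) (k : Fin n → ℕ)

/-- The coefficients of the universal conic. -/
abbrev Coef (k : Fin n → ℕ) : Type := MvPolynomial (Σ i : Fin n, Fin (2 * k i + 1)) ℂ

/-- The general form of degree `2 k i`. -/
noncomputable def genForm (i : Fin n) : MvPolynomial (Fin 2) (Coef k) :=
  ∑ j : Fin (2 * k i + 1), monomial (ex j (2 * k i - j)) (X ⟨i, j⟩)

/-- The relations between the coefficients of the universal conic. -/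
noncomputable def relIdeal : Ideal (Coef k) :=
  Ideal.span {c | ∃ f : MvPolynomial (Fin n) ℂ, aeval x f = 0 ∧
    ∃ m, c = coeff m (aeval (genForm k) f)}

/-- The coordinate ring of the space of conics. -/
abbrev UC : Type := Coef k ⧸ relIdeal x k

/-- The universal conic on the polynomial ring. -/
noncomputable def preUniv : MvPolynomial (Fin n) ℂ →ₐ[ℂ] MvPolynomial (Fin 2) (UC x k) :=
  (mapAlgHom (Ideal.Quotient.mkₐ ℂ (relIdeal x k))).comp (aeval (genForm k))

theorem preUniv_eq_zero (f : MvPolynomial (Fin n) ℂ) (hf : aeval x f = 0) :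
    preUniv x k f = 0 := by
  ext m
  rw [preUniv, AlgHom.comp_apply, mapAlgHom_apply, coeff_map, coeff_zero]
  change Ideal.Quotient.mk (relIdeal x k) _ = 0
  rw [Ideal.Quotient.eq_zero_iff_mem]
  exact Ideal.subset_span ⟨f, hf, m, rfl⟩

variable (hs : Function.Surjective (aeval x : MvPolynomial (Fin n) ℂ →ₐ[ℂ] R))

/-- The universal conic. -/
noncomputable def univ : R →ₐ[ℂ] MvPolynomial (Fin 2) (UC x k) :=
  (Ideal.Quotient.liftₐ (RingHom.ker (aeval x : MvPolynomial (Fin n) ℂ →ₐ[ℂ] R)) (preUniv x k)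
    (fun f hf => preUniv_eq_zero x k f hf)).comp
    (Ideal.quotientKerAlgEquivOfSurjective hs).symm.toAlgHom

theorem univ_aeval (f : MvPolynomial (Fin n) ℂ) : univ x k hs (aeval x f) = preUniv x k f := by
  have h1 : (Ideal.quotientKerAlgEquivOfSurjective hs).symm (aeval x f) =
      Ideal.Quotient.mk _ f := by
    rw [AlgEquiv.symm_apply_eq]
    rfl
  rw [univ, AlgHom.comp_apply]
  change Ideal.Quotient.liftₐ _ _ _ ((Ideal.quotientKerAlgEquivOfSurjective hs).symm (aeval x f)) = _
  rw [h1]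
  rfl

theorem univ_gen (i : Fin n) : univ x k hs (x i) = ∑ j : Fin (2 * k i + 1),
    monomial (ex j (2 * k i - j)) (Ideal.Quotient.mk (relIdeal x k) (X ⟨i, j⟩)) := by
  have h1 := univ_aeval x k hs (X i)
  rw [aeval_X] at h1
  rw [h1, preUniv, AlgHom.comp_apply, aeval_X, genForm, map_sum]
  refine Finset.sum_congr rfl fun j _ => ?_
  rw [mapAlgHom_apply, map_monomial]
  rfl

theorem univ_gen_homogeneous (i : Fin n) : (univ x k hs (x i)).IsHomogeneous (2 * k i) := by
  rw [univ_gen]
  refine IsHomogeneous.sum _ _ _ fun j _ => isHomogeneous_monomial _ ?_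
  rw [degree_ex]
  have := j.2
  omega

variable {A : Type v} [CommRing A] [Algebra ℂ A]

/-- The homomorphism given by a conic. -/
noncomputable def preLift (Φ : R →ₐ[ℂ] MvPolynomial (Fin 2) A) : Coef k →ₐ[ℂ] A :=
  aeval fun ij : Σ i : Fin n, Fin (2 * k i + 1) => coeff (ex ij.2 (2 * k ij.1 - ij.2)) (Φ (x ij.1))

theorem map_preLift (Φ : R →ₐ[ℂ] MvPolynomial (Fin 2) A)
    (h : ∀ i, (Φ (x i)).IsHomogeneous (2 * k i)) (f : MvPolynomial (Fin n) ℂ) :
    mapAlgHom (preLift x k Φ) (aeval (genForm k) f) = Φ (aeval x f) := by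
  have h1 : (mapAlgHom (preLift x k Φ)).comp (aeval (genForm k)) = Φ.comp (aeval x) := by
    refine algHom_ext fun i => ?_
    rw [AlgHom.comp_apply, AlgHom.comp_apply, aeval_X, aeval_X, genForm, map_sum]
    conv_rhs => rw [form_eq_sum (h i)]
    refine Finset.sum_congr rfl fun j _ => ?_
    rw [mapAlgHom_apply, map_monomial]
    congr 1
    change preLift x k Φ (X ⟨i, j⟩) = _
    rw [preLift, aeval_X]
  exact DFunLike.congr_fun h1 f

/-- The homomorphism given by a conic. -/
noncomputable def uLift (Φ : R →ₐ[ℂ] MvPolynomial (Fin 2) A)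
    (h : ∀ i, (Φ (x i)).IsHomogeneous (2 * k i)) : UC x k →ₐ[ℂ] A :=
  Ideal.Quotient.liftₐ (relIdeal x k) (preLift x k Φ) (by
    intro a ha
    have h1 : relIdeal x k ≤ RingHom.ker (preLift x k Φ) := by
      rw [relIdeal, Ideal.span_le]
      rintro _ ⟨f, hf, m, rfl⟩
      have h2 := congrArg (coeff m) (map_preLift x k Φ h f)
      rw [hf, map_zero, coeff_zero, mapAlgHom_apply, coeff_map] at h2
      exact h2
    exact h1 ha)

theorem uLift_mk (Φ : R →ₐ[ℂ] MvPolynomial (Fin 2) A)
    (h : ∀ i, (Φ (x i)).IsHomogeneous (2 * k i)) (c : Coef k) :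
    uLift x k Φ h (Ideal.Quotient.mk _ c) = preLift x k Φ c := rfl

theorem map_uLift_univ (Φ : R →ₐ[ℂ] MvPolynomial (Fin 2) A)
    (h : ∀ i, (Φ (x i)).IsHomogeneous (2 * k i)) :
    (mapAlgHom (uLift x k Φ h)).comp (univ x k hs) = Φ := by
  ext1 r
  obtain ⟨f, rfl⟩ := hs r
  rw [AlgHom.comp_apply, univ_aeval, preUniv, AlgHom.comp_apply, ← map_preLift x k Φ h f]
  simp only [mapAlgHom_apply]
  rw [map_map]
  rfl

theorem comp_uLift {B : Type w} [CommRing B] [Algebra ℂ B] (ρ : A →ₐ[ℂ] B)
    (Φ : R →ₐ[ℂ] MvPolynomial (Fin 2) A) (h : ∀ i, (Φ (x i)).IsHomogeneous (2 * k i))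
    (Φ' : R →ₐ[ℂ] MvPolynomial (Fin 2) B) (h' : ∀ i, (Φ' (x i)).IsHomogeneous (2 * k i))
    (hρ : ∀ r, MvPolynomial.map (ρ : A →+* B) (Φ r) = Φ' r) :
    ρ.comp (uLift x k Φ h) = uLift x k Φ' h' := by
  refine Ideal.Quotient.algHom_ext _ (algHom_ext fun ij => ?_)
  simp only [AlgHom.comp_apply, Ideal.Quotient.mkₐ_eq_mk, uLift_mk, preLift, aeval_X]
  rw [← hρ, coeff_map]
  rfl

end univ

end Vale.Agent.P292.VF
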