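import Vale.Agent.P292.Bdl.B1
import Vale.Agent.P292.VF.Univ

/-! # One very free conic: base point freeness is an open condition. -/

namespace Vale.Agent.P292.VF

open MvPolynomial Vale.Agent.P292

universe u v

variable {R : Type u} [CommRing R] [Algebra ℂ R] (𝒜 : ℕ → Submodule ℂ R)

/-- The part of degree `D` of the ideal generated by a curve. -/
noncomputable def degPart {A : Type v} [CommRing A] [Algebra ℂ A]
    (Φ : R →ₐ[ℂ] MvPolynomial (Fin 2) A) (D : ℕ) : Submodule A (MvPolynomial (Fin 2) A) :=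
  Submodule.span A {y | ∃ k : ℕ, 0 < k ∧ ∃ r ∈ 𝒜 k, ∃ m : Fin 2 →₀ ℕ, m.degree + 2 * k = D ∧
    y = monomial m 1 * Φ r}

/-- The ideal generated by a curve, as the span of products with monomials. -/
noncomputable def allPart {A : Type v} [CommRing A] [Algebra ℂ A]
    (Φ : R →ₐ[ℂ] MvPolynomial (Fin 2) A) : Submodule A (MvPolynomial (Fin 2) A) :=
  Submodule.span A {y | ∃ k : ℕ, 0 < k ∧ ∃ r ∈ 𝒜 k, ∃ m : Fin 2 →₀ ℕ, y = monomial m 1 * Φ r}

theorem mul_mem_allPart {A : Type v} [CommRing A] [Algebra ℂ A]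
    (Φ : R →ₐ[ℂ] MvPolynomial (Fin 2) A) (a : MvPolynomial (Fin 2) A)
    {y : MvPolynomial (Fin 2) A} (hy : y ∈ allPart 𝒜 Φ) : a * y ∈ allPart 𝒜 Φ := by
  classical
  induction hy using Submodule.span_induction with
  | mem y hy =>
    obtain ⟨k, hk, r, hr, m, rfl⟩ := hy
    rw [← support_sum_monomial_coeff a, Finset.sum_mul]
    refine sum_mem fun m' _ => ?_
    have h1 : monomial m' (coeff m' a) * (monomial m 1 * Φ r) =
        coeff m' a • (monomial (m' + m) (1 : A) * Φ r) := by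
      rw [← mul_assoc, monomial_mul, mul_one, ← smul_mul_assoc, smul_monomial, smul_eq_mul,
        mul_one]
    rw [h1]
    exact Submodule.smul_mem _ _ (Submodule.subset_span ⟨k, hk, r, hr, m' + m, rfl⟩)
  | zero => rw [mul_zero]; exact zero_mem _
  | add x y _ _ hx hy => rw [mul_add]; exact add_mem hx hy
  | smul c y _ hy => rw [mul_smul_comm]; exact Submodule.smul_mem _ _ hy

theorem mem_degPart {A : Type v} [CommRing A] [Algebra ℂ A]
    (Φ : R →ₐ[ℂ] MvPolynomial (Fin 2) A) (hΦ : ∀ k, ∀ r ∈ 𝒜 k, (Φ r).IsHomogeneous (2 * k))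
    {D : ℕ} {y : MvPolynomial (Fin 2) A} (hy : y ∈ allPart 𝒜 Φ) (hyD : y.IsHomogeneous D) :
    y ∈ degPart 𝒜 Φ D := by
  classical
  have h1 : Submodule.map (homogeneousComponent D) (allPart 𝒜 Φ) ≤ degPart 𝒜 Φ D := by
    rw [allPart, Submodule.map_span_le]
    rintro _ ⟨k, hk, r, hr, m, rfl⟩
    have h2 : (monomial m (1 : A) * Φ r).IsHomogeneous (m.degree + 2 * k) :=
      (isHomogeneous_monomial _ rfl).mul (hΦ k r hr)
    by_cases h : m.degree + 2 * k = D
    · rw [h] at h2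
      rw [homogeneousComponent_of_mem h2, if_pos rfl]
      exact Submodule.subset_span ⟨k, hk, r, hr, m, h, rfl⟩
    · rw [homogeneousComponent_of_mem h2, if_neg (Ne.symm h)]
      exact zero_mem _
  have h3 := h1 ⟨y, hy, rfl⟩
  rwa [homogeneousComponent_of_mem hyD, if_pos rfl] at h3

/-- The parts of large degree of the ideal of a base point free curve are everything. -/
theorem exists_degree (φ : R →ₐ[ℂ] MvPolynomial (Fin 2) ℂ)
    (hφ : ∀ k, ∀ r ∈ 𝒜 k, (φ r).IsHomogeneous (2 * k))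
    (hb : ∀ a : Fin 2 → ℂ, a ≠ 0 → ∃ k, 0 < k ∧ ∃ r ∈ 𝒜 k, aeval a (φ r) ≠ 0) :
    ∃ D : ℕ, ∀ m : Fin 2 →₀ ℕ, m.degree = D → monomial m (1 : ℂ) ∈ degPart 𝒜 φ D := by
  classical
  let I : Ideal (MvPolynomial (Fin 2) ℂ) :=
    Ideal.span {y | ∃ k : ℕ, 0 < k ∧ ∃ r ∈ 𝒜 k, y = φ r}
  have hI : ∀ y ∈ I, y ∈ allPart 𝒜 φ := by
    intro y hy
    induction hy using Submodule.span_induction with
    | mem y hy =>
      obtain ⟨k, hk, r, hr, rfl⟩ := hy
      refine Submodule.subset_span ⟨k, hk, r, hr, 0, ?_⟩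
      rw [← C_apply, C_1, one_mul]
    | zero => exact zero_mem _
    | add x y _ _ hx hy => exact add_mem hx hy
    | smul c y _ hy => rw [smul_eq_mul]; exact mul_mem_allPart 𝒜 φ c hy
  have hrad : ∀ i : Fin 2, (X i : MvPolynomial (Fin 2) ℂ) ∈ I.radical := by
    intro i
    refine mem_radical_of_forall I (X i) fun p hp => ?_
    by_contra hne
    obtain ⟨k, hk, r, hr, h1⟩ := hb (fun i => p (X i)) (fun h0 => hne (congrFun h0 i))
    have h2 : (aeval (fun i => p (X i)) : MvPolynomial (Fin 2) ℂ →ₐ[ℂ] ℂ) = p :=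
      (aeval_unique p).symm
    rw [h2] at h1
    exact h1 (hp _ (Ideal.subset_span ⟨k, hk, r, hr, rfl⟩))
  obtain ⟨a, ha⟩ := hrad 0
  obtain ⟨b, hb'⟩ := hrad 1
  refine ⟨a + b, fun m hm => mem_degPart 𝒜 φ hφ (hI _ ?_) (isHomogeneous_monomial _ hm)⟩
  have h1 : m 0 + m 1 = a + b := by
    rw [← hm, Finsupp.degree_eq_sum, Fin.sum_univ_two]
  have h2 : monomial m (1 : ℂ) = X 0 ^ (m 0) * X 1 ^ (m 1) := by
    rw [monomial_eq, C_1, one_mul, Finsupp.prod_fintype _ _ (fun i => pow_zero _),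
      Fin.prod_univ_two]
  rw [h2]
  rcases le_or_gt a (m 0) with h | h
  · rw [← Nat.sub_add_cancel h, pow_add, mul_comm (X 0 ^ (m 0 - a)), mul_assoc]
    exact Ideal.mul_mem_right _ _ ha
  · have h3 : b ≤ m 1 := by omega
    rw [← Nat.sub_add_cancel h3, pow_add, ← mul_assoc]
    exact Ideal.mul_mem_left _ _ hb'

/-- Base point freeness is an open condition. -/
theorem exists_bpf_open {A : Type v} [CommRing A] [Algebra ℂ A]
    (Φ : R →ₐ[ℂ] MvPolynomial (Fin 2) A) (hΦ : ∀ k, ∀ r ∈ 𝒜 k, (Φ r).IsHomogeneous (2 * k))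
    (c₀ : A →ₐ[ℂ] ℂ)
    (hb : ∀ a : Fin 2 → ℂ, a ≠ 0 → ∃ k, 0 < k ∧ ∃ r ∈ 𝒜 k,
      aeval a (mapAlgHom c₀ (Φ r)) ≠ 0) :
    ∃ f : A, c₀ f ≠ 0 ∧ ∀ c : A →ₐ[ℂ] ℂ, c f ≠ 0 → ∀ a : Fin 2 → ℂ, a ≠ 0 →
      ∃ k, 0 < k ∧ ∃ r ∈ 𝒜 k, aeval a (mapAlgHom c (Φ r)) ≠ 0 := by
  classical
  have hφ : ∀ k, ∀ r ∈ 𝒜 k, (((mapAlgHom c₀).comp Φ) r).IsHomogeneous (2 * k) := by
    intro k r hr
    rw [AlgHom.comp_apply, mapAlgHom_apply]
    exact (hΦ k r hr).map _
  obtain ⟨D, hD⟩ := exists_degree 𝒜 ((mapAlgHom c₀).comp Φ) hφ hb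
  -- lifting from `ℂ` to `A`
  have hlift : ∀ y ∈ degPart 𝒜 ((mapAlgHom c₀).comp Φ) D, ∃ Y ∈ degPart 𝒜 Φ D,
      Y.IsHomogeneous D ∧ mapAlgHom c₀ Y = y := by
    intro y hy
    induction hy using Submodule.span_induction with
    | mem y hy =>
      obtain ⟨k, hk, r, hr, m, hm, rfl⟩ := hy
      refine ⟨monomial m 1 * Φ r, Submodule.subset_span ⟨k, hk, r, hr, m, hm, rfl⟩, ?_, ?_⟩
      · rw [← hm]
        exact (isHomogeneous_monomial _ rfl).mul (hΦ k r hr)
      · rw [map_mul, AlgHom.comp_apply, mapAlgHom_apply, map_monomial, map_one]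
    | zero => exact ⟨0, zero_mem _, isHomogeneous_zero _ _ _, map_zero _⟩
    | add x y _ _ hx hy =>
      obtain ⟨X', h1, h2, rfl⟩ := hx
      obtain ⟨Y', h3, h4, rfl⟩ := hy
      exact ⟨X' + Y', add_mem h1 h3, h2.add h4, map_add _ _ _⟩
    | smul c y _ hy =>
      obtain ⟨Y', h3, h4, rfl⟩ := hy
      refine ⟨algebraMap ℂ A c • Y', Submodule.smul_mem _ _ h3, ?_, ?_⟩
      · rw [smul_eq_C_mul]
        have := (isHomogeneous_C (Fin 2) (algebraMap ℂ A c)).mul h4
        rwa [zero_add] at this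
      · rw [algebraMap_smul, map_smul]
  let Q := MvPolynomial (Fin 2) A ⧸ degPart 𝒜 Φ D
  let e : Fin (D + 1) → MvPolynomial (Fin 2) A := fun j => monomial (ex j (D - j)) 1
  let N : Submodule A Q := Submodule.span A (Set.range fun j => (degPart 𝒜 Φ D).mkQ (e j))
  have hN : N.FG := Submodule.fg_span (Set.finite_range _)
  have hNm : N ≤ RingHom.ker c₀ • N := by
    rw [Submodule.span_le]
    rintro _ ⟨j, rfl⟩
    have hj : (ex j (D - j)).degree = D := by
      rw [degree_ex]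
      have := j.2
      omega
    obtain ⟨Y, hY, hYD, hYm⟩ := hlift _ (hD _ hj)
    have h1 : (degPart 𝒜 Φ D).mkQ (e j) = (degPart 𝒜 Φ D).mkQ (e j - Y) := by
      have hY0 : (degPart 𝒜 Φ D).mkQ Y = 0 := (Submodule.Quotient.mk_eq_zero _).2 hY
      rw [map_sub, hY0, sub_zero]
    have h2 : (e j - Y).IsHomogeneous D :=
      (isHomogeneous_monomial _ hj).sub hYD
    have h3 : mapAlgHom c₀ (e j - Y) = 0 := by
      rw [map_sub, hYm, sub_eq_zero, mapAlgHom_apply, map_monomial, map_one]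
    change (degPart 𝒜 Φ D).mkQ (e j) ∈ RingHom.ker c₀ • N
    rw [h1, form_eq_sum h2, map_sum]
    refine sum_mem fun i _ => ?_
    have h4 : monomial (ex i (D - i)) (coeff (ex i (D - i)) (e j - Y)) =
        coeff (ex i (D - i)) (e j - Y) • e i := by
      rw [smul_monomial, smul_eq_mul, mul_one]
    rw [h4, map_smul]
    refine Submodule.smul_mem_smul ?_ (Submodule.subset_span ⟨i, rfl⟩)
    rw [RingHom.mem_ker]
    have h5 := congrArg (coeff (ex i (D - i))) h3
    rw [mapAlgHom_apply, coeff_map, coeff_zero] at h5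
    exact h5
  obtain ⟨f, hf1, hf2⟩ := Submodule.exists_sub_one_mem_and_smul_eq_zero_of_fg_of_le_smul _ N hN hNm
  refine ⟨f, ?_, fun c hc a ha => ?_⟩
  · rw [RingHom.mem_ker, map_sub, map_one, sub_eq_zero] at hf1
    rw [hf1]
    exact one_ne_zero
  · by_contra hcon
    push Not at hcon
    have h1 : ∀ y ∈ degPart 𝒜 Φ D, aeval a (mapAlgHom c y) = 0 := by
      intro y hy
      induction hy using Submodule.span_induction with
      | mem y hy =>
        obtain ⟨k, hk, r, hr, m, hm, rfl⟩ := hy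
        rw [map_mul, map_mul, hcon k hk r hr, mul_zero]
      | zero => rw [map_zero, map_zero]
      | add x y _ _ hx hy => rw [map_add, map_add, hx, hy, add_zero]
      | smul b y _ hy =>
        rw [smul_eq_C_mul, map_mul, map_mul, hy, mul_zero]
    have h2 : ∀ j : Fin (D + 1), f • e j ∈ degPart 𝒜 Φ D := by
      intro j
      rw [← Submodule.Quotient.mk_eq_zero, Submodule.Quotient.mk_smul]
      exact hf2 _ (Submodule.subset_span ⟨j, rfl⟩)
    have h3 : ∀ j : Fin (D + 1), a 0 ^ (j : ℕ) * a 1 ^ (D - j) = 0 := by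
      intro j
      have h4 := h1 _ (h2 j)
      rw [smul_eq_C_mul, map_mul, map_mul, mapAlgHom_apply, map_C, aeval_C,
        mapAlgHom_apply, map_monomial, aeval_monomial] at h4
      rw [mul_eq_zero] at h4
      rcases h4 with h4 | h4
      · exact absurd h4 hc
      · rw [Finsupp.prod_fintype _ _ (fun i => pow_zero _), Fin.prod_univ_two] at h4
        simpa [ex] using h4
    have h5 := h3 ⟨0, by omega⟩
    have h6 := h3 ⟨D, by omega⟩
    simp only [pow_zero, Nat.sub_zero, one_mul, Nat.sub_self, mul_one] at h5 h6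
    apply ha
    ext i
    fin_cases i
    · exact eq_zero_of_pow_eq_zero h6
    · exact eq_zero_of_pow_eq_zero h5

end Vale.Agent.P292.VF
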