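import Vale.Agent.P292.K.Defs
import Vale.Agent.P292.VF.U1
import Vale.Agent.P292.VF.Bpf

/-! # One very free conic: from infinitesimal to actual conics. -/

namespace Vale.Agent.P292.VF

open MvPolynomial TensorProduct Vale.Agent.P292

universe u v

variable {R : Type u} [CommRing R] [Algebra ℂ R] {𝒜 : ℕ → Submodule ℂ R} [GradedAlgebra 𝒜]
  {P : R →ₗ[ℂ] R →ₗ[ℂ] R}

/-- The end point of a curve with values in an arbitrary algebra. -/
noncomputable def endPt {A : Type v} [CommRing A] [Algebra ℂ A]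
    (Φ : R →ₐ[ℂ] MvPolynomial (Fin 2) A) (a : Fin 2 → A) : R →ₐ[ℂ] A :=
  ((aeval a : MvPolynomial (Fin 2) A →ₐ[A] A).restrictScalars ℂ).comp Φ

theorem endPt_apply {A : Type v} [CommRing A] [Algebra ℂ A]
    (Φ : R →ₐ[ℂ] MvPolynomial (Fin 2) A) (a : Fin 2 → A) (r : R) :
    endPt Φ a r = aeval a (Φ r) := rfl

/-- If every nonzero element of `R ⊗ R` is nonzero at the end points of some infinitesimal
deformation of `φ₀`, then two general points are joined by a conic. -/
theorem isConicConnected_of_artin (hX : IsContactFano 𝒜 P)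
    {φ₀ : R →ₐ[ℂ] MvPolynomial (Fin 2) ℂ} (h0 : IsCurve 𝒜 2 φ₀)
    (H : ∀ F : R ⊗[ℂ] R, F ≠ 0 → ∃ (A : Type u) (_ : CommRing A) (_ : Algebra ℂ A)
      (ρ : A →ₐ[ℂ] ℂ) (Φ : R →ₐ[ℂ] MvPolynomial (Fin 2) A),
      (∃ n : ℕ, RingHom.ker ρ ^ n = ⊥) ∧ (∀ k, ∀ r ∈ 𝒜 k, (Φ r).IsHomogeneous (2 * k)) ∧
      (∀ r, MvPolynomial.map (ρ : A →+* ℂ) (Φ r) = φ₀ r) ∧
      Algebra.TensorProduct.lift (endPt Φ ![1, 0]) (endPt Φ ![0, 1])
        (fun _ _ => Commute.all _ _) F ≠ 0) : IsConicConnected 𝒜 := by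
  classical
  have := hX.domain
  have := hX.finiteType
  have : IsDomain (R ⊗[ℂ] R) := isDomain_tensor
  have hftt : Algebra.FiniteType ℂ (R ⊗[ℂ] R) :=
    Algebra.FiniteType.trans (S := R) inferInstance inferInstance
  -- generators
  obtain ⟨s, hs, hsd⟩ := exists_generators 𝒜 hX.connected
  let n := s.card
  let x : Fin n → R := fun i => (s.equivFin.symm i : R)
  have hxd : ∀ i, ∃ k, x i ∈ 𝒜 k := fun i => by
    obtain ⟨k, -, hk⟩ := hsd _ (s.equivFin.symm i).2
    exact ⟨k, hk⟩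
  choose k hk using hxd
  have hrange : Set.range x = (s : Set R) := by
    ext r
    constructor
    · rintro ⟨i, rfl⟩
      exact (s.equivFin.symm i).2
    · intro hr
      exact ⟨s.equivFin ⟨r, hr⟩, by simp [x]⟩
  have hsur : Function.Surjective (aeval x : MvPolynomial (Fin n) ℂ →ₐ[ℂ] R) := by
    rw [← AlgHom.range_eq_top, ← Algebra.adjoin_range_eq_range_aeval, hrange, hs]
  let Φu := univ x k hsur
  have hΦu : ∀ l, ∀ r ∈ 𝒜 l, (Φu r).IsHomogeneous (2 * l) := by
    refine isHomogeneous_of_generators 𝒜 Φu (s := Set.range x) (by rw [hrange, hs]) ?_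
    rintro _ ⟨i, rfl⟩
    exact ⟨k i, hk i, univ_gen_homogeneous x k hsur i⟩
  let c₀ : UC x k →ₐ[ℂ] ℂ := uLift x k φ₀ (fun i => h0.degree _ _ (hk i))
  have hc₀ : ∀ r, mapAlgHom c₀ (Φu r) = φ₀ r := fun r =>
    DFunLike.congr_fun (map_uLift_univ x k hsur φ₀ _) r
  obtain ⟨f, hf0, hf⟩ := exists_bpf_open 𝒜 Φu hΦu c₀ (fun a ha => by
    obtain ⟨l, hl, r, hr, h1⟩ := h0.bpf a ha
    exact ⟨l, hl, r, hr, by rwa [hc₀]⟩)
  -- the end points
  let g : R ⊗[ℂ] R →ₐ[ℂ] UC x k := Algebra.TensorProduct.lift (endPt Φu ![1, 0])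
    (endPt Φu ![0, 1]) (fun _ _ => Commute.all _ _)
  let L := Localization.Away f
  let ι : UC x k →ₐ[ℂ] L := IsScalarTower.toAlgHom ℂ (UC x k) L
  have hftU : Algebra.FiniteType ℂ (UC x k) :=
    Algebra.FiniteType.of_surjective (Ideal.Quotient.mkₐ ℂ (relIdeal x k))
      (Ideal.Quotient.mkₐ_surjective ℂ _)
  have hftL : Algebra.FiniteType ℂ L :=
    Algebra.FiniteType.trans (S := UC x k) hftU
      (IsLocalization.finiteType_of_monoid_fg (Submonoid.powers f) L)
  have hinj : Function.Injective (ι.comp g) := by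
    rw [injective_iff_map_eq_zero]
    intro F hF
    by_contra hne
    obtain ⟨A, _, _, ρ, Φ, ⟨m, hm⟩, hΦ, hρ, hFne⟩ := H F hne
    apply hFne
    let cA : UC x k →ₐ[ℂ] A := uLift x k Φ (fun i => hΦ _ _ (hk i))
    have hcA : ∀ r, mapAlgHom cA (Φu r) = Φ r := fun r =>
      DFunLike.congr_fun (map_uLift_univ x k hsur Φ _) r
    have hρc : ρ.comp cA = c₀ := comp_uLift x k ρ Φ _ φ₀ _ hρ
    have hunit : IsUnit (cA f) := by
      have h1 : ρ (cA f) ≠ 0 := by
        have := DFunLike.congr_fun hρc f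
        rw [AlgHom.comp_apply] at this
        rwa [this]
      have h2 : IsNilpotent (cA f - algebraMap ℂ A (ρ (cA f))) := by
        refine ⟨m, ?_⟩
        have h3 : cA f - algebraMap ℂ A (ρ (cA f)) ∈ RingHom.ker ρ := by
          rw [RingHom.mem_ker, map_sub, AlgHom.commutes, Algebra.algebraMap_self,
            RingHom.id_apply, sub_self]
        have h4 := Ideal.pow_mem_pow h3 m
        rwa [hm, Ideal.mem_bot] at h4
      have h5 : IsUnit (algebraMap ℂ A (ρ (cA f))) := (IsUnit.mk0 _ h1).map _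
      have h6 := h2.isUnit_add_left_of_commute h5 (Commute.all _ _)
      rwa [add_sub_cancel] at h6
    let cL : L →+* A := IsLocalization.Away.lift f hunit
    have hcL : ∀ a, cL (ι a) = cA a := fun a => IsLocalization.Away.lift_eq f hunit a
    have hend : ∀ F : R ⊗[ℂ] R, cA (g F) = Algebra.TensorProduct.lift (endPt Φ ![1, 0])
        (endPt Φ ![0, 1]) (fun _ _ => Commute.all _ _) F := by
      intro F
      have hpt : ∀ (a : Fin 2 → UC x k) (b : Fin 2 → A) (_ : ∀ i, cA (a i) = b i) (r : R),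
          cA (endPt Φu a r) = endPt Φ b r := by
        intro a b hab r
        rw [endPt_apply, endPt_apply, ← hcA, mapAlgHom_apply, aeval_def, aeval_def, eval₂_map]
        rw [show (cA (eval₂ (algebraMap (UC x k) (UC x k)) a (Φu r)) : A) =
          (cA : UC x k →+* A) (eval₂ (algebraMap (UC x k) (UC x k)) a (Φu r)) from rfl,
          hom_eval₂]
        congr 1
        exact funext hab
      have hab1 : ∀ i, cA ((![1, 0] : Fin 2 → UC x k) i) = (![1, 0] : Fin 2 → A) i := by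
        intro i; fin_cases i <;> simp
      have hab2 : ∀ i, cA ((![0, 1] : Fin 2 → UC x k) i) = (![0, 1] : Fin 2 → A) i := by
        intro i; fin_cases i <;> simp
      induction F using TensorProduct.induction_on with
      | zero => simp
      | tmul a b =>
        simp only [g, Algebra.TensorProduct.lift_tmul, map_mul]
        rw [hpt _ _ hab1, hpt _ _ hab2]
      | add x y hx hy => rw [map_add, map_add, hx, hy, map_add]
    rw [← hend, ← hcL]
    have : (ι (g F)) = 0 := hF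
    rw [this, map_zero]
  obtain ⟨G, hG, hGl⟩ := exists_generic_lift (ι.comp g) hinj
  refine ⟨G, hG, fun p q hpq => ?_⟩
  obtain ⟨c', hc'⟩ := hGl _ hpq
  let c : UC x k →ₐ[ℂ] ℂ := c'.comp ι
  have hcf : c f ≠ 0 := by
    have h1 : IsUnit (ι f) := IsLocalization.map_units L (⟨f, 1, pow_one f⟩ : Submonoid.powers f)
    exact (h1.map c').ne_zero
  have hpt : ∀ (a : Fin 2 → UC x k) (b : Fin 2 → ℂ) (_ : ∀ i, c (a i) = b i) (r : R),
      aeval b (mapAlgHom c (Φu r)) = c (endPt Φu a r) := by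
    intro a b hab r
    rw [endPt_apply, mapAlgHom_apply, aeval_def, aeval_def, eval₂_map]
    rw [show (c (eval₂ (algebraMap (UC x k) (UC x k)) a (Φu r)) : ℂ) =
      (c : UC x k →+* ℂ) (eval₂ (algebraMap (UC x k) (UC x k)) a (Φu r)) from rfl, hom_eval₂]
    congr 1
    exact (funext hab).symm
  have hab1 : ∀ i, c ((![1, 0] : Fin 2 → UC x k) i) = (![1, 0] : Fin 2 → ℂ) i := by
    intro i; fin_cases i <;> simp
  have hab2 : ∀ i, c ((![0, 1] : Fin 2 → UC x k) i) = (![0, 1] : Fin 2 → ℂ) i := by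
    intro i; fin_cases i <;> simp
  refine ⟨(mapAlgHom c).comp Φu, ⟨fun l r hr => ?_, fun a ha => hf c hcf a ha⟩, ?_, ?_⟩
  · rw [AlgHom.comp_apply, mapAlgHom_apply]
    exact (hΦu l r hr).map _
  · ext1 r
    change aeval ![1, 0] (mapAlgHom c (Φu r)) = p r
    rw [hpt _ _ hab1]
    change c' (ι (endPt Φu ![1, 0] r)) = p r
    have h1 := DFunLike.congr_fun hc' (r ⊗ₜ[ℂ] (1 : R))
    simpa [g] using h1
  · ext1 r
    change aeval ![0, 1] (mapAlgHom c (Φu r)) = q r
    rw [hpt _ _ hab2]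
    change c' (ι (endPt Φu ![0, 1] r)) = q r
    have h1 := DFunLike.congr_fun hc' ((1 : R) ⊗ₜ[ℂ] r)
    simpa [g] using h1

end Vale.Agent.P292.VF
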