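import Vale.Agent.P292.VF.Artin
import Vale.Agent.P292.VF.Main

/-! # Very free conics: two general points are joined by a conic. -/

namespace Vale.Agent.P292.VF

open MvPolynomial
open scoped TensorProduct

universe u v w

variable {R : Type u} [CommRing R] [Algebra ℂ R] {𝒜 : ℕ → Submodule ℂ R}
  {P : R →ₗ[ℂ] R →ₗ[ℂ] R}

theorem endPt_eq_endA {A : Type v} [CommRing A] [Algebra ℂ A]
    (Φ : R →ₐ[ℂ] MvPolynomial (Fin 2) A) (a : Fin 2 → ℂ) (a' : Fin 2 → A)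
    (h : ∀ i, a' i = algebraMap ℂ A (a i)) : endPt Φ a' = endA Φ a := by
  have h1 : a' = fun i => algebraMap ℂ A (a i) := funext h
  subst h1
  rfl

theorem isConicConnected_of_split [GradedAlgebra 𝒜] (hX : IsContactFano 𝒜 P)
    {φ₀ : R →ₐ[ℂ] MvPolynomial (Fin 2) ℂ} (h0 : IsCurve 𝒜 2 φ₀) (hv : IsVeryFree 𝒜 φ₀)
    (hsplit : Split 𝒜 φ₀) : IsConicConnected 𝒜 := by
  refine isConicConnected_of_artin hX h0 fun F hF => ?_
  obtain ⟨A, i1, i2, ρ, Φ, h1, h2, h3, h4⟩ := exists_artin hX h0 hv hsplit F hF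
  refine ⟨A, i1, i2, ρ, Φ, h1, h2, h3, ?_⟩
  rw [endPt_eq_endA Φ ![1, 0] ![1, 0] (fun i => by fin_cases i <;> simp),
    endPt_eq_endA Φ ![0, 1] ![0, 1] (fun i => by fin_cases i <;> simp)]
  exact h4

end Vale.Agent.P292.VF
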