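import Vale.Agent.P292.K.Basic
import Vale.Agent.P292.LS.Frame

/-! # Very free conics: definitions and homogeneous parts of derivations. -/

namespace Vale.Agent.P292

open MvPolynomial

universe u v w

/-- The conic `φ` is very free: every tangent vector of the cone at a point of the conic is the
value of a section of degree `-1` of the pulled back tangent bundle, that is, of a derivation
along `φ` which maps the elements of degree `k + 1` to forms of degree `2 (k + 1) - 1`. In other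
words, the pull back of the tangent bundle by the conic is ample. -/
def IsVeryFree {R : Type u} [CommRing R] [Algebra ℂ R] (𝒜 : ℕ → Submodule ℂ R)
    (φ : R →ₐ[ℂ] MvPolynomial (Fin 2) ℂ) : Prop :=
  ∀ a : Fin 2 → ℂ, a ≠ 0 → ∀ d : R →ₗ[ℂ] ℂ,
    (∀ r s, d (r * s) = pt φ a r * d s + pt φ a s * d r) →
    ∃ D : R →ₗ[ℂ] MvPolynomial (Fin 2) ℂ, (∀ r s, D (r * s) = φ r * D s + φ s * D r) ∧
      (∀ k, ∀ r ∈ 𝒜 (k + 1), (D r).IsHomogeneous (2 * k + 1)) ∧ ∀ r, eval a (D r) = d r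

namespace VF

variable {R : Type u} [CommRing R] [Algebra ℂ R] {𝒜 : ℕ → Submodule ℂ R}
  {A : Type v} [CommRing A] [Algebra ℂ A] {B : Type w} [CommRing B] [Algebra ℂ B]

/-- `D` is a derivation of degree `K - 1` along `Φ`. -/
structure HD (𝒜 : ℕ → Submodule ℂ R) (Φ : R →ₐ[ℂ] MvPolynomial (Fin 2) A) (K : ℕ)
    (D : R →ₗ[ℂ] MvPolynomial (Fin 2) A) : Prop where
  der : IsDer Φ D
  deg : ∀ k, ∀ r ∈ 𝒜 (k + 1), (D r).IsHomogeneous (2 * k + 1 + K)

theorem isDer_one {E : Type*} [CommRing E] [Algebra ℂ E] {x : R →ₐ[ℂ] E} {δ : R →ₗ[ℂ] E}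
    (h : IsDer x δ) : δ 1 = 0 := by
  have h1 := h 1 1
  simp only [mul_one, map_one, one_mul] at h1
  exact left_eq_add.mp h1

theorem isDer_algebraMap {E : Type*} [CommRing E] [Algebra ℂ E] {x : R →ₐ[ℂ] E} {δ : R →ₗ[ℂ] E}
    (h : IsDer x δ) (c : ℂ) : δ (algebraMap ℂ R c) = 0 := by
  rw [Algebra.algebraMap_eq_smul_one, map_smul, isDer_one h, smul_zero]

theorem HD.smul {Φ : R →ₐ[ℂ] MvPolynomial (Fin 2) A} {K j : ℕ}
    {D : R →ₗ[ℂ] MvPolynomial (Fin 2) A} (h : HD 𝒜 Φ K D) {f : MvPolynomial (Fin 2) A}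
    (hf : f.IsHomogeneous j) : HD 𝒜 Φ (j + K) (f • D) where
  der := (DerAt Φ).smul_mem f h.der
  deg k r hr := by
    have := hf.mul (h.deg k r hr)
    rw [show 2 * k + 1 + (j + K) = j + (2 * k + 1 + K) by ring]
    exact this

theorem HD.add {Φ : R →ₐ[ℂ] MvPolynomial (Fin 2) A} {K : ℕ}
    {D D' : R →ₗ[ℂ] MvPolynomial (Fin 2) A} (h : HD 𝒜 Φ K D) (h' : HD 𝒜 Φ K D') :
    HD 𝒜 Φ K (D + D') where
  der := (DerAt Φ).add_mem h.der h'.der
  deg k r hr := (h.deg k r hr).add (h'.deg k r hr)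

theorem HD.sub {Φ : R →ₐ[ℂ] MvPolynomial (Fin 2) A} {K : ℕ}
    {D D' : R →ₗ[ℂ] MvPolynomial (Fin 2) A} (h : HD 𝒜 Φ K D) (h' : HD 𝒜 Φ K D') :
    HD 𝒜 Φ K (D - D') where
  der := (DerAt Φ).sub_mem h.der h'.der
  deg k r hr := (h.deg k r hr).sub (h'.deg k r hr)

theorem HD.zero {Φ : R →ₐ[ℂ] MvPolynomial (Fin 2) A} {K : ℕ} : HD 𝒜 Φ K 0 where
  der := (DerAt Φ).zero_mem
  deg _ _ _ := isHomogeneous_zero _ _ _

omit [Algebra ℂ A] in
/-- homogeneous component of a product with a form -/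
theorem homogeneousComponent_mul_left {m n : ℕ} {p : MvPolynomial (Fin 2) A}
    (hp : p.IsHomogeneous m) (q : MvPolynomial (Fin 2) A) :
    homogeneousComponent (m + n) (p * q) = p * homogeneousComponent n q := by
  conv_lhs => rw [← sum_homogeneousComponent q]
  rw [Finset.mul_sum, map_sum]
  have h1 : ∀ i, homogeneousComponent (m + n) (p * homogeneousComponent i q) =
      if i = n then p * homogeneousComponent n q else 0 := by
    intro i
    rw [homogeneousComponent_of_mem (hp.mul (homogeneousComponent_isHomogeneous i q))]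
    by_cases h : i = n
    · subst h
      simp
    · rw [if_neg h, if_neg (by omega)]
  rw [Finset.sum_congr rfl fun i _ => h1 i]
  by_cases h : n ∈ Finset.range (q.totalDegree + 1)
  · rw [Finset.sum_ite_eq' _ n, if_pos h]
  · rw [Finset.sum_ite_eq' _ n, if_neg h, homogeneousComponent_eq_zero n q
      (by rw [Finset.mem_range] at h; omega), mul_zero]

/-! ### homogeneous parts -/

/-- auxiliary function for `hp` -/
noncomputable def hpAux (𝒜 : ℕ → Submodule ℂ R) (K : ℕ) (D : R →ₗ[ℂ] MvPolynomial (Fin 2) A) :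
    ∀ k, 𝒜 k →ₗ[ℂ] MvPolynomial (Fin 2) A
  | 0 => 0
  | k + 1 => ((homogeneousComponent (2 * k + 1 + K)).restrictScalars ℂ) ∘ₗ D ∘ₗ
      (𝒜 (k + 1)).subtype

/-- The part of degree `K - 1` of a linear map. -/
noncomputable def hp (𝒜 : ℕ → Submodule ℂ R) [GradedAlgebra 𝒜] (K : ℕ)
    (D : R →ₗ[ℂ] MvPolynomial (Fin 2) A) : R →ₗ[ℂ] MvPolynomial (Fin 2) A :=
  (DirectSum.toModule ℂ ℕ _ (hpAux 𝒜 K D)) ∘ₗ (DirectSum.decomposeLinearEquiv 𝒜).toLinearMap

variable [GradedAlgebra 𝒜]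

theorem hp_apply_mem {K : ℕ} {D : R →ₗ[ℂ] MvPolynomial (Fin 2) A} {k : ℕ} {r : R}
    (hr : r ∈ 𝒜 k) : hp 𝒜 K D r = hpAux 𝒜 K D k ⟨r, hr⟩ := by
  unfold hp
  rw [LinearMap.comp_apply]
  have h1 : (DirectSum.decomposeLinearEquiv 𝒜).toLinearMap r =
      DirectSum.lof ℂ ℕ (fun i => 𝒜 i) k ⟨r, hr⟩ := DirectSum.decompose_of_mem 𝒜 hr
  rw [h1, DirectSum.toModule_lof]

theorem hp_zero {K : ℕ} {D : R →ₗ[ℂ] MvPolynomial (Fin 2) A} {r : R}
    (hr : r ∈ 𝒜 0) : hp 𝒜 K D r = 0 := by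
  rw [hp_apply_mem hr]; rfl

theorem hp_succ {K : ℕ} {D : R →ₗ[ℂ] MvPolynomial (Fin 2) A} {k : ℕ} {r : R}
    (hr : r ∈ 𝒜 (k + 1)) : hp 𝒜 K D r = homogeneousComponent (2 * k + 1 + K) (D r) := by
  rw [hp_apply_mem hr]; rfl

/-- Linear maps which agree on homogeneous elements are equal. -/
theorem ext_graded {M : Type*} [AddCommGroup M] [Module ℂ M] {f g : R →ₗ[ℂ] M}
    (h : ∀ k, ∀ r ∈ 𝒜 k, f r = g r) : f = g := by
  ext r
  refine DirectSum.Decomposition.inductionOn 𝒜 ?_ (fun {i} m => h i m m.2) ?_ r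
  · rw [map_zero, map_zero]
  · intro a b ha hb
    rw [map_add, map_add, ha, hb]

theorem hp_add (K : ℕ) (D D' : R →ₗ[ℂ] MvPolynomial (Fin 2) A) :
    hp 𝒜 K (D + D') = hp 𝒜 K D + hp 𝒜 K D' := by
  refine ext_graded (𝒜 := 𝒜) fun k r hr => ?_
  cases k with
  | zero => rw [LinearMap.add_apply, hp_zero hr, hp_zero hr, hp_zero hr, add_zero]
  | succ k =>
    rw [LinearMap.add_apply, hp_succ hr, hp_succ hr, hp_succ hr, LinearMap.add_apply, map_add]

theorem hp_map_zero (K : ℕ) : hp 𝒜 K (0 : R →ₗ[ℂ] MvPolynomial (Fin 2) A) = 0 := by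
  refine ext_graded (𝒜 := 𝒜) fun k r hr => ?_
  cases k with
  | zero => rw [hp_zero hr]; rfl
  | succ k => rw [hp_succ hr, LinearMap.zero_apply, map_zero]

/-- the homogeneous part of a homogeneous derivation -/
theorem HD.hp_eq (hconn : ∀ r ∈ 𝒜 0, ∃ c : ℂ, r = algebraMap ℂ R c)
    {Φ : R →ₐ[ℂ] MvPolynomial (Fin 2) A} {K : ℕ} {D : R →ₗ[ℂ] MvPolynomial (Fin 2) A}
    (h : HD 𝒜 Φ K D) (K' : ℕ) : hp 𝒜 K' D = if K' = K then D else 0 := by
  refine ext_graded (𝒜 := 𝒜) fun k r hr => ?_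
  cases k with
  | zero =>
    obtain ⟨c, rfl⟩ := hconn r hr
    rw [hp_zero hr]
    split_ifs
    · rw [isDer_algebraMap h.der]
    · rfl
  | succ k =>
    rw [hp_succ hr, homogeneousComponent_of_mem (h.deg k r hr)]
    by_cases hK : K' = K
    · rw [if_pos (by omega), if_pos hK]
    · rw [if_neg (by omega), if_neg hK]; rfl

/-- the homogeneous part of a derivation is a derivation -/
theorem isHD_hp (hconn : ∀ r ∈ 𝒜 0, ∃ c : ℂ, r = algebraMap ℂ R c)
    {Φ : R →ₐ[ℂ] MvPolynomial (Fin 2) A} (hΦ : ∀ k, ∀ r ∈ 𝒜 k, (Φ r).IsHomogeneous (2 * k))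
    {D : R →ₗ[ℂ] MvPolynomial (Fin 2) A} (h : IsDer Φ D) (K : ℕ) : HD 𝒜 Φ K (hp 𝒜 K D) where
  deg k r hr := by
    rw [hp_succ hr]
    exact homogeneousComponent_isHomogeneous _ _
  der := by
    -- reduce to homogeneous elements
    have key : ∀ i, ∀ r ∈ 𝒜 i, ∀ j, ∀ s ∈ 𝒜 j,
        hp 𝒜 K D (r * s) = Φ r * hp 𝒜 K D s + Φ s * hp 𝒜 K D r := by
      intro i r hr j s hs
      cases i with
      | zero =>
        obtain ⟨c, rfl⟩ := hconn r hr
        rw [hp_zero hr, mul_zero, add_zero, ← Algebra.smul_def, map_smul, AlgHom.commutes,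
          ← Algebra.smul_def]
      | succ i =>
        cases j with
        | zero =>
          obtain ⟨c, rfl⟩ := hconn s hs
          rw [hp_zero hs, mul_zero, zero_add, mul_comm r, ← Algebra.smul_def, map_smul,
            AlgHom.commutes, ← Algebra.smul_def]
        | succ j =>
          have hrs : r * s ∈ 𝒜 ((i + j + 1) + 1) := by
            have := SetLike.GradedMul.mul_mem hr hs
            rwa [show (i + 1) + (j + 1) = (i + j + 1) + 1 by ring] at this
          rw [hp_succ hrs, hp_succ hr, hp_succ hs, h r s, map_add]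
          rw [show 2 * (i + j + 1) + 1 + K = 2 * (i + 1) + (2 * j + 1 + K) by ring,
            homogeneousComponent_mul_left (hΦ _ r hr)]
          rw [show 2 * (i + 1) + (2 * j + 1 + K) = 2 * (j + 1) + (2 * i + 1 + K) by ring,
            homogeneousComponent_mul_left (hΦ _ s hs)]
    intro r s
    refine DirectSum.Decomposition.inductionOn 𝒜 ?_ (fun {i} m => ?_) ?_ r
    · simp
    · refine DirectSum.Decomposition.inductionOn 𝒜 ?_ (fun {j} n => key i m m.2 j n n.2) ?_ s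
      · simp
      · intro a b ha hb
        rw [mul_add, map_add, map_add, map_add, ha, hb]
        ring
    · intro a b ha hb
      rw [add_mul, map_add, map_add, map_add, ha, hb]
      ring

/-- homogeneous parts and change of coefficients -/
theorem map_hp (π : A →ₐ[ℂ] B) (K : ℕ) (D : R →ₗ[ℂ] MvPolynomial (Fin 2) A)
    (D' : R →ₗ[ℂ] MvPolynomial (Fin 2) B) (h : ∀ r, map (π : A →+* B) (D r) = D' r) (r : R) :
    map (π : A →+* B) (hp 𝒜 K D r) = hp 𝒜 K D' r := by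
  refine DirectSum.Decomposition.inductionOn 𝒜 ?_ (fun {i} m => ?_) ?_ r
  · simp
  · obtain ⟨m, hm⟩ := m
    cases i with
    | zero => rw [hp_zero hm, hp_zero hm, map_zero]
    | succ k =>
      rw [hp_succ hm, hp_succ hm, ← h]
      ext d
      rw [coeff_map, coeff_homogeneousComponent, coeff_homogeneousComponent, coeff_map]
      split_ifs
      · rfl
      · exact map_zero _
  · intro a b ha hb
    rw [map_add, map_add, map_add, ha, hb]

end VF

end Vale.Agent.P292
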