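import Vale.Agent.P292.VF.Defs

/-! # Very free conics: factorisation of derivations through injective maps. -/

namespace Vale.Agent.P292.VF

open MvPolynomial

universe u v w

variable {R : Type u} [CommRing R] [Algebra ℂ R] {𝒜 : ℕ → Submodule ℂ R}
  {A : Type v} [CommRing A] [Algebra ℂ A]

/-- factorisation through an injective linear map -/
theorem exists_factor {M N Q : Type*} [AddCommGroup M] [Module ℂ M] [AddCommGroup N] [Module ℂ N]
    [AddCommGroup Q] [Module ℂ Q] (θ : M →ₗ[ℂ] N) (hθ : Function.Injective θ) (D : Q →ₗ[ℂ] N)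
    (h : ∀ q, ∃ m, θ m = D q) : ∃ η : Q →ₗ[ℂ] M, ∀ q, θ (η q) = D q := by
  let e := LinearEquiv.ofInjective θ hθ
  let D' : Q →ₗ[ℂ] LinearMap.range θ := D.codRestrict _ (fun q => by
    obtain ⟨m, hm⟩ := h q
    exact ⟨m, hm⟩)
  refine ⟨e.symm.toLinearMap ∘ₗ D', fun q => ?_⟩
  have h1 : (e (e.symm (D' q)) : N) = D' q := by rw [LinearEquiv.apply_symm_apply]
  exact h1

/-- The map `p ↦ ι p` from polynomials with complex coefficients to polynomials with
coefficients in `A`. -/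
noncomputable def theta (ι : A) : MvPolynomial (Fin 2) ℂ →ₗ[ℂ] MvPolynomial (Fin 2) A :=
  (LinearMap.mulLeft ℂ (C ι : MvPolynomial (Fin 2) A)) ∘ₗ
    (mapAlgHom (Algebra.ofId ℂ A) :
      MvPolynomial (Fin 2) ℂ →ₐ[ℂ] MvPolynomial (Fin 2) A).toLinearMap

theorem theta_apply (ι : A) (p : MvPolynomial (Fin 2) ℂ) :
    theta ι p = C ι * map (algebraMap ℂ A) p := rfl

theorem coeff_theta (ι : A) (p : MvPolynomial (Fin 2) ℂ) (e : Fin 2 →₀ ℕ) :
    coeff e (theta ι p) = ι * algebraMap ℂ A (coeff e p) := by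
  rw [theta_apply, coeff_C_mul, coeff_map]

theorem algebraMap_mul_ne_zero {ι : A} (hι : ι ≠ 0) {c : ℂ} (hc : c ≠ 0) :
    ι * algebraMap ℂ A c ≠ 0 := by
  intro h
  apply hι
  calc ι = ι * algebraMap ℂ A c * algebraMap ℂ A c⁻¹ := by
        rw [mul_assoc, ← map_mul, mul_inv_cancel₀ hc, map_one, mul_one]
    _ = 0 := by rw [h, zero_mul]

theorem theta_injective {ι : A} (hι : ι ≠ 0) : Function.Injective (theta ι) := by
  rw [injective_iff_map_eq_zero]
  intro p hp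
  ext e
  have h1 : coeff e (theta ι p) = 0 := by rw [hp, coeff_zero]
  rw [coeff_theta] at h1
  by_contra hne
  exact algebraMap_mul_ne_zero hι hne h1

theorem theta_mul {ι : A} {ρ : A →ₐ[ℂ] ℂ} (hι : ∀ x, ρ x = 0 → ι * x = 0)
    (f : MvPolynomial (Fin 2) A) (p : MvPolynomial (Fin 2) ℂ) :
    theta ι (map (ρ : A →+* ℂ) f * p) = f * theta ι p := by
  have h1 : C ι * map (algebraMap ℂ A) (map (ρ : A →+* ℂ) f) = C ι * f := by
    ext e
    rw [coeff_C_mul, coeff_C_mul, coeff_map, coeff_map, ← sub_eq_zero, ← mul_sub]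
    apply hι
    rw [map_sub]
    change ρ (algebraMap ℂ A (ρ (coeff e f))) - ρ (coeff e f) = 0
    rw [AlgHom.commutes]
    exact sub_self _
  rw [theta_apply, theta_apply, map_mul, ← mul_assoc, h1]
  ring

theorem mem_range_theta {ι : A} {ρ : A →ₐ[ℂ] ℂ} (hι : ∀ x, ρ x = 0 → ι * x = 0)
    (f : MvPolynomial (Fin 2) A) (hf : ∀ e, coeff e f ∈ Ideal.span {ι}) :
    ∃ p, theta ι p = f := by
  choose x hx using fun e => Ideal.mem_span_singleton'.mp (hf e)
  refine ⟨∑ e ∈ f.support, monomial e (ρ (x e)), ?_⟩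
  ext e
  rw [coeff_theta, coeff_sum]
  simp only [coeff_monomial]
  rw [Finset.sum_ite_eq' f.support e (fun e => ρ (x e))]
  split_ifs with h
  · rw [← hx e, mul_comm (x e), ← sub_eq_zero, ← mul_sub]
    apply hι
    rw [map_sub, AlgHom.commutes]
    exact sub_self _
  · rw [map_zero, mul_zero]
    exact (notMem_support_iff.mp h).symm

theorem theta_isHomogeneous_iff {ι : A} (hι : ι ≠ 0) {p : MvPolynomial (Fin 2) ℂ} {n : ℕ} :
    (theta ι p).IsHomogeneous n ↔ p.IsHomogeneous n := by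
  constructor
  · intro h e he
    exact h (by rw [coeff_theta]; exact algebraMap_mul_ne_zero hι he)
  · intro h e he
    rw [coeff_theta] at he
    refine h fun h0 => he ?_
    rw [h0, map_zero, mul_zero]

/-- A derivation with values in `ι A[s, t]` is `ι` times a derivation along the special fibre. -/
theorem exists_theta_factor {ι : A} (hι0 : ι ≠ 0) {ρ : A →ₐ[ℂ] ℂ}
    (hι : ∀ x, ρ x = 0 → ι * x = 0) {Φ : R →ₐ[ℂ] MvPolynomial (Fin 2) A}
    {φ₀ : R →ₐ[ℂ] MvPolynomial (Fin 2) ℂ} (hΦ : ∀ r, map (ρ : A →+* ℂ) (Φ r) = φ₀ r) {K : ℕ}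
    {D : R →ₗ[ℂ] MvPolynomial (Fin 2) A} (hD : HD 𝒜 Φ K D)
    (h : ∀ r e, coeff e (D r) ∈ Ideal.span {ι}) :
    ∃ η : R →ₗ[ℂ] MvPolynomial (Fin 2) ℂ, HD 𝒜 φ₀ K η ∧ ∀ r, theta ι (η r) = D r := by
  obtain ⟨η, hη⟩ := exists_factor (theta ι) (theta_injective hι0) D
    (fun r => mem_range_theta hι (D r) (h r))
  refine ⟨η, ⟨fun r s => ?_, fun k r hr => ?_⟩, hη⟩
  · apply theta_injective hι0
    rw [hη, map_add, ← hΦ r, ← hΦ s, theta_mul hι, theta_mul hι, hη, hη]
    exact hD.der r s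
  · rw [← theta_isHomogeneous_iff hι0, hη]
    exact hD.deg k r hr

/-- `ι` times a derivation along the special fibre. -/
theorem HD.theta {ι : A} {ρ : A →ₐ[ℂ] ℂ} (hι : ∀ x, ρ x = 0 → ι * x = 0)
    {Φ : R →ₐ[ℂ] MvPolynomial (Fin 2) A} {φ₀ : R →ₐ[ℂ] MvPolynomial (Fin 2) ℂ}
    (hΦ : ∀ r, map (ρ : A →+* ℂ) (Φ r) = φ₀ r) {K : ℕ}
    {η : R →ₗ[ℂ] MvPolynomial (Fin 2) ℂ} (hη : HD 𝒜 φ₀ K η) :
    HD 𝒜 Φ K (VF.theta ι ∘ₗ η) where
  der r s := by
    rw [LinearMap.comp_apply, hη.der, map_add, ← hΦ r, ← hΦ s, theta_mul hι, theta_mul hι]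
    rfl
  deg k r hr := by
    intro e he
    rw [LinearMap.comp_apply, coeff_theta] at he
    exact hη.deg k r hr (fun h0 => he (by rw [h0, map_zero, mul_zero]))

omit [Algebra ℂ A] in
/-- If `t ^ M f = s ^ M g` then `s ^ M` divides `f`. -/
theorem exists_X_pow_mul {M : ℕ} {f g : MvPolynomial (Fin 2) A}
    (h : X 1 ^ M * f = X 0 ^ M * g) : ∃ q, X 0 ^ M * q = f := by
  have h1 : (monomial (Finsupp.single 0 M) (1 : A)) ∣ f := by
    rw [monomial_one_dvd_iff_modMonomial_eq_zero]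
    ext e
    rw [coeff_zero]
    by_cases he : Finsupp.single 0 M ≤ e
    · exact coeff_modMonomial_of_le _ he
    · rw [coeff_modMonomial_of_not_le _ he]
      have h2 : coeff (Finsupp.single 1 M + e) (X 1 ^ M * f) = coeff e f := by
        rw [X_pow_eq_monomial, coeff_monomial_mul, one_mul]
      rw [← h2, h, X_pow_eq_monomial, coeff_monomial_mul', if_neg]
      intro h3
      apply he
      rw [Finsupp.single_le_iff] at h3 ⊢
      simpa using h3
  obtain ⟨q, hq⟩ := h1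
  exact ⟨q, by rw [X_pow_eq_monomial, hq]⟩

omit [Algebra ℂ A] in
theorem X_pow_mul_injective (i : Fin 2) (M : ℕ) {f g : MvPolynomial (Fin 2) A}
    (h : X i ^ M * f = X i ^ M * g) : f = g := by
  ext e
  have h2 : ∀ f : MvPolynomial (Fin 2) A,
      coeff (Finsupp.single i M + e) (X i ^ M * f) = coeff e f := fun f => by
    rw [X_pow_eq_monomial, coeff_monomial_mul, one_mul]
  rw [← h2 f, h, h2 g]

/-- Patching of the two charts. -/
theorem exists_patch {Φ : R →ₐ[ℂ] MvPolynomial (Fin 2) A} {M : ℕ}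
    {S T : R →ₗ[ℂ] MvPolynomial (Fin 2) A} (hS : HD 𝒜 Φ M S)
    (h : ∀ r, X 1 ^ M * S r = X 0 ^ M * T r) :
    ∃ D : R →ₗ[ℂ] MvPolynomial (Fin 2) A, HD 𝒜 Φ 0 D ∧ ∀ r, X 0 ^ M * D r = S r := by
  obtain ⟨D, hD⟩ := exists_factor
    (LinearMap.mulLeft ℂ (X 0 ^ M : MvPolynomial (Fin 2) A))
    (fun f g hfg => X_pow_mul_injective 0 M hfg) S (fun r => exists_X_pow_mul (h r))
  have hD' : ∀ r, X 0 ^ M * D r = S r := hD
  refine ⟨D, ⟨fun r s => ?_, fun k r hr => ?_⟩, hD'⟩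
  · apply X_pow_mul_injective 0 M
    rw [mul_add, mul_left_comm, hD', hD', hS.der, mul_left_comm, hD']
  · intro e he
    have h1 : coeff (Finsupp.single 0 M + e) (S r) = coeff e (D r) := by
      rw [← hD', X_pow_eq_monomial, coeff_monomial_mul, one_mul]
    have h2 := hS.deg k r hr (by rw [h1]; exact he)
    rw [map_add] at h2
    have h3 : Finsupp.weight (1 : Fin 2 → ℕ) (Finsupp.single 0 M) = M := by
      rw [Finsupp.weight_single]; simp
    rw [h3] at h2
    omega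

end Vale.Agent.P292.VF
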