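import Vale.Agent.P292.VF.Conn
import Vale.Agent.P292.VF.Big

/-! # One very free conic suffices: a contact Fano manifold with a very free conic is
conic-connected. -/

namespace Vale.Agent.P292.VF

universe u

variable {R : Type u} [CommRing R] [Algebra ℂ R] {𝒜 : ℕ → Submodule ℂ R}
  {P : R →ₗ[ℂ] R →ₗ[ℂ] R}

/-- **Block VF.** If a contact Fano manifold has one very free conic then two general points are
joined by a conic. -/
theorem isConicConnected_of_isVeryFree [GradedAlgebra 𝒜] (hX : IsContactFano 𝒜 P)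
    {φ₀ : R →ₐ[ℂ] MvPolynomial (Fin 2) ℂ} (h0 : IsCurve 𝒜 2 φ₀) (hv : IsVeryFree 𝒜 φ₀) :
    IsConicConnected 𝒜 :=
  isConicConnected_of_split hX h0 hv (split_of_isVeryFree hX h0 hv)

end Vale.Agent.P292.VF
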