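import Vale.Agent.P292.VF.Fact

/-! # Very free conics: generation by Hamiltonian derivations. -/

namespace Vale.Agent.P292.VF

open MvPolynomial

universe u v w

variable {R : Type u} [CommRing R] [Algebra ℂ R] {𝒜 : ℕ → Submodule ℂ R}
  {P : R →ₗ[ℂ] R →ₗ[ℂ] R}
  {A : Type v} [CommRing A] [Algebra ℂ A] {B : Type w} [CommRing B] [Algebra ℂ B]

/-- The span of the Hamiltonian derivations along `Φ`. -/
noncomputable def Ham (P : R →ₗ[ℂ] R →ₗ[ℂ] R) (Φ : R →ₐ[ℂ] MvPolynomial (Fin 2) A) :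
    Submodule (MvPolynomial (Fin 2) A) (R →ₗ[ℂ] MvPolynomial (Fin 2) A) :=
  Submodule.span _ (Set.range (hamAt P Φ))

theorem hamAt_mem (Φ : R →ₐ[ℂ] MvPolynomial (Fin 2) A) (r : R) : hamAt P Φ r ∈ Ham P Φ :=
  Submodule.subset_span ⟨r, rfl⟩

theorem isDer_ham {E : Type*} [CommRing E] [Algebra ℂ E]
    (hleib : ∀ a b c, P a (b * c) = P a b * c + b * P a c) (x : R →ₐ[ℂ] E) (r : R) :
    IsDer x (hamAt P x r) := fun a b => by
  rw [hamAt_apply, hamAt_apply, hamAt_apply, hleib, map_add, map_mul, map_mul]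
  ring

theorem Ham_le (hleib : ∀ a b c, P a (b * c) = P a b * c + b * P a c)
    (Φ : R →ₐ[ℂ] MvPolynomial (Fin 2) A) : Ham P Φ ≤ DerAt Φ := by
  unfold Ham
  rw [Submodule.span_le]
  rintro _ ⟨r, rfl⟩
  exact isDer_ham hleib Φ r

theorem exists_ham_lift (π : A →ₐ[ℂ] B) (hπ : Function.Surjective π)
    {Φ : R →ₐ[ℂ] MvPolynomial (Fin 2) A} {Φ' : R →ₐ[ℂ] MvPolynomial (Fin 2) B}
    (hΦ : ∀ r, map (π : A →+* B) (Φ r) = Φ' r) (D' : R →ₗ[ℂ] MvPolynomial (Fin 2) B)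
    (hD' : D' ∈ Ham P Φ') : ∃ D ∈ Ham P Φ, ∀ r, map (π : A →+* B) (D r) = D' r := by
  have hsurj : Function.Surjective (map (π : A →+* B) :
      MvPolynomial (Fin 2) A → MvPolynomial (Fin 2) B) := map_surjective _ hπ
  refine Submodule.span_induction (p := fun D' _ => ∃ D ∈ Ham P Φ, ∀ r,
    map (π : A →+* B) (D r) = D' r) ?_ ?_ ?_ ?_ hD'
  · rintro _ ⟨r, rfl⟩
    exact ⟨hamAt P Φ r, hamAt_mem Φ r, fun s => by rw [hamAt_apply, hamAt_apply, hΦ]⟩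
  · exact ⟨0, (Ham P Φ).zero_mem, fun s => by simp⟩
  · rintro D₁ D₂ _ _ ⟨E₁, h1, h2⟩ ⟨E₂, h3, h4⟩
    exact ⟨E₁ + E₂, (Ham P Φ).add_mem h1 h3, fun s => by
      rw [LinearMap.add_apply, LinearMap.add_apply, map_add, h2, h4]⟩
  · rintro c D₁ _ ⟨E₁, h1, h2⟩
    obtain ⟨c', rfl⟩ := hsurj c
    exact ⟨c' • E₁, (Ham P Φ).smul_mem c' h1, fun s => by
      rw [LinearMap.smul_apply, LinearMap.smul_apply, smul_eq_mul, smul_eq_mul, map_mul, h2]⟩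

/-- The points of a curve are not the vertex. -/
theorem not_isVertex_pt {φ₀ : R →ₐ[ℂ] MvPolynomial (Fin 2) ℂ} {d : ℕ} (h0 : IsCurve 𝒜 d φ₀)
    {a : Fin 2 → ℂ} (ha : a ≠ 0) : ¬ IsVertex 𝒜 (pt φ₀ a) := by
  intro h
  obtain ⟨k, hk, r, hr, hne⟩ := h0.bpf a ha
  exact hne (h k hk r hr)

theorem smul_mem_Ham_of_chart {N : ℕ} {y : Fin N → R} {δ : R} (hc : IsChart P y δ)
    {Φ : R →ₐ[ℂ] MvPolynomial (Fin 2) A} {D : R →ₗ[ℂ] MvPolynomial (Fin 2) A}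
    (hD : IsDer Φ D) : Φ δ • D ∈ Ham P Φ := by
  obtain ⟨g, hg⟩ := hc.formula Φ D hD
  have h1 : Φ δ • D = ∑ j, g j • hamAt P Φ (y j) := by
    ext1 r
    rw [LinearMap.smul_apply, smul_eq_mul, hg, LinearMap.sum_apply]
    rfl
  rw [h1]
  exact Submodule.sum_mem _ fun j _ => Submodule.smul_mem _ _ (hamAt_mem Φ _)

/-- Away from the line `X i = 0` every derivation along `Φ` is a combination of Hamiltonian
derivations. -/
theorem exists_pow_smul_mem_Ham [GradedAlgebra 𝒜] (hX : IsContactFano 𝒜 P)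
    {φ₀ : R →ₐ[ℂ] MvPolynomial (Fin 2) ℂ}
    {d : ℕ} (h0 : IsCurve 𝒜 d φ₀) {ρ : A →ₐ[ℂ] ℂ} (hnil : ∀ x, ρ x = 0 → IsNilpotent x)
    {Φ : R →ₐ[ℂ] MvPolynomial (Fin 2) A} (hΦ : ∀ r, map (ρ : A →+* ℂ) (Φ r) = φ₀ r)
    {D : R →ₗ[ℂ] MvPolynomial (Fin 2) A} (hD : IsDer Φ D) (i : Fin 2) :
    ∃ M₀, ∀ M ≥ M₀, (X i ^ M : MvPolynomial (Fin 2) A) • D ∈ Ham P Φ := by
  let S := MvPolynomial (Fin 2) A
  let J : Ideal S := (Ham P Φ).comap (LinearMap.toSpanSingleton S _ D)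
  have hJ : ∀ f : S, f ∈ J ↔ f • D ∈ Ham P Φ := fun f => Iff.rfl
  have hρ : Function.Surjective (ρ : A →+* ℂ) := fun c => ⟨algebraMap ℂ A c, ρ.commutes c⟩
  have hsurj : Function.Surjective (map (ρ : A →+* ℂ) : S →+* MvPolynomial (Fin 2) ℂ) :=
    map_surjective _ hρ
  let J0 : Ideal (MvPolynomial (Fin 2) ℂ) := J.map (map (ρ : A →+* ℂ))
  have hrad : (X i : MvPolynomial (Fin 2) ℂ) ∈ J0.radical := by
    rw [← vanishingIdeal_zeroLocus_eq_radical (K := ℂ), mem_vanishingIdeal_iff]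
    intro x hx
    by_contra hne
    have hx0 : x ≠ 0 := by
      rintro rfl
      simp at hne
    obtain ⟨N, y, δ, hδ, hc⟩ := exists_isChart_at hX (not_isVertex_pt h0 hx0)
    have h1 : Φ δ ∈ J := (hJ _).2 (smul_mem_Ham_of_chart hc hD)
    have h2 : φ₀ δ ∈ J0 := by
      rw [← hΦ]
      exact Ideal.mem_map_of_mem _ h1
    exact hδ (mem_zeroLocus_iff.mp hx _ h2)
  obtain ⟨N, hN⟩ := hrad
  obtain ⟨f, hf, hfN⟩ := (Ideal.mem_map_iff_of_surjective _ hsurj).mp hN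
  have hn : IsNilpotent (X i ^ N - f : S) := by
    rw [MvPolynomial.isNilpotent_iff]
    intro e
    apply hnil
    have h3 : map (ρ : A →+* ℂ) (X i ^ N - f) = 0 := by
      rw [map_sub, hfN, map_pow, map_X, sub_self]
    have h4 := congrArg (coeff e) h3
    rw [coeff_map, coeff_zero] at h4
    exact h4
  obtain ⟨L, hL⟩ := hn
  have hmem : ((X i : S) ^ N) ^ L ∈ J := by
    rw [← Ideal.Quotient.eq_zero_iff_mem, map_pow]
    have h5 : Ideal.Quotient.mk J (X i ^ N) = Ideal.Quotient.mk J (X i ^ N - f) := by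
      rw [map_sub, Ideal.Quotient.eq_zero_iff_mem.mpr hf, sub_zero]
    rw [h5, ← map_pow, hL, map_zero]
  refine ⟨N * L, fun M hM => (hJ _).1 ?_⟩
  obtain ⟨c, rfl⟩ := Nat.exists_eq_add_of_le hM
  rw [pow_add, pow_mul]
  exact J.mul_mem_right _ hmem

end Vale.Agent.P292.VF
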