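import Vale.Agent.P292.VF.Arc1
import Vale.Agent.P292.K.F0
import Vale.Agent.P292.Bdl.B4

/-! # Smoothness outside the vertex. -/

namespace Vale.Agent.P292.VF

open MvPolynomial

universe u v w

variable {n : ℕ}

/-- chain rule -/
theorem sm_chain {T : Type v} [CommRing T] [Algebra ℂ T] (ι : MvPolynomial (Fin n) ℂ →ₐ[ℂ] T)
    (D : MvPolynomial (Fin n) ℂ →ₗ[ℂ] T) (hD : IsDer ι D) (f : MvPolynomial (Fin n) ℂ) :
    D f = ∑ i, ι (pderiv i f) * D (X i) := by
  classical
  induction f using MvPolynomial.induction_on with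
  | C a =>
    have h1 : D (C a) = 0 := isDer_algebraMap hD a
    rw [h1]
    simp
  | add p q hp hq =>
    rw [map_add, hp, hq, ← Finset.sum_add_distrib]
    refine Finset.sum_congr rfl fun i _ => ?_
    rw [map_add, map_add]
    ring
  | mul_X p j hp =>
    rw [hD, hp]
    have h1 : ∀ i, ι (pderiv i (p * X j)) * D (X i) =
        (if i = j then ι p * D (X j) else 0) + ι (X j) * (ι (pderiv i p) * D (X i)) := by
      intro i
      rw [Derivation.leibniz, pderiv_X, smul_eq_mul, smul_eq_mul, map_add, map_mul, map_mul]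
      by_cases h : i = j
      · subst h
        rw [Pi.single_eq_same, map_one, if_pos rfl]
        ring
      · rw [Pi.single_eq_of_ne (Ne.symm h), map_zero, if_neg h]
        ring
    rw [Finset.sum_congr rfl fun i _ => h1 i, Finset.sum_add_distrib,
      Finset.sum_ite_eq' Finset.univ j, if_pos (Finset.mem_univ j), Finset.mul_sum]

variable {R : Type u} [CommRing R] [Algebra ℂ R] {𝒜 : ℕ → Submodule ℂ R}
  {P : R →ₗ[ℂ] R →ₗ[ℂ] R}

/-- Lift of a derivation to the polynomial ring. -/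
theorem sm_exists_der (q : MvPolynomial (Fin n) ℂ →ₐ[ℂ] R) (hq : Function.Surjective q)
    (D : R →ₗ[ℂ] R) (hD : ∀ a b, D (a * b) = D a * b + a * D b) :
    ∃ E : Derivation ℂ (MvPolynomial (Fin n) ℂ) (MvPolynomial (Fin n) ℂ),
      ∀ f, q (E f) = D (q f) := by
  choose c hc using fun i => hq (D (q (X i)))
  refine ⟨mkDerivation ℂ c, fun f => ?_⟩
  have h1 := sm_chain q (q.toLinearMap ∘ₗ (mkDerivation ℂ c : MvPolynomial (Fin n) ℂ →ₗ[ℂ] _))
    (fun r s => by
      change q (mkDerivation ℂ c (r * s)) = q r * q (mkDerivation ℂ c s) +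
        q s * q (mkDerivation ℂ c r)
      rw [Derivation.leibniz, smul_eq_mul, smul_eq_mul, map_add, map_mul, map_mul]) f
  have h2 := sm_chain q (D ∘ₗ q.toLinearMap) (fun r s => by
      change D (q (r * s)) = q r * D (q s) + q s * D (q r)
      rw [map_mul, hD]
      ring) f
  change q (mkDerivation ℂ c f) = _ at h1
  change D (q f) = _ at h2
  rw [h1, h2]
  refine Finset.sum_congr rfl fun i _ => ?_
  congr 1
  change q (mkDerivation ℂ c (X i)) = D (q (X i))
  rw [mkDerivation_X, hc]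

/-- The elements of the ideal of relations all of whose derivatives are in the ideal. -/
def smL (q : MvPolynomial (Fin n) ℂ →ₐ[ℂ] R) : Ideal (MvPolynomial (Fin n) ℂ) where
  carrier := {f | q f = 0 ∧ ∀ i, q (pderiv i f) = 0}
  add_mem' := fun {a b} ha hb => ⟨by rw [map_add, ha.1, hb.1, add_zero],
    fun i => by rw [map_add, map_add, ha.2, hb.2, add_zero]⟩
  zero_mem' := ⟨map_zero _, fun i => by rw [map_zero, map_zero]⟩
  smul_mem' := fun c f hf => ⟨by rw [smul_eq_mul, map_mul, hf.1, mul_zero], fun i => by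
    rw [smul_eq_mul, Derivation.leibniz, smul_eq_mul, smul_eq_mul, map_add, map_mul, map_mul,
      hf.1, hf.2, mul_zero, zero_mul, add_zero]⟩

theorem mem_smL {q : MvPolynomial (Fin n) ℂ →ₐ[ℂ] R} {f : MvPolynomial (Fin n) ℂ} :
    f ∈ smL q ↔ q f = 0 ∧ ∀ i, q (pderiv i f) = 0 := Iff.rfl

theorem sm_der_mem {q : MvPolynomial (Fin n) ℂ →ₐ[ℂ] R}
    (E : Derivation ℂ (MvPolynomial (Fin n) ℂ) (MvPolynomial (Fin n) ℂ))
    (hE : ∀ f, q f = 0 → q (E f) = 0) {f : MvPolynomial (Fin n) ℂ} (hf : f ∈ smL q) :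
    E f ∈ smL q := by
  have key : ∀ G : Derivation ℂ (MvPolynomial (Fin n) ℂ) (MvPolynomial (Fin n) ℂ),
      q (G f) = 0 := by
    intro G
    have h1 := sm_chain q (q.toLinearMap ∘ₗ (G : MvPolynomial (Fin n) ℂ →ₗ[ℂ] _))
      (fun r s => by
        change q (G (r * s)) = q r * q (G s) + q s * q (G r)
        rw [Derivation.leibniz, smul_eq_mul, smul_eq_mul, map_add, map_mul, map_mul]) f
    change q (G f) = _ at h1
    rw [h1]
    exact Finset.sum_eq_zero fun i _ => by rw [hf.2, zero_mul]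
  refine ⟨key E, fun i => ?_⟩
  have h2 : pderiv i (E f) = E (pderiv i f) + ⁅(pderiv i : Derivation ℂ _ _), E⁆ f := by
    rw [Derivation.commutator_apply]
    ring
  rw [h2, map_add, key, add_zero]
  exact hE _ (hf.2 i)

theorem sm_der_sq {q : MvPolynomial (Fin n) ℂ →ₐ[ℂ] R}
    (E : Derivation ℂ (MvPolynomial (Fin n) ℂ) (MvPolynomial (Fin n) ℂ))
    (hE : ∀ f, q f = 0 → q (E f) = 0) {f : MvPolynomial (Fin n) ℂ}
    (hf : f ∈ RingHom.ker q ^ 2) : E f ∈ RingHom.ker q ^ 2 := by
  rw [sq] at hf ⊢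
  refine Submodule.mul_induction_on (C := fun f => E f ∈ RingHom.ker q * RingHom.ker q) hf ?_ ?_
  · intro a ha b hb
    rw [Derivation.leibniz, smul_eq_mul, smul_eq_mul]
    exact Ideal.add_mem _ (Ideal.mul_mem_mul ha (hE b hb)) (Ideal.mul_mem_mul hb (hE a ha))
  · intro x y hx hy
    rw [map_add]
    exact Ideal.add_mem _ hx hy

/-- localisation of a square zero thickening -/
theorem sm_loc {A : Type v} [CommRing A] [Algebra ℂ A] [IsDomain R] (q₂ : A →ₐ[ℂ] R)
    (hq : Function.Surjective q₂) (hsq : ∀ a b, q₂ a = 0 → q₂ b = 0 → a * b = 0)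
    (T : Type w) [CommRing T] [Algebra A T] [Algebra ℂ T] [IsScalarTower ℂ A T]
    [IsLocalization ((nonZeroDivisors R).comap q₂) T] :
    ∃ g : T →ₐ[ℂ] FractionRing R, (∀ a, g (algebraMap A T a) = algebraMap R _ (q₂ a)) ∧
      Function.Surjective g ∧ ∀ x y, g x = 0 → g y = 0 → x * y = 0 := by
  let K := FractionRing R
  let g₀ : A →ₐ[ℂ] K := (IsScalarTower.toAlgHom ℂ R K).comp q₂
  have hg₀ : ∀ a, g₀ a = algebraMap R K (q₂ a) := fun a => rfl
  have hunit : ∀ y : (nonZeroDivisors R).comap q₂, IsUnit (g₀ y) := fun y => by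
    rw [hg₀]
    exact IsLocalization.map_units K (⟨q₂ y, y.2⟩ : nonZeroDivisors R)
  let g : T →ₐ[ℂ] K := IsLocalization.liftAlgHom (M := (nonZeroDivisors R).comap q₂) (S := T)
    (f := g₀) hunit
  have hg : ∀ a, g (algebraMap A T a) = g₀ a := fun a =>
    IsLocalization.lift_eq (M := (nonZeroDivisors R).comap q₂) (g := (g₀ : A →+* K)) hunit a
  have hmk : ∀ t : T, ∃ (a : A) (s : (nonZeroDivisors R).comap q₂),
      t * algebraMap A T s = algebraMap A T a := fun t => by
    obtain ⟨⟨a, s⟩, h⟩ := IsLocalization.surj ((nonZeroDivisors R).comap q₂) t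
    exact ⟨a, s, h⟩
  refine ⟨g, hg, ?_, ?_⟩
  · intro z
    obtain ⟨⟨a, s⟩, h⟩ := IsLocalization.surj (nonZeroDivisors R) z
    obtain ⟨a', ha'⟩ := hq a
    obtain ⟨s', hs'⟩ := hq s
    have hsM : s' ∈ (nonZeroDivisors R).comap q₂ := by
      change q₂ _ ∈ nonZeroDivisors R
      rw [hs']
      exact s.2
    obtain ⟨u, hu⟩ := IsLocalization.map_units T (⟨_, hsM⟩ : (nonZeroDivisors R).comap q₂)
    refine ⟨algebraMap A T a' * ↑u⁻¹, ?_⟩
    have h1 : g ↑u = algebraMap R K s := by rw [hu, hg, hg₀, hs']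
    have h2 : g ↑u * g ↑u⁻¹ = 1 := by rw [← map_mul, Units.mul_inv, map_one]
    have h3 : z * g ↑u = algebraMap R K a := by rw [h1]; exact h
    rw [map_mul, hg, hg₀, ha', ← h3, mul_assoc, h2, mul_one]
  · intro x y hx hy
    obtain ⟨a, s, ha⟩ := hmk x
    obtain ⟨b, t, hb⟩ := hmk y
    have h1 : q₂ a = 0 := by
      have h2 := congrArg g ha
      rw [map_mul, hx, zero_mul, hg, hg₀] at h2
      exact (IsFractionRing.injective R K) (by rw [← h2, map_zero])
    have h1' : q₂ b = 0 := by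
      have h2 := congrArg g hb
      rw [map_mul, hy, zero_mul, hg, hg₀] at h2
      exact (IsFractionRing.injective R K) (by rw [← h2, map_zero])
    have h4 : x * y * (algebraMap A T s * algebraMap A T t) = 0 := by
      rw [show x * y * (algebraMap A T s * algebraMap A T t) =
        (x * algebraMap A T s) * (y * algebraMap A T t) by ring, ha, hb, ← map_mul,
        hsq a b h1 h1', map_zero]
    have h5 : IsUnit (algebraMap A T s * algebraMap A T t) :=
      (IsLocalization.map_units T s).mul (IsLocalization.map_units T t)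
    exact (h5.mul_left_eq_zero).mp h4

/-- sections of square zero thickenings of fields -/
theorem sm_sec {K : Type v} {T : Type w} [Field K] [CommRing T] [Algebra ℂ K] [Algebra ℂ T]
    (g : T →ₐ[ℂ] K) (hg : Function.Surjective g) (hker : ∀ x y, g x = 0 → g y = 0 → x * y = 0) :
    ∃ s : K →ₐ[ℂ] T, ∀ x, g (s x) = x := by
  have hnil : IsNilpotent (RingHom.ker (g : T →+* K)) := by
    refine ⟨2, ?_⟩
    rw [sq, Ideal.zero_eq_bot, eq_bot_iff, Ideal.mul_le]
    intro x hx y hy
    exact hker x y hx hy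
  have hsm : Algebra.FormallySmooth ℂ K := f0_formallySmooth ℂ K
  exact ⟨Algebra.FormallySmooth.liftOfSurjective (AlgHom.id ℂ K) g hg hnil, fun x =>
    Algebra.FormallySmooth.liftOfSurjective_apply (AlgHom.id ℂ K) g hg hnil x⟩

/-- Generic smoothness, abstract form. -/
theorem sm_generic_aux [IsDomain R] (q : MvPolynomial (Fin n) ℂ →ₐ[ℂ] R)
    {T : Type w} [CommRing T] [Algebra ℂ T] (ι : MvPolynomial (Fin n) ℂ →ₐ[ℂ] T)
    (g : T →ₐ[ℂ] FractionRing R) (hg : Function.Surjective g)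
    (hker : ∀ x y, g x = 0 → g y = 0 → x * y = 0)
    (hgι : ∀ a, g (ι a) = algebraMap R _ (q a))
    {f : MvPolynomial (Fin n) ℂ} (hf : f ∈ smL q) : ι f = 0 := by
  obtain ⟨s, hs⟩ := sm_sec g hg hker
  let D : MvPolynomial (Fin n) ℂ →ₗ[ℂ] T :=
    ι.toLinearMap - (s.comp ((IsScalarTower.toAlgHom ℂ R (FractionRing R)).comp q)).toLinearMap
  have hD : ∀ a, D a = ι a - s (algebraMap R _ (q a)) := fun a => rfl
  have hgD : ∀ a, g (D a) = 0 := fun a => by rw [hD, map_sub, hs, hgι, sub_self]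
  have hder : IsDer ι D := fun a b => by
    have h1 := hker _ _ (hgD a) (hgD b)
    rw [hD, hD] at h1
    rw [hD, hD, hD, map_mul, map_mul, map_mul, map_mul]
    linear_combination -h1
  have h1 := sm_chain ι D hder f
  have h2 : D f = 0 := by
    rw [h1]
    refine Finset.sum_eq_zero fun i _ => hker _ _ ?_ (hgD _)
    rw [hgι, hf.2, map_zero]
  rw [hD, hf.1, map_zero, map_zero, sub_zero] at h2
  exact h2

/-- Generic smoothness. -/
theorem sm_generic [IsDomain R] (q : MvPolynomial (Fin n) ℂ →ₐ[ℂ] R)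
    (hq : Function.Surjective q) {f : MvPolynomial (Fin n) ℂ} (hf : f ∈ smL q) :
    ∃ h, q h ≠ 0 ∧ h * f ∈ RingHom.ker q ^ 2 := by
  let J : Ideal (MvPolynomial (Fin n) ℂ) := RingHom.ker q
  let q₂ : (MvPolynomial (Fin n) ℂ ⧸ J ^ 2) →ₐ[ℂ] R :=
    Ideal.Quotient.liftₐ (J ^ 2) q (fun a ha => Ideal.pow_le_self two_ne_zero ha)
  have hq₂ : ∀ a, q₂ (Ideal.Quotient.mk _ a) = q a := fun a => rfl
  obtain ⟨g, hg, hsurj, hker⟩ := sm_loc q₂ (fun r => by
      obtain ⟨a, rfl⟩ := hq r
      exact ⟨Ideal.Quotient.mk _ a, rfl⟩) (fun a b ha hb => by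
      obtain ⟨a, rfl⟩ := Ideal.Quotient.mk_surjective a
      obtain ⟨b, rfl⟩ := Ideal.Quotient.mk_surjective b
      rw [← map_mul, Ideal.Quotient.eq_zero_iff_mem, sq]
      exact Ideal.mul_mem_mul ha hb) (Localization ((nonZeroDivisors R).comap q₂))
  let ι : MvPolynomial (Fin n) ℂ →ₐ[ℂ] Localization ((nonZeroDivisors R).comap q₂) :=
    (IsScalarTower.toAlgHom ℂ (MvPolynomial (Fin n) ℂ ⧸ J ^ 2) _).comp
      (Ideal.Quotient.mkₐ ℂ (J ^ 2))
  have h2 := sm_generic_aux q ι g hsurj hker (fun a => hg _) hf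
  have h3 : algebraMap (MvPolynomial (Fin n) ℂ ⧸ J ^ 2)
      (Localization ((nonZeroDivisors R).comap q₂)) (Ideal.Quotient.mk _ f) = 0 := h2
  rw [IsLocalization.map_eq_zero_iff ((nonZeroDivisors R).comap q₂)] at h3
  obtain ⟨⟨m, hm⟩, h3⟩ := h3
  obtain ⟨h, rfl⟩ := Ideal.Quotient.mk_surjective m
  refine ⟨h, ?_, ?_⟩
  · have h4 : q₂ (Ideal.Quotient.mk _ h) ∈ nonZeroDivisors R := hm
    rw [hq₂] at h4
    exact nonZeroDivisors.ne_zero h4
  · rw [← map_mul, Ideal.Quotient.eq_zero_iff_mem] at h3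
    exact h3

/-- The elements killing `L / J ^ 2`. -/
def smA (q : MvPolynomial (Fin n) ℂ →ₐ[ℂ] R) : Ideal (MvPolynomial (Fin n) ℂ) where
  carrier := {h | ∀ f ∈ smL q, h * f ∈ RingHom.ker q ^ 2}
  add_mem' := fun {a b} ha hb f hf => by
    rw [add_mul]
    exact Ideal.add_mem _ (ha f hf) (hb f hf)
  zero_mem' := fun f _ => by
    rw [zero_mul]
    exact Ideal.zero_mem _
  smul_mem' := fun c a ha f hf => by
    rw [smul_eq_mul, mul_assoc]
    exact Ideal.mul_mem_left _ _ (ha f hf)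

theorem mem_smA {q : MvPolynomial (Fin n) ℂ →ₐ[ℂ] R} {h : MvPolynomial (Fin n) ℂ} :
    h ∈ smA q ↔ ∀ f ∈ smL q, h * f ∈ RingHom.ker q ^ 2 := Iff.rfl

theorem sm_exists_mem_smA [IsDomain R] (q : MvPolynomial (Fin n) ℂ →ₐ[ℂ] R)
    (hq : Function.Surjective q) : ∃ h ∈ smA q, q h ≠ 0 := by
  classical
  obtain ⟨G, hG⟩ := (IsNoetherian.noetherian (smL q) : (smL q).FG)
  have hGL : ∀ f ∈ G, f ∈ smL q := fun f hf => by
    rw [← hG]
    exact Submodule.subset_span hf
  choose! h h1 h2 using fun (f : MvPolynomial (Fin n) ℂ) (hf : f ∈ smL q) => sm_generic q hq hf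
  refine ⟨∏ f ∈ G, h f, ?_, ?_⟩
  · intro f hf
    rw [← hG] at hf
    refine Submodule.span_induction (p := fun f _ => (∏ f ∈ G, h f) * f ∈ RingHom.ker q ^ 2)
      ?_ ?_ ?_ ?_ hf
    · intro f hf
      rw [← Finset.mul_prod_erase G h hf, mul_comm (h f), mul_assoc]
      exact Ideal.mul_mem_left _ _ (h2 f (hGL f hf))
    · rw [mul_zero]
      exact Ideal.zero_mem _
    · intro x y _ _ hx hy
      rw [mul_add]
      exact Ideal.add_mem _ hx hy
    · intro c x _ hx
      rw [smul_eq_mul, mul_left_comm]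
      exact Ideal.mul_mem_left _ _ hx
  · rw [map_prod]
    exact Finset.prod_ne_zero_iff.mpr fun f hf => h1 f (hGL f hf)

/-- At a nonvertex point some element killing `L / J ^ 2` does not vanish. -/
theorem sm_exists_mem_smA_at [GradedAlgebra 𝒜] (hX : IsContactFano 𝒜 P)
    (q : MvPolynomial (Fin n) ℂ →ₐ[ℂ] R) (hq : Function.Surjective q)
    {E : Type v} [CommRing E] [IsDomain E] [Algebra ℂ E] {x : R →ₐ[ℂ] E} (hx : IsNV 𝒜 x) :
    ∃ h ∈ smA q, x (q h) ≠ 0 := by
  have hdom : IsDomain R := hX.domain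
  have hft : Algebra.FiniteType ℂ R := hX.finiteType
  obtain ⟨k, hk, r, hr, hne⟩ := hx
  obtain ⟨p, hp, hpr⟩ := kd_exists_closed x r hne
  have hpv : ¬ IsVertex 𝒜 p := fun h => hpr (h k hk r hr)
  by_contra hcon
  push Not at hcon
  obtain ⟨h₀, hh₀, hh₀'⟩ := sm_exists_mem_smA q hq
  have hbot : (smA q).map (q : MvPolynomial (Fin n) ℂ →+* R) = ⊥ := by
    refine poisson_simple hX hpv _ (fun b u hu => ?_) (fun u hu => ?_)
    · obtain ⟨h, hh, rfl⟩ := (Ideal.mem_map_iff_of_surjective _ hq).mp hu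
      obtain ⟨D, hD⟩ := sm_exists_der q hq (P b) (hX.leibniz b)
      have hDJ : ∀ f, q f = 0 → q (D f) = 0 := fun f hf => by rw [hD, hf, map_zero]
      have h1 : D h ∈ smA q := by
        intro f hf
        have h2 : D h * f = D (h * f) - h * D f := by
          rw [Derivation.leibniz, smul_eq_mul, smul_eq_mul]
          ring
        rw [h2]
        exact Ideal.sub_mem _ (sm_der_sq D hDJ (hh f hf)) (hh _ (sm_der_mem D hDJ hf))
      have h3 : P b (q h) = q (D h) := (hD h).symm
      change P b (q h) ∈ _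
      rw [h3]
      exact Ideal.mem_map_of_mem (q : MvPolynomial (Fin n) ℂ →+* R) h1
    · obtain ⟨h, hh, rfl⟩ := (Ideal.mem_map_iff_of_surjective _ hq).mp hu
      exact hp _ (hcon h hh)
  apply hh₀'
  have h4 : (q : MvPolynomial (Fin n) ℂ →+* R) h₀ ∈
      (smA q).map (q : MvPolynomial (Fin n) ℂ →+* R) := Ideal.mem_map_of_mem _ hh₀
  rw [hbot] at h4
  exact h4

/-- The chart certificate. -/
theorem sm_chart (q : MvPolynomial (Fin n) ℂ →ₐ[ℂ] R) (hq : Function.Surjective q)
    (hleib : ∀ a b c, P a (b * c) = P a b * c + b * P a c) {N : ℕ} {y : Fin N → R} {δ : R}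
    (hc : IsChart P y δ) : ∃ (D : MvPolynomial (Fin n) ℂ) (g : Fin n → MvPolynomial (Fin n) ℂ),
      q D = δ ∧ (∀ i, q (g i) = 0) ∧ ∀ f, q f = 0 → D * f - ∑ i, pderiv i f * g i ∈ smL q := by
  classical
  obtain ⟨D, hD⟩ := hq δ
  obtain ⟨a, ha⟩ := hc
  -- the module of differentials, as a quotient
  let W : Submodule R (Fin n → R) :=
    { carrier := {v | ∃ f, q f = 0 ∧ ∀ i, v i = q (pderiv i f)}
      add_mem' := by
        rintro v w ⟨f, hf, hv⟩ ⟨g, hg, hw⟩
        exact ⟨f + g, by rw [map_add, hf, hg, add_zero], fun i => by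
          rw [Pi.add_apply, hv, hw, map_add, map_add]⟩
      zero_mem' := ⟨0, map_zero _, fun i => by rw [map_zero, map_zero]; rfl⟩
      smul_mem' := by
        rintro c v ⟨f, hf, hv⟩
        obtain ⟨c, rfl⟩ := hq c
        refine ⟨c * f, by rw [map_mul, hf, mul_zero], fun i => ?_⟩
        rw [Pi.smul_apply, hv, Derivation.leibniz, smul_eq_mul, smul_eq_mul, smul_eq_mul, map_add,
          map_mul, map_mul, hf, zero_mul, add_zero] }
  let gr : MvPolynomial (Fin n) ℂ →ₗ[ℂ] (Fin n → R) :=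
    LinearMap.pi fun i => q.toLinearMap ∘ₗ ((pderiv i : Derivation ℂ (MvPolynomial (Fin n) ℂ)
      (MvPolynomial (Fin n) ℂ)) : MvPolynomial (Fin n) ℂ →ₗ[ℂ] MvPolynomial (Fin n) ℂ)
  have hgr : ∀ f i, gr f i = q (pderiv i f) := fun f i => rfl
  let D0 : MvPolynomial (Fin n) ℂ →ₗ[ℂ] ((Fin n → R) ⧸ W) := (W.mkQ.restrictScalars ℂ) ∘ₗ gr
  have hD0 : ∀ f, D0 f = W.mkQ (gr f) := fun f => rfl
  have hD0' : ∀ f f', q f = q f' → D0 f = D0 f' := by
    intro f f' h
    rw [← sub_eq_zero, ← map_sub, hD0, Submodule.mkQ_apply, Submodule.Quotient.mk_eq_zero]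
    exact ⟨f - f', by rw [map_sub, h, sub_self], fun i => rfl⟩
  have hD0m : ∀ f f', D0 (f * f') = q f • D0 f' + q f' • D0 f := by
    intro f f'
    have e1 : q f • W.mkQ (gr f') = W.mkQ (q f • gr f') := (map_smul W.mkQ _ _).symm
    have e2 : q f' • W.mkQ (gr f) = W.mkQ (q f' • gr f) := (map_smul W.mkQ _ _).symm
    rw [hD0, hD0, hD0, e1, e2, ← map_add]
    congr 1
    funext i
    rw [Pi.add_apply, Pi.smul_apply, Pi.smul_apply, hgr, hgr, hgr, Derivation.leibniz,
      smul_eq_mul, smul_eq_mul, smul_eq_mul, smul_eq_mul, map_add, map_mul, map_mul]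
  have hq' := hq
  choose s hs using hq'
  let d : Derivation ℂ R ((Fin n → R) ⧸ W) :=
    Derivation.mk'
      { toFun := fun r => D0 (s r)
        map_add' := fun a b => by
          rw [← map_add]
          exact hD0' _ _ (by rw [map_add, hs, hs, hs])
        map_smul' := fun c a => by
          rw [RingHom.id_apply, ← map_smul]
          exact hD0' _ _ (by rw [map_smul, hs, hs]) }
      (fun a b => by
        change D0 (s (a * b)) = a • D0 (s b) + b • D0 (s a)
        rw [hD0' (s (a * b)) (s a * s b) (by rw [map_mul, hs, hs, hs]), hD0m, hs, hs])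
  have hd : ∀ f, d (q f) = W.mkQ (gr f) := fun f => hD0' _ _ (by rw [hs])
  -- the coefficients
  choose m hm using fun j => W.mkQ_surjective (d.liftKaehlerDifferential (a j))
  have hrel : ∀ i, ∃ g, q g = 0 ∧ ∀ l, q (pderiv l g) =
      δ * (if l = i then 1 else 0) - ∑ j, P (y j) (q (X i)) * m j l := by
    intro i
    have h1 := congrArg d.liftKaehlerDifferential (ha (q (X i)))
    rw [map_smul, Derivation.liftKaehlerDifferential_comp_D, hd, map_sum] at h1
    have h2 : W.mkQ (δ • gr (X i) - ∑ j, P (y j) (q (X i)) • m j) = 0 := by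
      rw [map_sub, map_smul, h1, map_sum, sub_eq_zero]
      refine Finset.sum_congr rfl fun j _ => ?_
      rw [map_smul, map_smul, hm]
    rw [Submodule.mkQ_apply, Submodule.Quotient.mk_eq_zero] at h2
    obtain ⟨g, hg, hg'⟩ := h2
    refine ⟨g, hg, fun l => ?_⟩
    rw [← hg', Pi.sub_apply, Pi.smul_apply, Finset.sum_apply, hgr, pderiv_X, smul_eq_mul]
    congr 1
    by_cases h : l = i
    · subst h
      rw [Pi.single_eq_same, map_one, if_pos rfl]
    · rw [Pi.single_eq_of_ne (Ne.symm h), map_zero, if_neg h]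
  choose g hg hg' using hrel
  refine ⟨D, g, hD, hg, fun f hf => ⟨?_, fun l => ?_⟩⟩
  · rw [map_sub, map_mul, hf, mul_zero, map_sum, zero_sub, neg_eq_zero]
    exact Finset.sum_eq_zero fun i _ => by rw [map_mul, hg, mul_zero]
  · rw [map_sub, map_sub, Derivation.leibniz, smul_eq_mul, smul_eq_mul, map_add, map_mul, map_mul,
      hf, zero_mul, add_zero, hD, map_sum, map_sum]
    have h3 : ∀ i, q (pderiv l (pderiv i f * g i)) = q (pderiv i f) *
        (δ * (if l = i then 1 else 0) - ∑ j, P (y j) (q (X i)) * m j l) := by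
      intro i
      rw [Derivation.leibniz, smul_eq_mul, smul_eq_mul, map_add, map_mul, map_mul, hg, zero_mul,
        add_zero, hg']
    rw [Finset.sum_congr rfl fun i _ => h3 i]
    have h4 : ∀ j, ∑ i, q (pderiv i f) * P (y j) (q (X i)) = 0 := by
      intro j
      have h5 := sm_chain q (P (y j) ∘ₗ q.toLinearMap) (fun r s => by
        change P (y j) (q (r * s)) = q r * P (y j) (q s) + q s * P (y j) (q r)
        rw [map_mul, hleib]
        ring) f
      change P (y j) (q f) = _ at h5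
      rw [hf, map_zero] at h5
      exact h5.symm
    simp only [mul_sub, Finset.sum_sub_distrib]
    have h6 : ∑ i, q (pderiv i f) * (δ * (if l = i then 1 else 0)) = δ * q (pderiv l f) := by
      rw [Finset.sum_eq_single l]
      · rw [if_pos rfl]; ring
      · intro i _ hi
        rw [if_neg (Ne.symm hi)]; ring
      · intro h; exact absurd (Finset.mem_univ l) h
    have h7 : ∑ i, q (pderiv i f) * ∑ j, P (y j) (q (X i)) * m j l = 0 := by
      simp only [Finset.mul_sum]
      rw [Finset.sum_comm]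
      refine Finset.sum_eq_zero fun j _ => ?_
      have h8 : ∀ i, q (pderiv i f) * (P (y j) (q (X i)) * m j l) =
          (q (pderiv i f) * P (y j) (q (X i))) * m j l := fun i => by ring
      rw [Finset.sum_congr rfl fun i _ => h8 i, ← Finset.sum_mul, h4, zero_mul]
    rw [h6, h7]
    ring

/-- SM1: the smoothness certificate at a nonvertex point. -/
theorem sm_certificate [GradedAlgebra 𝒜] (hX : IsContactFano 𝒜 P)
    (q : MvPolynomial (Fin n) ℂ →ₐ[ℂ] R) (hq : Function.Surjective q)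
    {E : Type v} [CommRing E] [IsDomain E] [Algebra ℂ E] {x : R →ₐ[ℂ] E} (hx : IsNV 𝒜 x) :
    ∃ (D : MvPolynomial (Fin n) ℂ) (g : Fin n → MvPolynomial (Fin n) ℂ),
      x (q D) ≠ 0 ∧ (∀ i, q (g i) = 0) ∧
      ∀ f, q f = 0 → D * f - ∑ i, pderiv i f * g i ∈ RingHom.ker q ^ 2 := by
  obtain ⟨N, y, δ, hδ, hc⟩ := exists_isChart_atK hX hx
  obtain ⟨D, g, h1, h2, h3⟩ := sm_chart q hq hX.leibniz hc
  obtain ⟨h, hh, hxh⟩ := sm_exists_mem_smA_at hX q hq hx
  refine ⟨h * D, fun i => h * g i, ?_, fun i => ?_, fun f hf => ?_⟩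
  · rw [map_mul, map_mul, h1]
    exact mul_ne_zero hxh hδ
  · rw [map_mul, h2, mul_zero]
  · have h4 := hh _ (h3 f hf)
    rw [mul_sub, Finset.mul_sum] at h4
    rw [mul_assoc, Finset.sum_congr rfl fun i _ => mul_left_comm _ _ _]
    exact h4

/-- factorisation through a surjection -/
theorem sm_factor {A : Type*} {B : Type*} {C : Type*} [CommRing A] [CommRing B] [CommRing C]
    [Algebra ℂ A] [Algebra ℂ B] [Algebra ℂ C] (f : A →ₐ[ℂ] B) (hf : Function.Surjective f)
    (g : A →ₐ[ℂ] C) (h : ∀ a, f a = 0 → g a = 0) : ∃ k : B →ₐ[ℂ] C, ∀ a, k (f a) = g a := by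
  refine ⟨(Ideal.Quotient.liftₐ (RingHom.ker f) g fun a ha => h a ha).comp
    (Ideal.quotientKerAlgEquivOfSurjective hf).symm.toAlgHom, fun a => ?_⟩
  have h1 : (Ideal.quotientKerAlgEquivOfSurjective hf).symm (f a) = Ideal.Quotient.mk _ a := by
    rw [AlgEquiv.symm_apply_eq]
    rfl
  change Ideal.Quotient.liftₐ (RingHom.ker f) g (fun a ha => h a ha)
    ((Ideal.quotientKerAlgEquivOfSurjective hf).symm (f a)) = _
  rw [h1]
  rfl

/-- SM2: homomorphisms with values outside the vertex lift over square zero extensions. -/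
theorem exists_lift_of_sq_zero [GradedAlgebra 𝒜] (hX : IsContactFano 𝒜 P)
    {B' : Type v} {B : Type w} [CommRing B'] [Algebra ℂ B'] [CommRing B] [Algebra ℂ B]
    (π : B' →ₐ[ℂ] B) (hπ : Function.Surjective π)
    (hsq : ∀ x y, π x = 0 → π y = 0 → x * y = 0) (φ : R →ₐ[ℂ] B)
    (hunit : Ideal.span {b | ∃ k, 0 < k ∧ ∃ r ∈ 𝒜 k, b = φ r} = ⊤) :
    ∃ φ' : R →ₐ[ℂ] B', ∀ r, π (φ' r) = φ r := by
  classical
  obtain ⟨n, q, hq⟩ := Algebra.FiniteType.iff_quotient_mvPolynomial''.mp hX.finiteType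
  choose c hc using fun i => hπ (φ (q (X i)))
  let lam : MvPolynomial (Fin n) ℂ →ₐ[ℂ] B' := aeval c
  have hlamX : ∀ i, lam (X i) = c i := fun i => aeval_X c i
  have hlam : ∀ f, π (lam f) = φ (q f) := by
    have h1 : π.comp lam = φ.comp q := by
      refine algHom_ext fun i => ?_
      rw [AlgHom.comp_apply, AlgHom.comp_apply, hlamX, hc]
    exact fun f => DFunLike.congr_fun h1 f
  have hlam2 : ∀ f ∈ RingHom.ker q ^ 2, lam f = 0 := by
    intro f hf
    rw [sq] at hf
    refine Submodule.mul_induction_on (C := fun f => lam f = 0) hf ?_ ?_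
    · intro a ha b hb
      rw [map_mul]
      exact hsq _ _ (by rw [hlam, (ha : q a = 0), map_zero]) (by rw [hlam, (hb : q b = 0), map_zero])
    · intro x y hx hy
      rw [map_add, hx, hy, add_zero]
  let 𝔟 : Ideal B' :=
    { carrier := {b | ∃ e : Fin n → B', (∀ i, π (e i) = 0) ∧
        ∀ f, q f = 0 → b * lam f = ∑ i, lam (pderiv i f) * e i}
      add_mem' := by
        rintro a b ⟨e, he, he'⟩ ⟨f, hf, hf'⟩
        refine ⟨fun i => e i + f i, fun i => by rw [map_add, he, hf, add_zero], fun g hg => ?_⟩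
        rw [add_mul, he' g hg, hf' g hg, ← Finset.sum_add_distrib]
        exact Finset.sum_congr rfl fun i _ => by ring
      zero_mem' := ⟨fun _ => 0, fun i => map_zero _, fun f _ => by simp⟩
      smul_mem' := by
        rintro a b ⟨e, he, he'⟩
        refine ⟨fun i => a * e i, fun i => by rw [map_mul, he, mul_zero], fun g hg => ?_⟩
        rw [smul_eq_mul, mul_assoc, he' g hg, Finset.mul_sum]
        exact Finset.sum_congr rfl fun i _ => by ring }
  by_cases htop : 𝔟 = ⊤
  · have h1 : (1 : B') ∈ 𝔟 := by rw [htop]; trivial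
    obtain ⟨e, he, he'⟩ := h1
    let lam' : MvPolynomial (Fin n) ℂ →ₐ[ℂ] B' := aeval fun i => c i - e i
    have hlam' : ∀ f, lam' f = lam f - ∑ i, lam (pderiv i f) * e i := by
      intro f
      induction f using MvPolynomial.induction_on with
      | C a =>
        have h2 : lam' (C a) = lam (C a) := by
          rw [← algebraMap_eq, AlgHom.commutes, AlgHom.commutes]
        rw [h2]
        simp
      | add p r hp hr =>
        rw [map_add, hp, hr, map_add]
        simp only [map_add, add_mul, Finset.sum_add_distrib]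
        ring
      | mul_X p j hp =>
        have h3 : lam' (X j) = c j - e j := aeval_X _ j
        have h4 : ∀ i, lam (pderiv i (p * X j)) * e i =
            (if i = j then lam p * e j else 0) + c j * (lam (pderiv i p) * e i) := by
          intro i
          rw [Derivation.leibniz, pderiv_X, smul_eq_mul, smul_eq_mul, map_add, map_mul, map_mul,
            hlamX]
          by_cases h : i = j
          · subst h
            rw [Pi.single_eq_same, map_one, if_pos rfl]
            ring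
          · rw [Pi.single_eq_of_ne (Ne.symm h), map_zero, if_neg h]
            ring
        have h5 : (∑ i, lam (pderiv i p) * e i) * e j = 0 := by
          refine hsq _ _ ?_ (he j)
          rw [map_sum]
          exact Finset.sum_eq_zero fun i _ => by rw [map_mul, he, mul_zero]
        rw [map_mul, hp, h3, map_mul, hlamX, Finset.sum_congr rfl fun i _ => h4 i,
          Finset.sum_add_distrib, Finset.sum_ite_eq' Finset.univ j, if_pos (Finset.mem_univ j),
          ← Finset.mul_sum]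
        linear_combination h5
    obtain ⟨φ', hφ'⟩ := sm_factor q hq lam' (fun f hf => by
      rw [hlam', ← he' f hf, one_mul, sub_self])
    refine ⟨φ', fun r => ?_⟩
    obtain ⟨f, rfl⟩ := hq r
    rw [hφ', hlam', map_sub, hlam, map_sum, Finset.sum_eq_zero (fun i _ => by
      rw [map_mul, he, mul_zero]), sub_zero]
  · exfalso
    obtain ⟨𝔐, hmax, hle⟩ := Ideal.exists_le_maximal 𝔟 htop
    let E := B' ⧸ 𝔐
    have hE : IsDomain E := Ideal.Quotient.isDomain 𝔐
    let mk : B' →ₐ[ℂ] E := Ideal.Quotient.mkₐ ℂ 𝔐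
    obtain ⟨g, hg⟩ := sm_factor π hπ mk (fun a ha => by
      have h1 : a * a ∈ 𝔐 := by rw [hsq a a ha ha]; exact 𝔐.zero_mem
      have h2 : a ∈ 𝔐 := (hmax.isPrime.mem_or_mem h1).elim id id
      exact Ideal.Quotient.eq_zero_iff_mem.mpr h2)
    let x : R →ₐ[ℂ] E := g.comp φ
    have hx : ∀ f, x (q f) = mk (lam f) := fun f => by
      change g (φ (q f)) = _
      rw [← hlam, hg]
    have hnv : IsNV 𝒜 x := by
      by_contra hcon
      have h1 : ∀ k, 0 < k → ∀ r ∈ 𝒜 k, x r = 0 := by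
        intro k hk r hr
        by_contra hne
        exact hcon ⟨k, hk, r, hr, hne⟩
      have h2 : Ideal.span {b | ∃ k, 0 < k ∧ ∃ r ∈ 𝒜 k, b = φ r} ≤ RingHom.ker g := by
        rw [Ideal.span_le]
        rintro _ ⟨k, hk, r, hr, rfl⟩
        exact h1 k hk r hr
      rw [hunit, top_le_iff] at h2
      have h3 : (1 : B) ∈ RingHom.ker g := by rw [h2]; trivial
      rw [RingHom.mem_ker, map_one] at h3
      exact one_ne_zero h3
    obtain ⟨D, e, hD, he, hcert⟩ := sm_certificate hX q hq hnv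
    apply hD
    rw [hx]
    have hmem : lam D ∈ 𝔟 := by
      refine ⟨fun i => lam (e i), fun i => by rw [hlam, he, map_zero], fun f hf => ?_⟩
      have h1 := hlam2 _ (hcert f hf)
      rw [map_sub, map_mul, map_sum, sub_eq_zero] at h1
      rw [h1]
      exact Finset.sum_congr rfl fun i _ => by rw [map_mul]
    exact Ideal.Quotient.eq_zero_iff_mem.mpr (hle hmem)

end Vale.Agent.P292.VF
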